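import Claimed.Agent.R316.Base.Heat.L2.Energy

/-!
# Row 316, BP-G8, file 8: the heat kernel; test data up to `t = 0`

Statement file by helper55.  `p_{t,x} = heatPt 𝓜 g t x ∈ L²` is the Riesz representative of `f ↦ (e^{tΔ} f)(x)`;
`heatK 𝓜 g t x y = ⟪p_{t/2,x}, p_{t/2,y}⟫` (`0` off the carrier); `heatP 𝓜 g t f x = ∫ heatK t x y f(y) dV(y)`.

## Leaf G8-KER-A (section `alg`; only `IsMetric`), ~400 lines
* `inner_heatPt`: `InnerProductSpace.toDual_symm_apply`.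
* `sg_heatPt`: test against `f`: `⟪P_s p_{t,x}, f⟫ = ⟪p_{t,x}, P_s f⟫ = (P_t P_s f)(x) = (P_{t+s} f)(x)` (`inner_sg_comm`, `heatL_add_time`).
* `inner_heatPt_heatPt`: for `s ≤ t` put `m = (s+t)/2`: `p_{t,y} = P_{t-m} p_{m,y}`, move `P_{t-m}` to the left: `P_{t-m} p_{s,x} = p_{m,x}`.
* `heatK_eq_heatL`: `(P_s p_{t,y})(x) = ⟪p_{s,x}, p_{t,y}⟫`.  `heatPt_ae_eq`: `p_{t,x} = P_{t/2} p_{t/2,x}`, whose continuous representative is `y ↦ ⟪p_{t/2,y}, p_{t/2,x}⟫`.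
* smoothness: `(t,z) ↦ heatPt t (Φ z)` is smooth into `L²` (`contDiffOn_heatEv` + the linear isometry `toDual.symm`), `ContDiffOn.inner`.
* heat equation: `heatK (s + t₀) x y = heatL s (heatPt t₀ y) x`, `hasDerivAt_heatL`.
## Leaf G8-KER-B (section `markov`; Kaehler, connected, proper), ~300 lines
* `heatK ≥ 0`: `ae_nonneg_of_forall_inner_nonneg` + `heatL_nonneg` give `p_{t,x} ≥ 0` a.e.; `heatK t x y = ⟪p,p'⟫ = ∫ p p' ≥ 0`.
* `∫ heatK ≤ 1`: `𝓜.carrier = ⋃ K_n` compact increasing (`CMfd.isSigmaCompact_carrier`); `∫_{K_n} heatK t x = heatL t (toL2 1_{K_n}) x ≤ 1` (`heatL_le_of_le`); monotone convergence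
  (`integrable_of_tendsto`-type: `MeasureTheory.lintegral_iUnion`/`integrableOn_iUnion_of_summable…`; simplest through `lintegral` and `ofReal`).
## Leaf G8-INIT (section `init`), ~350 lines
`φ` test.  For `a, b`: `φ = R^{a+b} ψ` (`exists_test_heatR_pow`).  For `t ≥ 0`, `x ∈ M`: `u(t,x) = evR a x ((sg R t * R^b) [ψ])`: for `t > 0` since `sg R t R^{a+b} = R^a (sg R t R^b)` (`sg_commute_self`), `evR_apply`,
`heatEv_apply`; for `t = 0` since `crep [φ] = φ` (`crep_toL2`).  `contDiffOn_clm_apply_prod` with `contDiffOn_evR` (`a` large) and `contDiffOn_sg_mul_pow` (`b = m + 1`) gives `C^m` on `Ici 0 ×ˢ U` for every `m`.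
-/

set_option autoImplicit false
set_option maxSynthPendingDepth 6
set_option linter.unusedSectionVars false
set_option linter.deprecated false
open scoped ContDiff ComplexOrder Topology InnerProductSpace
open MeasureTheory Set Filter

namespace Claimed.Agent.R316

variable {V : Type} [NormedAddCommGroup V] [NormedSpace ℝ V] [FiniteDimensional ℝ V]
  [MeasurableSpace V] [BorelSpace V]
variable {ι : Type} [Fintype ι] [DecidableEq ι]

/-- the Riesz representative of `f ↦ (e^{tΔ} f)(x)`. -/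
noncomputable def heatPt (𝓜 : CMfd V ι) (g : HFam V ι) (t : ℝ) (x : V) : L2M 𝓜 g :=
  (InnerProductSpace.toDual ℝ (L2M 𝓜 g)).symm (heatEv 𝓜 g 0 t x)

open Classical in
/-- **the heat kernel** of `Δ_g = lap 𝓜 g` (TIME FIRST). -/
noncomputable def heatK (𝓜 : CMfd V ι) (g : HFam V ι) (t : ℝ) (x y : V) : ℝ :=
  if x ∈ 𝓜.carrier ∧ y ∈ 𝓜.carrier then ⟪heatPt 𝓜 g (t / 2) x, heatPt 𝓜 g (t / 2) y⟫_ℝ else 0

/-- **the heat semigroup** acting on functions. -/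
noncomputable def heatP (𝓜 : CMfd V ι) (g : HFam V ι) (t : ℝ) (f : V → ℝ) (x : V) : ℝ :=
  ∫ y, heatK 𝓜 g t x y * f y ∂(hvol 𝓜 g)

variable {𝓜 : CMfd V ι} {g : HFam V ι} {s t : ℝ} {x y : V}

/-! ### algebra, smoothness -/

section alg

theorem inner_heatPt (𝓜 : CMfd V ι) (g : HFam V ι) (t : ℝ) (x : V) (f : L2M 𝓜 g) :
    ⟪heatPt 𝓜 g t x, f⟫_ℝ = heatL 𝓜 g t f x := by
  rw [heatPt, InnerProductSpace.toDual_symm_apply]; rfl

theorem sg_heatPt (hg : IsMetric 𝓜 g) (hs : 0 ≤ s) (ht : 0 < t) (hx : x ∈ 𝓜.carrier) :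
    sg (heatR 𝓜 g) s (heatPt 𝓜 g t x) = heatPt 𝓜 g (t + s) x := by
  refine ext_inner_right ℝ fun f => ?_
  rw [inner_sg_comm, inner_heatPt, inner_heatPt, heatL_add_time hg hs ht hx]

theorem kerA_inner_shift (hg : IsMetric 𝓜 g) {a d e : ℝ} (ha : 0 < a) (hd : 0 < d) (he : 0 ≤ e)
    (hx : x ∈ 𝓜.carrier) (hy : y ∈ 𝓜.carrier) :
    ⟪heatPt 𝓜 g a x, heatPt 𝓜 g (d + e) y⟫_ℝ = ⟪heatPt 𝓜 g (a + e) x, heatPt 𝓜 g d y⟫_ℝ := by
  rw [← sg_heatPt hg he hd hy, ← sg_heatPt hg he ha hx, inner_sg_comm]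

theorem inner_heatPt_heatPt (hg : IsMetric 𝓜 g) (hs : 0 < s) (ht : 0 < t) (hx : x ∈ 𝓜.carrier)
    (hy : y ∈ 𝓜.carrier) : ⟪heatPt 𝓜 g s x, heatPt 𝓜 g t y⟫_ℝ = heatK 𝓜 g (s + t) x y := by
  rw [heatK, if_pos ⟨hx, hy⟩]
  have hm : 0 < (s + t) / 2 := by positivity
  rcases le_total s t with h | h
  · have h1 := kerA_inner_shift hg hs hm (by linarith : 0 ≤ (t - s) / 2) hx hy
    rw [show (s + t) / 2 + (t - s) / 2 = t by ring, show s + (t - s) / 2 = (s + t) / 2 by ring] at h1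
    exact h1
  · have h1 := kerA_inner_shift hg hm ht (by linarith : 0 ≤ (s - t) / 2) hx hy
    rw [show (s + t) / 2 + (s - t) / 2 = s by ring, show t + (s - t) / 2 = (s + t) / 2 by ring] at h1
    exact h1.symm

theorem heatK_off (𝓜 : CMfd V ι) (g : HFam V ι) (t : ℝ) {x y : V}
    (h : x ∉ 𝓜.carrier ∨ y ∉ 𝓜.carrier) : heatK 𝓜 g t x y = 0 := by
  rw [heatK, if_neg]
  rintro ⟨h1, h2⟩
  exact h.elim (fun h => h h1) (fun h => h h2)

theorem heatK_symm (𝓜 : CMfd V ι) (g : HFam V ι) (t : ℝ) (x y : V) :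
    heatK 𝓜 g t x y = heatK 𝓜 g t y x := by
  by_cases h : x ∈ 𝓜.carrier ∧ y ∈ 𝓜.carrier
  · rw [heatK, heatK, if_pos h, if_pos h.symm, real_inner_comm]
  · rw [heatK, heatK, if_neg h, if_neg fun h' => h h'.symm]

theorem heatK_eq_heatL (hg : IsMetric 𝓜 g) (hs : 0 < s) (ht : 0 < t) (hx : x ∈ 𝓜.carrier)
    (hy : y ∈ 𝓜.carrier) : heatK 𝓜 g (s + t) x y = heatL 𝓜 g s (heatPt 𝓜 g t y) x := by
  rw [← inner_heatPt_heatPt hg hs ht hx hy, inner_heatPt]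

/-- `heatK t x ·` is the continuous representative of `p_{t,x}`. -/
theorem heatPt_ae_eq (hg : IsMetric 𝓜 g) (ht : 0 < t) (hx : x ∈ 𝓜.carrier) :
    (heatPt 𝓜 g t x : V → ℝ) =ᵐ[hvol 𝓜 g] heatK 𝓜 g t x := by
  have ht2 : 0 < t / 2 := by positivity
  have h1 := sg_heatPt hg ht2.le ht2 hx
  rw [add_halves] at h1
  rw [← h1]
  filter_upwards [heatL_ae_eq hg ht2 (heatPt 𝓜 g (t / 2) x), ae_mem_carrier 𝓜 g] with y hy hyM
  rw [hy, ← heatK_eq_heatL hg ht2 ht2 hyM hx, add_halves, heatK_symm]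

theorem memLp_heatK (hg : IsMetric 𝓜 g) (ht : 0 < t) (x : V) :
    MemLp (heatK 𝓜 g t x) 2 (hvol 𝓜 g) := by
  by_cases hx : x ∈ 𝓜.carrier
  · exact (Lp.memLp (heatPt 𝓜 g t x)).ae_eq (heatPt_ae_eq hg ht hx)
  · have : heatK 𝓜 g t x = fun _ => 0 := by
      funext y; exact heatK_off 𝓜 g t (Or.inl hx)
    rw [this]
    exact MemLp.zero'

theorem toL2_heatK (hg : IsMetric 𝓜 g) (ht : 0 < t) (hx : x ∈ 𝓜.carrier) :
    toL2 𝓜 g (heatK 𝓜 g t x) = heatPt 𝓜 g t x := by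
  rw [← toL2_congr (heatPt_ae_eq hg ht hx), toL2_coe]

/-- **reproducing property**. -/
theorem heatP_coe (hg : IsMetric 𝓜 g) (ht : 0 < t) (hx : x ∈ 𝓜.carrier) (f : L2M 𝓜 g) :
    heatP 𝓜 g t (f : V → ℝ) x = heatL 𝓜 g t f x := by
  rw [← inner_heatPt, inner_l2M, heatP]
  refine integral_congr_ae ?_
  filter_upwards [heatPt_ae_eq hg ht hx] with y hy
  rw [hy]

theorem heatP_eq_heatL (hg : IsMetric 𝓜 g) (ht : 0 < t) (hx : x ∈ 𝓜.carrier) {f : V → ℝ}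
    (hf : MemLp f 2 (hvol 𝓜 g)) : heatP 𝓜 g t f x = heatL 𝓜 g t (toL2 𝓜 g f) x := by
  rw [← heatP_coe hg ht hx, heatP, heatP]
  refine integral_congr_ae ?_
  filter_upwards [toL2_ae_eq hf] with y hy
  rw [hy]

theorem integrable_heatK_mul (hg : IsMetric 𝓜 g) (ht : 0 < t) (x : V) {f : V → ℝ}
    (hf : MemLp f 2 (hvol 𝓜 g)) : Integrable (fun y => heatK 𝓜 g t x y * f y) (hvol 𝓜 g) := by
  exact (memLp_heatK hg ht x).integrable_mul hf

/-- **Chapman-Kolmogorov**. -/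
theorem integral_heatK_mul_heatK (hg : IsMetric 𝓜 g) (hs : 0 < s) (ht : 0 < t) (hx : x ∈ 𝓜.carrier)
    (hy : y ∈ 𝓜.carrier) :
    ∫ z, heatK 𝓜 g s x z * heatK 𝓜 g t z y ∂(hvol 𝓜 g) = heatK 𝓜 g (s + t) x y := by
  rw [← inner_heatPt_heatPt hg hs ht hx hy, ← toL2_heatK hg hs hx, ← toL2_heatK hg ht hy,
    inner_toL2_toL2 (memLp_heatK hg hs x) (memLp_heatK hg ht y)]
  refine integral_congr_ae (Eventually.of_forall fun z => ?_)
  simp only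
  rw [heatK_symm 𝓜 g t z y]

/-- the Riesz isomorphism as a continuous linear map. -/
noncomputable def kerA_T (𝓜 : CMfd V ι) (g : HFam V ι) : (L2M 𝓜 g →L[ℝ] ℝ) →L[ℝ] L2M 𝓜 g :=
  (InnerProductSpace.toDual ℝ (L2M 𝓜 g)).symm.toContinuousLinearEquiv.toContinuousLinearMap

theorem kerA_heatPt_eq (𝓜 : CMfd V ι) (g : HFam V ι) (t : ℝ) (x : V) :
    heatPt 𝓜 g t x = kerA_T 𝓜 g (heatEv 𝓜 g 0 t x) := rfl

theorem contDiffOn_heatPt (hg : IsMetric 𝓜 g) {Φ : CE ι → V} {U : Set (CE ι)} (hΦ : 𝓜.IsHol Φ U) :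
    ContDiffOn ℝ ∞ (fun q : ℝ × CE ι => heatPt 𝓜 g q.1 (Φ q.2)) (Ioi 0 ×ˢ U) := by
  simp only [kerA_heatPt_eq]
  exact (kerA_T 𝓜 g).contDiff.comp_contDiffOn (contDiffOn_heatEv hg hΦ 0)

theorem kerA_continuousOn_heatPt (hg : IsMetric 𝓜 g) :
    ContinuousOn (fun p : ℝ × V => heatPt 𝓜 g p.1 p.2) (Ioi 0 ×ˢ 𝓜.carrier) := by
  simp only [kerA_heatPt_eq]
  exact (kerA_T 𝓜 g).continuous.comp_continuousOn (continuousOn_heatEv hg 0)

/-- **joint smoothness in `(t,x,y)`**. -/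
theorem contDiffOn_heatK (hg : IsMetric 𝓜 g) {Φ Ψ : CE ι → V} {U W : Set (CE ι)}
    (hΦ : 𝓜.IsHol Φ U) (hΨ : 𝓜.IsHol Ψ W) :
    ContDiffOn ℝ ∞ (fun q : ℝ × CE ι × CE ι => heatK 𝓜 g q.1 (Φ q.2.1) (Ψ q.2.2))
      (Ioi 0 ×ˢ U ×ˢ W) := by
  have h1 : ContDiffOn ℝ ∞ (fun q : ℝ × CE ι × CE ι => heatPt 𝓜 g (q.1 / 2) (Φ q.2.1))
      (Ioi 0 ×ˢ U ×ˢ W) :=
    (contDiffOn_heatPt hg hΦ).comp (f := fun q : ℝ × CE ι × CE ι => (q.1 / 2, q.2.1))
      ((contDiff_fst.div_const 2).prodMk (contDiff_fst.comp contDiff_snd)).contDiffOn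
      fun q hq => ⟨by have := hq.1; simp only [mem_Ioi] at this ⊢; positivity, hq.2.1⟩
  have h2 : ContDiffOn ℝ ∞ (fun q : ℝ × CE ι × CE ι => heatPt 𝓜 g (q.1 / 2) (Ψ q.2.2))
      (Ioi 0 ×ˢ U ×ˢ W) :=
    (contDiffOn_heatPt hg hΨ).comp (f := fun q : ℝ × CE ι × CE ι => (q.1 / 2, q.2.2))
      ((contDiff_fst.div_const 2).prodMk (contDiff_snd.comp contDiff_snd)).contDiffOn
      fun q hq => ⟨by have := hq.1; simp only [mem_Ioi] at this ⊢; positivity, hq.2.2⟩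
  refine (h1.inner ℝ h2).congr fun q hq => ?_
  rw [heatK, if_pos ⟨(𝓜.isParam hΦ).mem hq.2.1, (𝓜.isParam hΨ).mem hq.2.2⟩]

theorem continuousOn_heatK (hg : IsMetric 𝓜 g) :
    ContinuousOn (fun p : ℝ × V × V => heatK 𝓜 g p.1 p.2.1 p.2.2)
      (Ioi 0 ×ˢ 𝓜.carrier ×ˢ 𝓜.carrier) := by
  have h1 : ContinuousOn (fun p : ℝ × V × V => heatPt 𝓜 g (p.1 / 2) p.2.1)
      (Ioi 0 ×ˢ 𝓜.carrier ×ˢ 𝓜.carrier) :=
    (kerA_continuousOn_heatPt hg).comp (f := fun p : ℝ × V × V => (p.1 / 2, p.2.1))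
      ((continuous_fst.div_const 2).prodMk (continuous_fst.comp continuous_snd)).continuousOn
      fun q hq => ⟨by have := hq.1; simp only [mem_Ioi] at this ⊢; positivity, hq.2.1⟩
  have h2 : ContinuousOn (fun p : ℝ × V × V => heatPt 𝓜 g (p.1 / 2) p.2.2)
      (Ioi 0 ×ˢ 𝓜.carrier ×ˢ 𝓜.carrier) :=
    (kerA_continuousOn_heatPt hg).comp (f := fun p : ℝ × V × V => (p.1 / 2, p.2.2))
      ((continuous_fst.div_const 2).prodMk (continuous_snd.comp continuous_snd)).continuousOn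
      fun q hq => ⟨by have := hq.1; simp only [mem_Ioi] at this ⊢; positivity, hq.2.2⟩
  refine (h1.inner h2).congr fun q hq => ?_
  rw [heatK, if_pos ⟨hq.2.1, hq.2.2⟩]

theorem smoothST_heatK (hg : IsMetric 𝓜 g) (y : V) :
    𝓜.SmoothST (Ioi 0) (fun t x => heatK 𝓜 g t x y) := by
  intro Φ U hΦ
  by_cases hy : y ∈ 𝓜.carrier
  · obtain ⟨Ψ, W, hΨ, w₀, hw₀, rfl⟩ := 𝓜.cover y hy
    exact (contDiffOn_heatK hg hΦ hΨ).comp (f := fun q : ℝ × CE ι => (q.1, q.2, w₀))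
      (contDiff_fst.prodMk (contDiff_snd.prodMk contDiff_const)).contDiffOn
      fun q hq => ⟨hq.1, hq.2, hw₀⟩
  · simp only [heatK_off 𝓜 g _ (Or.inr hy)]
    exact contDiffOn_const

/-- **the heat equation for the kernel**. -/
theorem hasDerivAt_heatK (hK : IsKahler 𝓜 g) (ht : 0 < t) (hx : x ∈ 𝓜.carrier) (y : V) :
    HasDerivAt (fun s => heatK 𝓜 g s x y) (lap 𝓜 g (fun x' => heatK 𝓜 g t x' y) x) t := by
  have hg := hK.toIsMetric
  by_cases hy : y ∈ 𝓜.carrier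
  · have ht2 : 0 < t / 2 := by positivity
    have h1 : HasDerivAt (fun s => heatL 𝓜 g (s - t / 2) (heatPt 𝓜 g (t / 2) y) x)
        (lap 𝓜 g (heatL 𝓜 g (t - t / 2) (heatPt 𝓜 g (t / 2) y)) x) t :=
      (hasDerivAt_heatL hK (by linarith : 0 < t - t / 2) hx
        (heatPt 𝓜 g (t / 2) y)).comp_sub_const t (t / 2)
    have e1 : lap 𝓜 g (fun x' => heatK 𝓜 g t x' y) x
        = lap 𝓜 g (heatL 𝓜 g (t - t / 2) (heatPt 𝓜 g (t / 2) y)) x := by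
      refine lap_congr_of_eqOn g (fun x' hx' => ?_) hx
      rw [← heatK_eq_heatL hg (by linarith) ht2 hx' hy, sub_add_cancel]
    rw [e1]
    refine h1.congr_of_eventuallyEq ?_
    filter_upwards [Ioi_mem_nhds (by linarith : t / 2 < t)] with s hs
    rw [← heatK_eq_heatL hg (sub_pos.2 hs) ht2 hx hy, sub_add_cancel]
  · simp only [heatK_off 𝓜 g _ (Or.inr hy), lap_const]
    exact hasDerivAt_const t 0

/-- `L²` data: smooth solution. -/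
theorem smoothST_heatP (hg : IsMetric 𝓜 g) {f : V → ℝ} (hf : MemLp f 2 (hvol 𝓜 g)) :
    𝓜.SmoothST (Ioi 0) (fun t => heatP 𝓜 g t f) := by
  intro Φ U hΦ
  refine (smoothST_heatL hg (toL2 𝓜 g f) Φ U hΦ).congr fun q hq => ?_
  exact heatP_eq_heatL hg hq.1 ((𝓜.isParam hΦ).mem hq.2) hf

theorem hasDerivAt_heatP (hK : IsKahler 𝓜 g) (ht : 0 < t) (hx : x ∈ 𝓜.carrier) {f : V → ℝ}
    (hf : MemLp f 2 (hvol 𝓜 g)) :
    HasDerivAt (fun s => heatP 𝓜 g s f x) (lap 𝓜 g (heatP 𝓜 g t f) x) t := by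
  have hg := hK.toIsMetric
  rw [lap_congr_of_eqOn g (fun x' hx' => heatP_eq_heatL hg ht hx' hf) hx]
  refine (hasDerivAt_heatL hK ht hx (toL2 𝓜 g f)).congr_of_eventuallyEq ?_
  filter_upwards [Ioi_mem_nhds ht] with s hs using heatP_eq_heatL hg hs hx hf

end alg

/-! ### positivity, mass -/

section markov

theorem heatPt_nonneg (hK : IsKahler 𝓜 g) (hconn : IsConnected 𝓜.carrier) (hp : IsProperMetric 𝓜 g)
    (ht : 0 < t) (hx : x ∈ 𝓜.carrier) : ∀ᵐ y ∂(hvol 𝓜 g), 0 ≤ heatPt 𝓜 g t x y := by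
  refine ae_nonneg_of_forall_inner_nonneg _ fun G hG => ?_
  rw [inner_heatPt]
  exact heatL_nonneg hK hconn hp ht hG hx

theorem heatK_nonneg (hK : IsKahler 𝓜 g) (hconn : IsConnected 𝓜.carrier) (hp : IsProperMetric 𝓜 g)
    (ht : 0 < t) (x y : V) : 0 ≤ heatK 𝓜 g t x y := by
  by_cases h : x ∈ 𝓜.carrier ∧ y ∈ 𝓜.carrier
  · rw [heatK, if_pos h, inner_l2M]
    have ht2 : 0 < t / 2 := by positivity
    refine integral_nonneg_of_ae ?_
    filter_upwards [heatPt_nonneg hK hconn hp ht2 h.1, heatPt_nonneg hK hconn hp ht2 h.2]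
      with z h1 h2 using mul_nonneg h1 h2
  · rw [heatK, if_neg h]

/-- mass over a set of finite volume. -/
theorem kerB_setIntegral_le (hK : IsKahler 𝓜 g) (hconn : IsConnected 𝓜.carrier)
    (hp : IsProperMetric 𝓜 g) (ht : 0 < t) (hx : x ∈ 𝓜.carrier) {S : Set V}
    (hS : MeasurableSet S) (hfin : hvol 𝓜 g S ≠ ⊤) :
    ∫ y in S, heatK 𝓜 g t x y ∂(hvol 𝓜 g) ≤ 1 := by
  have hg := hK.toIsMetric
  have h1 : ∫ y in S, heatK 𝓜 g t x y ∂(hvol 𝓜 g)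
      = heatL 𝓜 g t (indicatorConstLp 2 hS hfin (1 : ℝ)) x := by
    rw [← inner_heatPt, real_inner_comm, L2.inner_indicatorConstLp_one]
    exact (setIntegral_congr_ae₀ hS.nullMeasurableSet
      ((heatPt_ae_eq hg ht hx).mono fun y hy _ => hy)).symm
  rw [h1]
  refine heatL_le_of_le hK hconn hp ht ?_ hx
  filter_upwards [indicatorConstLp_coeFn (p := 2) (hs := hS) (hμs := hfin) (c := (1 : ℝ))] with y hy
  rw [hy]
  exact indicator_le_self' (fun _ _ => zero_le_one) y |>.trans le_rfl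

theorem kerB_aecover (μ : Measure V) [SigmaFinite μ] : AECover μ atTop (spanningSets μ) where
  ae_eventually_mem := Eventually.of_forall fun x => by
    have hx : x ∈ ⋃ n, spanningSets μ n := by rw [iUnion_spanningSets]; trivial
    obtain ⟨n, hn⟩ := mem_iUnion.1 hx
    filter_upwards [eventually_ge_atTop n] with m hm using monotone_spanningSets μ hm hn
  measurableSet := measurableSet_spanningSets μ

theorem integrable_heatK (hK : IsKahler 𝓜 g) (hconn : IsConnected 𝓜.carrier)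
    (hp : IsProperMetric 𝓜 g) (ht : 0 < t) (x : V) : Integrable (heatK 𝓜 g t x) (hvol 𝓜 g) := by
  have hg := hK.toIsMetric
  by_cases hx : x ∈ 𝓜.carrier
  · have := sigmaFinite_hvol hg
    have hc : AECover (hvol 𝓜 g) atTop (spanningSets (hvol 𝓜 g)) :=
      kerB_aecover _
    refine hc.integrable_of_integral_bounded_of_nonneg_ae 1 (fun n => ?_)
      (Eventually.of_forall fun y => heatK_nonneg hK hconn hp ht x y)
      (Eventually.of_forall fun n => kerB_setIntegral_le hK hconn hp ht hx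
        (measurableSet_spanningSets _ n) (measure_spanningSets_lt_top _ n).ne)
    have : IsFiniteMeasure ((hvol 𝓜 g).restrict (spanningSets (hvol 𝓜 g) n)) :=
      ⟨by rw [Measure.restrict_apply_univ]; exact measure_spanningSets_lt_top _ n⟩
    exact ((memLp_heatK hg ht x).restrict _).integrable (by norm_num)
  · have : heatK 𝓜 g t x = fun _ => 0 := by
      funext y; exact heatK_off 𝓜 g t (Or.inl hx)
    rw [this]
    exact integrable_zero _ _ _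

/-- **sub-Markov**. -/
theorem integral_heatK_le_one (hK : IsKahler 𝓜 g) (hconn : IsConnected 𝓜.carrier)
    (hp : IsProperMetric 𝓜 g) (ht : 0 < t) (x : V) : ∫ y, heatK 𝓜 g t x y ∂(hvol 𝓜 g) ≤ 1 := by
  have hg := hK.toIsMetric
  by_cases hx : x ∈ 𝓜.carrier
  · have := sigmaFinite_hvol hg
    have hc : AECover (hvol 𝓜 g) atTop (spanningSets (hvol 𝓜 g)) :=
      kerB_aecover _
    refine le_of_tendsto (hc.integral_tendsto_of_countably_generated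
      (integrable_heatK hK hconn hp ht x)) (Eventually.of_forall fun n => ?_)
    exact kerB_setIntegral_le hK hconn hp ht hx
        (measurableSet_spanningSets _ n) (measure_spanningSets_lt_top _ n).ne
  · simp only [heatK_off 𝓜 g t (Or.inl hx), integral_zero, zero_le_one]

/-- bounded measurable data. -/
theorem abs_heatP_le (hK : IsKahler 𝓜 g) (hconn : IsConnected 𝓜.carrier) (hp : IsProperMetric 𝓜 g)
    (ht : 0 < t) (x : V) {f : V → ℝ} {C : ℝ} (hC : 0 ≤ C) (hf : ∀ y ∈ 𝓜.carrier, |f y| ≤ C) :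
    |heatP 𝓜 g t f x| ≤ C := by
  have h1 : ‖∫ y, heatK 𝓜 g t x y * f y ∂(hvol 𝓜 g)‖ ≤ ∫ y, C * heatK 𝓜 g t x y ∂(hvol 𝓜 g) := by
    refine norm_integral_le_of_norm_le ((integrable_heatK hK hconn hp ht x).const_mul C) ?_
    filter_upwards [ae_mem_carrier 𝓜 g] with y hy
    rw [norm_mul, Real.norm_eq_abs, Real.norm_eq_abs, abs_of_nonneg (heatK_nonneg hK hconn hp ht x y),
      mul_comm]
    exact mul_le_mul_of_nonneg_right (hf y hy) (heatK_nonneg hK hconn hp ht x y)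
  rw [heatP, ← Real.norm_eq_abs]
  refine h1.trans ?_
  rw [integral_const_mul]
  exact mul_le_of_le_one_right hC (integral_heatK_le_one hK hconn hp ht x)

end markov

/-! ### test data -/

section init

variable {φ : V → ℝ}

/-- the common formula for `t ≥ 0`. -/
theorem init_eq_evR (hK : IsKahler 𝓜 g) (hφ : 𝓜.IsTest φ) {ψ : V → ℝ} {a b : ℕ}
    (ha : 2 * Fintype.card ι + 1 ≤ 2 * a)
    (hψ : (heatR 𝓜 g ^ (a + b)) (toL2 𝓜 g ψ) = toL2 𝓜 g φ) (ht : 0 ≤ t) (hx : x ∈ 𝓜.carrier) :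
    (if t = 0 then φ x else heatP 𝓜 g t φ x)
      = evR 𝓜 g a x ((sg (heatR 𝓜 g) t * heatR 𝓜 g ^ b) (toL2 𝓜 g ψ)) := by
  have hg := hK.toIsMetric
  have hR := isUnitOp_heatR hg
  have hm := hφ.memLp hg 2
  rw [evR_apply hg ha hx]
  have e : (heatR 𝓜 g ^ a) ((sg (heatR 𝓜 g) t * heatR 𝓜 g ^ b) (toL2 𝓜 g ψ))
      = sg (heatR 𝓜 g) t (toL2 𝓜 g φ) := by
    rw [← hψ, pow_add]
    have hc := ((sg_commute_self hR t).pow_right a).eq
    calc (heatR 𝓜 g ^ a) ((sg (heatR 𝓜 g) t * heatR 𝓜 g ^ b) (toL2 𝓜 g ψ))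
        = ((heatR 𝓜 g ^ a * sg (heatR 𝓜 g) t) * heatR 𝓜 g ^ b) (toL2 𝓜 g ψ) := rfl
      _ = ((sg (heatR 𝓜 g) t * heatR 𝓜 g ^ a) * heatR 𝓜 g ^ b) (toL2 𝓜 g ψ) := by rw [hc]
      _ = _ := rfl
  rw [e]
  rcases ht.eq_or_lt with rfl | ht
  · rw [if_pos rfl, sg_zero]
    exact ((crep_toL2 hg hφ.1.continuousOn hm).2 hx).symm
  · rw [if_neg ht.ne', heatP_eq_heatL hg ht hx hm, heatL, heatEv_apply hg 0 ht hx, sg_of_pos _ ht]

/-- **test data: smooth up to `t = 0`**. -/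
theorem smoothST_heatP_test (hK : IsKahler 𝓜 g) (hφ : 𝓜.IsTest φ) :
    𝓜.SmoothST (Ici 0) (fun t x => if t = 0 then φ x else heatP 𝓜 g t φ x) := by
  have hg := hK.toIsMetric
  have hR := isUnitOp_heatR hg
  intro Φ U hΦ
  rw [contDiffOn_infty]
  intro m
  obtain ⟨ψ, -, hψ⟩ := exists_test_heatR_pow hK hφ ((m + Fintype.card ι + 1) + (m + 1))
  have h1 := contDiffOn_evR (m := m) (k := m + Fintype.card ι + 1) hg hΦ (by omega)
  have h2 : ContDiffOn ℝ m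
      (fun s => (sg (heatR 𝓜 g) s * heatR 𝓜 g ^ (m + 1)) (toL2 𝓜 g ψ)) (Ici 0) :=
    (contDiffOn_sg_mul_pow hR m).clm_apply contDiffOn_const
  refine (contDiffOn_clm_apply_prod h1 h2).congr fun q hq => ?_
  exact init_eq_evR hK hφ (by omega) hψ hq.1 ((𝓜.isParam hΦ).mem hq.2)

/-- `Δ e^{tΔ} φ = e^{tΔ} Δ φ`. -/
theorem lap_heatP_test (hK : IsKahler 𝓜 g) (hφ : 𝓜.IsTest φ) (ht : 0 < t) (hx : x ∈ 𝓜.carrier) :
    lap 𝓜 g (heatP 𝓜 g t φ) x = heatP 𝓜 g t (lap 𝓜 g φ) x := by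
  have hg := hK.toIsMetric
  have hR := isUnitOp_heatR hg
  have hm := hφ.memLp hg 2
  have hl := (hφ.lap hg).memLp hg 2
  rw [lap_congr_of_eqOn g (fun x' hx' => heatP_eq_heatL hg ht hx' hm) hx,
    heatP_eq_heatL hg ht hx hl]
  have h1 : lap 𝓜 g (heatL 𝓜 g t (toL2 𝓜 g φ)) x = - heatEv 𝓜 g 1 t x (toL2 𝓜 g φ) :=
    lap_heatEv_apply hK 0 ht hx (toL2 𝓜 g φ)
  rw [h1, heatL, heatEv_apply hg 1 ht hx, heatEv_apply hg 0 ht hx]
  -- `sgE 0 t [Δφ] = - sgE 1 t [φ]`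
  have e1 : toL2 𝓜 g φ - toL2 𝓜 g (lap 𝓜 g φ) = toL2 𝓜 g (fun x => φ x - lap 𝓜 g φ x) :=
    (toL2_sub hm hl).symm
  have e2 : heatR 𝓜 g (toL2 𝓜 g φ - toL2 𝓜 g (lap 𝓜 g φ)) = toL2 𝓜 g φ := by
    rw [e1, heatR_sub_lap hK hφ]
  have c0 := (sgE_commute_self hR 0 t).eq
  have c1 := (sgE_commute_self hR 1 t).eq
  have e3 : (sgE (heatR 𝓜 g) 0 t + sgE (heatR 𝓜 g) 1 t) * heatR 𝓜 g = sgE (heatR 𝓜 g) 0 t := by
    rw [add_mul, c0, c1, ← mul_add]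
    exact mul_sgE_add hR 0 ht
  have e4 : sgE (heatR 𝓜 g) 0 t (toL2 𝓜 g φ) + sgE (heatR 𝓜 g) 1 t (toL2 𝓜 g φ)
      = sgE (heatR 𝓜 g) 0 t (toL2 𝓜 g φ) - sgE (heatR 𝓜 g) 0 t (toL2 𝓜 g (lap 𝓜 g φ)) := by
    calc sgE (heatR 𝓜 g) 0 t (toL2 𝓜 g φ) + sgE (heatR 𝓜 g) 1 t (toL2 𝓜 g φ)
        = (sgE (heatR 𝓜 g) 0 t + sgE (heatR 𝓜 g) 1 t)
            (heatR 𝓜 g (toL2 𝓜 g φ - toL2 𝓜 g (lap 𝓜 g φ))) := by rw [e2]; rfl
      _ = ((sgE (heatR 𝓜 g) 0 t + sgE (heatR 𝓜 g) 1 t) * heatR 𝓜 g)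
            (toL2 𝓜 g φ - toL2 𝓜 g (lap 𝓜 g φ)) := rfl
      _ = _ := by rw [e3, map_sub]
  have e5 : sgE (heatR 𝓜 g) 0 t (toL2 𝓜 g (lap 𝓜 g φ))
      = (-1 : ℝ) • sgE (heatR 𝓜 g) 1 t (toL2 𝓜 g φ) := by
    rw [neg_one_smul, eq_neg_iff_add_eq_zero]
    have := sub_eq_zero.2 e4
    rw [← this]; abel
  rw [e5, crep_smul hg (-1) (hasRep_sgE hg 1 ht _) hx]
  ring

end init

end Claimed.Agent.R316
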