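import Mathlib

/-!
# Row 316, BP-G8, file 3: two lemmas of pure calculus

Statement file by helper55.  FRAMEWORK INDEPENDENT (only Mathlib).  One leaf: G8-CKLIM (~500 lines).

## `contDiffOn_clm_of_scalarwise` (weak smoothness with uniform bounds ⟹ norm smoothness)
`Λ : E → G →L[ℝ] F`; every `z ↦ Λ z w` is `C^{m+1}` on the open set `U`, with derivatives of order `≤ m+1` bounded by `C_K ‖w‖` on
compact sets `K ⊆ U`.  Then `Λ` is `C^m` on `U` for the operator norm.
PROOF by induction on `m`, for all `F` (generalize `F` and `Λ`).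
`m = 0`: on a closed ball `B ⊆ U`: `‖Λ z w - Λ z' w‖ ≤ C ‖w‖ ‖z - z'‖` (mean value inequality on the convex set `B`,
`Convex.norm_image_sub_le_of_norm_fderiv_le`; `‖fderiv‖ = ‖iteratedFDeriv 1‖`: `norm_fderiv_iteratedFDeriv`/`norm_iteratedFDeriv_one`), hence `‖Λ z - Λ z'‖ ≤ C ‖z - z'‖`
(`ContinuousLinearMap.opNorm_le_bound`).
`m + 1`: put `Λ' z : G →L[ℝ] (E →L[ℝ] F)`, `Λ' z w = fderiv ℝ (fun y => Λ y w) z` (linear in `w` since `fderiv_add`, `fderiv_const_smul`; bounded by `C ‖w‖`: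
`LinearMap.mkContinuous`; define it as `0` outside `U`).  `Λ'` satisfies the hypotheses with `m` (`norm_iteratedFDeriv_fderiv`;
`iteratedFDeriv` only depends on the germ: `Filter.EventuallyEq.iteratedFDeriv_eq`), so it is `C^m`.
`HasFDerivAt Λ ((Λ' z).flip) z`: `‖Λ (z+h) w - Λ z w - Λ' z w h‖ ≤ C ‖w‖ ‖h‖²` (mean value inequality applied to `y ↦ Λ y w - Λ' z w (y - z)`, whose
derivative at `y` is `Λ' y w - Λ' z w`, of norm `≤ C ‖w‖ ‖y - z‖` by the case `m = 0` for `Λ'`).  Conclude with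
`contDiffOn_succ_iff_fderiv_of_isOpen` and the continuous linear equivalence `ContinuousLinearMap.flipₗᵢ`.

## `contDiffOn_of_tendsto_of_cauchy` (limits in `C^∞_loc`)
Induction on the order with `hasFDerivAt_of_tendstoLocallyUniformlyOn` (Mathlib.Analysis.Calculus.UniformLimitsDeriv):
a locally uniformly Cauchy sequence of continuous functions with values in a complete space converges locally uniformly.
Prove for every `k : ℕ`, for all `F`: `u n → v` pointwise, `D^j u n` uniformly Cauchy on compacts for `j ≤ k` ⟹ `v ∈ C^k` and `D^j u n → D^j v`, `j ≤ k`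
(apply the induction hypothesis to `fderiv ℝ (u n)`).
-/

set_option autoImplicit false
set_option linter.unusedSectionVars false
set_option linter.deprecated false
set_option linter.unusedSimpArgs false
open scoped Topology ContDiff
open Set Filter

namespace Claimed.Agent.R316

variable {E : Type*} [NormedAddCommGroup E] [NormedSpace ℝ E] [FiniteDimensional ℝ E]
variable {G : Type*} [NormedAddCommGroup G] [NormedSpace ℝ G]
variable {F : Type*} [NormedAddCommGroup F] [NormedSpace ℝ F]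

/-- Lipschitz estimate for an iterated derivative. -/
theorem ckA_lip {f : E → F} {U : Set E} (hU : IsOpen U) {k : ℕ}
    (hf : ContDiffOn ℝ (k + 1 : ℕ) f U) {B : Set E} (hB : Convex ℝ B) (hBU : B ⊆ U) {M : ℝ}
    (hM : ∀ ξ ∈ B, ‖iteratedFDeriv ℝ (k + 1) f ξ‖ ≤ M) {y z : E} (hy : y ∈ B) (hz : z ∈ B) :
    ‖iteratedFDeriv ℝ k f y - iteratedFDeriv ℝ k f z‖ ≤ M * ‖y - z‖ := by
  refine Convex.norm_image_sub_le_of_norm_fderiv_le (𝕜 := ℝ) (fun x hx => ?_) (fun x hx => ?_)
    hB hz hy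
  · exact (hf.contDiffAt (hU.mem_nhds (hBU hx))).differentiableAt_iteratedFDeriv
      (by norm_cast; omega)
  · rw [norm_fderiv_iteratedFDeriv]; exact hM x hx

/-- second order Taylor estimate for an iterated derivative. -/
theorem ckA_taylor {f : E → F} {U : Set E} (hU : IsOpen U) {k : ℕ}
    (hf : ContDiffOn ℝ (k + 2 : ℕ) f U) {z : E} {r : ℝ} (hBU : Metric.closedBall z r ⊆ U) {M : ℝ}
    (hM : ∀ ξ ∈ Metric.closedBall z r, ‖iteratedFDeriv ℝ (k + 2) f ξ‖ ≤ M) {y : E}
    (hy : y ∈ Metric.closedBall z r) :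
    ‖iteratedFDeriv ℝ k f y - iteratedFDeriv ℝ k f z
      - (iteratedFDeriv ℝ (k + 1) f z).curryLeft (y - z)‖ ≤ M * ‖y - z‖ * ‖y - z‖ := by
  have hyz : ‖y - z‖ ≤ r := by rw [← dist_eq_norm]; exact hy
  have hsub : Metric.closedBall z ‖y - z‖ ⊆ Metric.closedBall z r := Metric.closedBall_subset_closedBall hyz
  have hzz : z ∈ Metric.closedBall z ‖y - z‖ := Metric.mem_closedBall_self (norm_nonneg _)
  have hM0 : 0 ≤ M := (norm_nonneg _).trans (hM z (hsub hzz))
  refine Convex.norm_image_sub_le_of_norm_fderiv_le' (𝕜 := ℝ) (s := Metric.closedBall z ‖y - z‖)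
    (fun x hx => ?_) (fun x hx => ?_) (convex_closedBall z _) hzz ?_
  · exact (hf.contDiffAt (hU.mem_nhds (hBU (hsub hx)))).differentiableAt_iteratedFDeriv
      (by norm_cast; omega)
  · rw [fderiv_iteratedFDeriv]
    have e : ((continuousMultilinearCurryLeftEquiv ℝ (fun _ : Fin (k + 1) => E) F) ∘
        iteratedFDeriv ℝ (k + 1) f) x - (iteratedFDeriv ℝ (k + 1) f z).curryLeft
        = (continuousMultilinearCurryLeftEquiv ℝ (fun _ : Fin (k + 1) => E) F)
          (iteratedFDeriv ℝ (k + 1) f x - iteratedFDeriv ℝ (k + 1) f z) := by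
      exact ((continuousMultilinearCurryLeftEquiv ℝ (fun _ : Fin (k + 1) => E) F).map_sub _ _).symm
    rw [e, LinearIsometryEquiv.norm_map]
    have h1 := ckA_lip (k := k + 1) hU hf (convex_closedBall z r) hBU hM (hsub hx) (hsub hzz)
    refine h1.trans (mul_le_mul_of_nonneg_left ?_ hM0)
    rw [← dist_eq_norm]; exact hx
  · rw [Metric.mem_closedBall, dist_eq_norm]

/-- norm of a multilinear map with values in operators. -/
theorem ckA_norm_le {k : ℕ} (x : E [×k]→L[ℝ] (G →L[ℝ] F)) {c : ℝ} (hc : 0 ≤ c)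
    (h : ∀ (w : G) (v : Fin k → E), ‖x v w‖ ≤ c * ‖w‖ * ∏ i, ‖v i‖) : ‖x‖ ≤ c := by
  refine ContinuousMultilinearMap.opNorm_le_bound hc fun v => ?_
  refine ContinuousLinearMap.opNorm_le_bound _ (by positivity) fun w => ?_
  calc ‖x v w‖ ≤ c * ‖w‖ * ∏ i, ‖v i‖ := h w v
    _ = c * (∏ i, ‖v i‖) * ‖w‖ := by ring

/-- **weak smoothness with uniform bounds implies norm smoothness**. -/
theorem contDiffOn_clm_of_scalarwise {U : Set E} (hU : IsOpen U) {Λ : E → G →L[ℝ] F} {m : ℕ}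
    (hsm : ∀ w : G, ContDiffOn ℝ (m + 1 : ℕ) (fun z => Λ z w) U)
    (hbd : ∀ K : Set E, IsCompact K → K ⊆ U → ∃ C : ℝ, ∀ w : G, ∀ j : ℕ, j ≤ m + 1 → ∀ z ∈ K,
      ‖iteratedFDeriv ℝ j (fun y => Λ y w) z‖ ≤ C * ‖w‖) :
    ContDiffOn ℝ m Λ U := by
  classical
  have hat : ∀ (w : G) (k : ℕ), k ≤ m + 1 → ∀ z ∈ U, ContDiffAt ℝ k (fun y => Λ y w) z :=
    fun w k hk z hz => ((hsm w).contDiffAt (hU.mem_nhds hz)).of_le (by exact_mod_cast hk)
  have hA : ∀ k : ℕ, k ≤ m + 1 → ∀ z ∈ U, ∃ L : G →L[ℝ] (E [×k]→L[ℝ] F),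
      ∀ w, L w = iteratedFDeriv ℝ k (fun y => Λ y w) z := by
    intro k hk z hz
    obtain ⟨C, hC⟩ := hbd {z} isCompact_singleton (singleton_subset_iff.2 hz)
    refine ⟨LinearMap.mkContinuous
      { toFun := fun w => iteratedFDeriv ℝ k (fun y => Λ y w) z
        map_add' := ?_
        map_smul' := ?_ } C (fun w => hC w k hk z rfl), fun w => rfl⟩
    · intro w w'
      have : (fun y => Λ y (w + w')) = (fun y => Λ y w) + (fun y => Λ y w') := by
        ext y; simp
      rw [this, iteratedFDeriv_add_apply (hat w k hk z hz) (hat w' k hk z hz)]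
    · intro c w
      have : (fun y => Λ y (c • w)) = c • (fun y => Λ y w) := by
        ext y; simp
      rw [this, iteratedFDeriv_const_smul_apply (hat w k hk z hz)]; rfl
  let P : E → FormalMultilinearSeries ℝ E (G →L[ℝ] F) := fun z k =>
    if h : k ≤ m + 1 ∧ z ∈ U then (Classical.choose (hA k h.1 z h.2)).flipMultilinear else 0
  have hP : ∀ k : ℕ, k ≤ m + 1 → ∀ z ∈ U, ∀ (w : G) (v : Fin k → E),
      P z k v w = iteratedFDeriv ℝ k (fun y => Λ y w) z v := by
    intro k hk z hz w v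
    simp only [P, dif_pos (And.intro hk hz)]
    rw [ContinuousLinearMap.flipMultilinear_apply_apply, Classical.choose_spec (hA k hk z hz) w]
  -- local balls
  have hball : ∀ z ∈ U, ∃ r : ℝ, 0 < r ∧ Metric.closedBall z r ⊆ U ∧ ∃ C : ℝ, 0 ≤ C ∧
      ∀ w : G, ∀ j : ℕ, j ≤ m + 1 → ∀ ξ ∈ Metric.closedBall z r,
        ‖iteratedFDeriv ℝ j (fun y => Λ y w) ξ‖ ≤ C * ‖w‖ := by
    intro z hz
    obtain ⟨r, hr, hrU⟩ := Metric.nhds_basis_closedBall.mem_iff.1 (hU.mem_nhds hz)
    obtain ⟨C, hC⟩ := hbd _ (isCompact_closedBall z r) hrU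
    refine ⟨r, hr, hrU, max C 0, le_max_right _ _, fun w j hj ξ hξ => (hC w j hj ξ hξ).trans ?_⟩
    exact mul_le_mul_of_nonneg_right (le_max_left _ _) (norm_nonneg _)
  have hlip : ∀ k : ℕ, k ≤ m → ∀ z ∈ U, ∃ r : ℝ, 0 < r ∧ ∃ C : ℝ, 0 ≤ C ∧
      ∀ y ∈ Metric.closedBall z r, ‖P y k - P z k‖ ≤ C * ‖y - z‖ := by
    intro k hk z hz
    obtain ⟨r, hr, hrU, C, hC0, hC⟩ := hball z hz
    refine ⟨r, hr, C, hC0, fun y hy => ckA_norm_le _ (by positivity) fun w v => ?_⟩
    have hzB : z ∈ Metric.closedBall z r := Metric.mem_closedBall_self hr.le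
    have h1 := ckA_lip (k := k) (f := fun y => Λ y w) hU
      ((hsm w).of_le (by exact_mod_cast (by omega : k + 1 ≤ m + 1))) (convex_closedBall z r) hrU
      (fun ξ hξ => hC w (k + 1) (by omega) ξ hξ) hy hzB
    rw [ContinuousMultilinearMap.sub_apply, ContinuousLinearMap.sub_apply,
      hP k (by omega) y (hrU hy), hP k (by omega) z hz, ← ContinuousMultilinearMap.sub_apply]
    calc ‖(iteratedFDeriv ℝ k (fun y => Λ y w) y - iteratedFDeriv ℝ k (fun y => Λ y w) z) v‖
        ≤ ‖iteratedFDeriv ℝ k (fun y => Λ y w) y - iteratedFDeriv ℝ k (fun y => Λ y w) z‖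
          * ∏ i, ‖v i‖ := ContinuousMultilinearMap.le_opNorm _ _
      _ ≤ (C * ‖w‖ * ‖y - z‖) * ∏ i, ‖v i‖ :=
          mul_le_mul_of_nonneg_right h1 (Finset.prod_nonneg fun _ _ => norm_nonneg _)
      _ = C * ‖y - z‖ * ‖w‖ * ∏ i, ‖v i‖ := by ring
  have hT : HasFTaylorSeriesUpToOn (m : ℕ∞) Λ P U := by
    refine ⟨fun z hz => ?_, fun k hk z hz => ?_, fun k hk z hz => ?_⟩
    · ext w
      have := hP 0 (by omega) z hz w 0
      rw [iteratedFDeriv_zero_apply] at this
      exact this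
    · have hk' : k < m := by exact_mod_cast hk
      refine HasFDerivAt.hasFDerivWithinAt ?_
      obtain ⟨r, hr, hrU, C, hC0, hC⟩ := hball z hz
      rw [hasFDerivAt_iff_isLittleO, Asymptotics.isLittleO_iff]
      intro c hc
      have hmem : Metric.closedBall z (min r (c / (C + 1))) ∈ 𝓝 z :=
        Metric.closedBall_mem_nhds z (lt_min hr (by positivity))
      filter_upwards [hmem] with y hy
      have hyr : y ∈ Metric.closedBall z r :=
        Metric.closedBall_subset_closedBall (min_le_left _ _) hy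
      have hyc : ‖y - z‖ ≤ c / (C + 1) := by
        rw [← dist_eq_norm]; exact (Metric.mem_closedBall.1 hy).trans (min_le_right _ _)
      have hb : ‖P y k - P z k - (P z (k + 1)).curryLeft (y - z)‖ ≤ C * ‖y - z‖ * ‖y - z‖ := by
        refine ckA_norm_le _ (by positivity) fun w v => ?_
        have h1 := ckA_taylor (k := k) (f := fun y => Λ y w) hU
          ((hsm w).of_le (by exact_mod_cast (by omega : k + 2 ≤ m + 1))) hrU
          (fun ξ hξ => hC w (k + 2) (by omega) ξ hξ) hyr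
        have e : (P y k - P z k - (P z (k + 1)).curryLeft (y - z)) v w
            = (iteratedFDeriv ℝ k (fun y => Λ y w) y - iteratedFDeriv ℝ k (fun y => Λ y w) z
              - (iteratedFDeriv ℝ (k + 1) (fun y => Λ y w) z).curryLeft (y - z)) v := by
          simp only [ContinuousMultilinearMap.sub_apply, ContinuousLinearMap.sub_apply,
            ContinuousMultilinearMap.curryLeft_apply]
          rw [hP k (by omega) y (hrU hyr), hP k (by omega) z hz, hP (k + 1) (by omega) z hz]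
        rw [e]
        refine (ContinuousMultilinearMap.le_opNorm _ _).trans ?_
        calc _ ≤ (C * ‖w‖ * ‖y - z‖ * ‖y - z‖) * ∏ i, ‖v i‖ :=
              mul_le_mul_of_nonneg_right h1 (Finset.prod_nonneg fun _ _ => norm_nonneg _)
          _ = C * ‖y - z‖ * ‖y - z‖ * ‖w‖ * ∏ i, ‖v i‖ := by ring
      refine hb.trans (mul_le_mul_of_nonneg_right ?_ (norm_nonneg _))
      calc C * ‖y - z‖ ≤ (C + 1) * (c / (C + 1)) :=
            mul_le_mul (by linarith) hyc (norm_nonneg _) (by positivity)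
        _ = c := by field_simp
    · have hk' : k ≤ m := by exact_mod_cast hk
      obtain ⟨r, hr, C, hC0, hC⟩ := hlip k hk' z hz
      refine ContinuousAt.continuousWithinAt ?_
      rw [ContinuousAt, tendsto_iff_norm_sub_tendsto_zero]
      have h1 : Tendsto (fun y : E => C * ‖y - z‖) (𝓝 z) (𝓝 0) := by
        have : Tendsto (fun y : E => C * ‖y - z‖) (𝓝 z) (𝓝 (C * ‖z - z‖)) :=
          (continuous_const.mul (continuous_id.sub continuous_const).norm).tendsto z
        simpa using this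
      refine squeeze_zero' (Eventually.of_forall fun _ => norm_nonneg _) ?_ h1
      filter_upwards [Metric.closedBall_mem_nhds z hr] with y hy using hC y hy
  exact_mod_cast hT.contDiffOn

/-- the derivatives of `Λ` are the expected ones. -/
theorem iteratedFDeriv_clm_apply_of_contDiffOn {U : Set E} (hU : IsOpen U) {Λ : E → G →L[ℝ] F} {m : ℕ}
    (hΛ : ContDiffOn ℝ m Λ U) {z : E} (hz : z ∈ U) {j : ℕ} (hj : j ≤ m) (w : G) (v : Fin j → E) :
    iteratedFDeriv ℝ j (fun y => Λ y w) z v = iteratedFDeriv ℝ j Λ z v w := by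
  have h := ContinuousLinearMap.iteratedFDeriv_comp_left (ContinuousLinearMap.apply ℝ F w)
    (hΛ.contDiffAt (hU.mem_nhds hz)) (i := j) (by exact_mod_cast hj)
  have e : (ContinuousLinearMap.apply ℝ F w) ∘ Λ = fun y => Λ y w := rfl
  rw [e] at h
  rw [h]; rfl

/-- joint smoothness of `(t,z) ↦ Λ z (b t)`. -/
theorem contDiffOn_clm_apply_prod {U : Set E} {I : Set ℝ} {Λ : E → G →L[ℝ] F} {b : ℝ → G}
    {m : WithTop ℕ∞} (hΛ : ContDiffOn ℝ m Λ U) (hb : ContDiffOn ℝ m b I) :
    ContDiffOn ℝ m (fun q : ℝ × E => Λ q.2 (b q.1)) (I ×ˢ U) := by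
  have h1 : ContDiffOn ℝ m (fun q : ℝ × E => Λ q.2) (I ×ˢ U) :=
    hΛ.comp contDiffOn_snd fun q hq => hq.2
  have h2 : ContDiffOn ℝ m (fun q : ℝ × E => b q.1) (I ×ˢ U) :=
    hb.comp contDiffOn_fst fun q hq => hq.1
  exact h1.clm_apply h2

/-- joint smoothness of `(t,z) ↦ Λ z ∘ B t`. -/
theorem contDiffOn_clm_comp_prod {G' : Type*} [NormedAddCommGroup G'] [NormedSpace ℝ G'] {U : Set E}
    {I : Set ℝ} {Λ : E → G →L[ℝ] F} {B : ℝ → G' →L[ℝ] G} {m : WithTop ℕ∞} (hΛ : ContDiffOn ℝ m Λ U)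
    (hB : ContDiffOn ℝ m B I) :
    ContDiffOn ℝ m (fun q : ℝ × E => (Λ q.2).comp (B q.1)) (I ×ˢ U) := by
  have h1 : ContDiffOn ℝ m (fun q : ℝ × E => Λ q.2) (I ×ˢ U) :=
    hΛ.comp contDiffOn_snd fun q hq => hq.2
  have h2 : ContDiffOn ℝ m (fun q : ℝ × E => B q.1) (I ×ˢ U) :=
    hB.comp contDiffOn_fst fun q hq => hq.1
  exact h1.clm_comp h2

/-- **limits in `C^∞_loc`**. -/
theorem contDiffOn_of_tendsto_of_cauchy [CompleteSpace F] {U : Set E} (hU : IsOpen U) {u : ℕ → E → F}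
    {v : E → F} (hu : ∀ n, ContDiffOn ℝ ∞ (u n) U)
    (hlim : ∀ z ∈ U, Tendsto (fun n => u n z) atTop (𝓝 (v z)))
    (hC : ∀ K : Set E, IsCompact K → K ⊆ U → ∀ j : ℕ, ∀ ε : ℝ, 0 < ε → ∃ N : ℕ, ∀ a b : ℕ, N ≤ a →
      N ≤ b → ∀ z ∈ K, ‖iteratedFDeriv ℝ j (u a) z - iteratedFDeriv ℝ j (u b) z‖ ≤ ε) :
    ContDiffOn ℝ ∞ v U ∧ ∀ j : ℕ, ∀ z ∈ U,
      Tendsto (fun n => iteratedFDeriv ℝ j (u n) z) atTop (𝓝 (iteratedFDeriv ℝ j v z)) := by
  classical
  have hex : ∀ k : ℕ, ∀ z ∈ U, ∃ L : E [×k]→L[ℝ] F,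
      Tendsto (fun n => iteratedFDeriv ℝ k (u n) z) atTop (𝓝 L) := by
    intro k z hz
    refine cauchySeq_tendsto_of_complete ?_
    rw [Metric.cauchySeq_iff]
    intro ε hε
    obtain ⟨N, hN⟩ := hC {z} isCompact_singleton (singleton_subset_iff.2 hz) k (ε / 2)
      (by positivity)
    exact ⟨N, fun a ha b hb => by
      rw [dist_eq_norm]; exact (hN a b ha hb z rfl).trans_lt (by linarith)⟩
  let P : E → FormalMultilinearSeries ℝ E F := fun z k =>
    if h : z ∈ U then Classical.choose (hex k z h) else 0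
  have hP : ∀ k : ℕ, ∀ z ∈ U,
      Tendsto (fun n => iteratedFDeriv ℝ k (u n) z) atTop (𝓝 (P z k)) := by
    intro k z hz
    simp only [P, dif_pos hz]
    exact Classical.choose_spec (hex k z hz)
  have hunif : ∀ k : ℕ, ∀ K : Set E, IsCompact K → K ⊆ U → ∀ ε : ℝ, 0 < ε → ∃ N : ℕ, ∀ a : ℕ,
      N ≤ a → ∀ z ∈ K, ‖iteratedFDeriv ℝ k (u a) z - P z k‖ ≤ ε := by
    intro k K hK hKU ε hε
    obtain ⟨N, hN⟩ := hC K hK hKU k ε hε
    refine ⟨N, fun a ha z hz => ?_⟩
    have h1 : Tendsto (fun b => ‖iteratedFDeriv ℝ k (u a) z - iteratedFDeriv ℝ k (u b) z‖) atTop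
        (𝓝 ‖iteratedFDeriv ℝ k (u a) z - P z k‖) :=
      (tendsto_const_nhds.sub (hP k z (hKU hz))).norm
    refine le_of_tendsto h1 ?_
    filter_upwards [eventually_ge_atTop N] with b hb using hN a b ha hb z hz
  have hder : ∀ k : ℕ, ∀ z ∈ U, HasFDerivAt (fun y => P y k) (P z (k + 1)).curryLeft z := by
    intro k z hz
    refine hasFDerivAt_of_tendstoLocallyUniformlyOn (l := atTop)
      (f := fun n => iteratedFDeriv ℝ k (u n))
      (f' := fun n y => (iteratedFDeriv ℝ (k + 1) (u n) y).curryLeft)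
      (g' := fun y => (P y (k + 1)).curryLeft) hU ?_ ?_ (fun y hy => hP k y hy) hz
    · rw [tendstoLocallyUniformlyOn_iff_forall_isCompact hU]
      intro K hKU hK
      rw [Metric.tendstoUniformlyOn_iff]
      intro ε hε
      obtain ⟨N, hN⟩ := hunif (k + 1) K hK hKU (ε / 2) (by positivity)
      filter_upwards [eventually_ge_atTop N] with a ha y hy
      rw [dist_comm, dist_eq_norm]
      have e : (iteratedFDeriv ℝ (k + 1) (u a) y).curryLeft - (P y (k + 1)).curryLeft
          = (continuousMultilinearCurryLeftEquiv ℝ (fun _ : Fin (k + 1) => E) F)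
            (iteratedFDeriv ℝ (k + 1) (u a) y - P y (k + 1)) :=
        ((continuousMultilinearCurryLeftEquiv ℝ (fun _ : Fin (k + 1) => E) F).map_sub _ _).symm
      rw [e, LinearIsometryEquiv.norm_map]
      exact (hN a ha y hy).trans_lt (by linarith)
    · intro n y hy
      have h1 := ((hu n).contDiffAt (hU.mem_nhds hy)).differentiableAt_iteratedFDeriv (m := k)
        (by exact_mod_cast (WithTop.coe_lt_top (k : ℕ)))
      have h2 := h1.hasFDerivAt
      rw [fderiv_iteratedFDeriv] at h2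
      exact h2
  have hT : HasFTaylorSeriesUpToOn ((⊤ : ℕ∞) : WithTop ℕ∞) v P U := by
    refine ⟨fun z hz => ?_, fun k _ z hz => (hder k z hz).hasFDerivWithinAt,
      fun k _ z hz => (hder k z hz).continuousAt.continuousWithinAt⟩
    have h1 := ((ContinuousMultilinearMap.apply ℝ (fun _ : Fin 0 => E) F 0).continuous.tendsto
      _).comp (hP 0 z hz)
    have h2 : Tendsto (fun n => u n z) atTop (𝓝 (P z 0 0)) := by
      refine h1.congr fun n => ?_
      simp [iteratedFDeriv_zero_apply]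
    exact tendsto_nhds_unique h2 (hlim z hz)
  refine ⟨hT.contDiffOn, fun j z hz => ?_⟩
  have h1 := hT.eq_iteratedFDerivWithin_of_uniqueDiffOn (m := j)
    (by exact_mod_cast le_top) hU.uniqueDiffOn hz
  rw [iteratedFDerivWithin_of_isOpen j hU hz] at h1
  rw [← h1]
  exact hP j z hz

end Claimed.Agent.R316
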