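import Claimed.Agent.R316.Base.Heat.L2.Sol
import Claimed.Agent.R316.Base.Metric.Api

/-!
# Row 316, BP-G8, file 7: energy inequality, `L²` comparison principle, positivity, sub-Markov property, minimality

Statement file by helper55.  `(M,g)` Kaehler, connected, PROPER (complete); `μ = hvol 𝓜 g`; `s⁺ = max s 0`.

## Leaf G8-CUT (section `cutoff`), ~250 lines
`hdist`-Lipschitz functions are `𝓜.LocLip` (`hdist_compare_compact` on closed balls of a parametrisation), `gradSq ≤ L²/4` (`gradSq_le_of_lipschitz`).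
Cutoff: `χ x = max 0 (min 1 (2 - hdist o x / ρ))`; `1/ρ`-Lipschitz (`abs_hdist_sub_le`), `= 1` on `B(o,ρ)`, `= 0` outside the compact set `hcball o (2ρ)`.
## Leaf G8-EN (section `energy`), ~500 lines
`E(s) = ∫ θ² (w_s⁺)²`.  `(w⁺)²` is `C¹` in time with derivative `2 w⁺ w'`; `hasDerivWithinAt_integral_hvol` on a small interval `Ioo (t-δ) (t+δ) ⊆ I`
(joint continuity from `CMfd.SmoothST.continuousOn`, `CMfd.SmoothST.smoothST_of_hasDerivWithinAt`; support `CMfd.CSupp.toST`, `CSuppST.mul_…`): `E'(t) = 2 ∫ θ² w⁺ w'`.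
`w⁺ w' ≤ w⁺ Δw` pointwise.  Green I (`integral_mul_lap`) with the locally Lipschitz compactly supported `φ = θ² w⁺`:
`2 ∫ θ² w⁺ Δw = - 2 ∫ ⟨∂(θ² w⁺),∂w⟩`.  At a.e. point (`CMfd.LocLip.ae_diffAt` for `θ` and for `w⁺`):
`⟨∂(θ² w⁺),∂w⟩ = θ² ⟨∂w⁺,∂w⟩ + 2 θ w⁺ ⟨∂θ,∂w⟩` (`gradInner_mul_left`), and
`w > 0`: `w⁺ = w` near the point (`gradInner_congr_left`), `- 2 θ²|∂w|² - 4 θ w ⟨∂θ,∂w⟩ ≤ 2 w² |∂θ|²` (`two_abs_gradInner_le` or `gradSq (θ w) ≥ 0`);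
`w < 0`: `w⁺ = 0` near the point; `w = 0`: the point is a minimum of `w⁺`, which is differentiable there, so `grad10 = 0` and `⟨∂w⁺,∂w⟩ = 0`.
`integral_sq_posPart_le`: mean value inequality (`image_sub_le_mul_sub_of_deriv_le`-type: `Convex.image_sub_le_mul_sub_of_deriv_le`) for `E` on `[a,b]`.
## Leaf G8-PMP (section `pmp`), ~450 lines: see the docstrings.
-/

set_option autoImplicit false
set_option maxSynthPendingDepth 6
set_option linter.unusedSectionVars false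
open scoped ContDiff ComplexOrder Topology InnerProductSpace
open MeasureTheory Set Filter

namespace Claimed.Agent.R316

variable {V : Type} [NormedAddCommGroup V] [NormedSpace ℝ V] [FiniteDimensional ℝ V]
  [MeasurableSpace V] [BorelSpace V]
variable {ι : Type} [Fintype ι] [DecidableEq ι]
variable {𝓜 : CMfd V ι} {g : HFam V ι}

/-! ### Lipschitz cutoffs -/

section cutoff

variable {ψ : V → ℝ} {L : ℝ} {o x : V}

theorem locLip_of_hdist_lipschitz (hg : IsMetric 𝓜 g)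
    (h : ∀ x ∈ 𝓜.carrier, ∀ y ∈ 𝓜.carrier, |ψ x - ψ y| ≤ L * hdist 𝓜 g x y) : 𝓜.LocLip ψ := by
  intro Φ U hΦ z hz
  have hU := CMfd.isOpen_dom hΦ
  obtain ⟨r, hr, hrU⟩ := Metric.nhds_basis_closedBall.mem_iff.1 (hU.mem_nhds hz)
  obtain ⟨c, C, δ, hc, hC, hδ, H⟩ := hdist_compare_compact hg hΦ (isCompact_closedBall z r) hrU
  refine ⟨(|L| * C).toNNReal, Metric.ball z (min r (δ / 2)),
    mem_nhdsWithin_of_mem_nhds (Metric.ball_mem_nhds z (by positivity)), ?_⟩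
  refine LipschitzOnWith.of_dist_le_mul fun w₁ h₁ w₂ h₂ => ?_
  have k₁ : w₁ ∈ Metric.closedBall z r :=
    Metric.ball_subset_closedBall (Metric.ball_subset_ball (min_le_left _ _) h₁)
  have k₂ : w₂ ∈ Metric.closedBall z r :=
    Metric.ball_subset_closedBall (Metric.ball_subset_ball (min_le_left _ _) h₂)
  have hd : ‖w₁ - w₂‖ < δ := by
    rw [← dist_eq_norm]
    have e₁ : dist w₁ z < δ / 2 := lt_of_lt_of_le (Metric.mem_ball.1 h₁) (min_le_right _ _)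
    have e₂ : dist w₂ z < δ / 2 := lt_of_lt_of_le (Metric.mem_ball.1 h₂) (min_le_right _ _)
    have := dist_triangle_right w₁ w₂ z
    linarith
  rw [Real.dist_eq, Real.coe_toNNReal _ (by positivity), dist_eq_norm]
  have h3 := (H w₁ k₁ w₂ k₂ hd).2
  have h4 := h (Φ w₁) (CMfd.mem_carrier hΦ (hrU k₁)) (Φ w₂) (CMfd.mem_carrier hΦ (hrU k₂))
  have h5 := hdist_nonneg 𝓜 g (Φ w₁) (Φ w₂)
  calc |(ψ ∘ Φ) w₁ - (ψ ∘ Φ) w₂| ≤ L * hdist 𝓜 g (Φ w₁) (Φ w₂) := h4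
    _ ≤ |L| * hdist 𝓜 g (Φ w₁) (Φ w₂) := mul_le_mul_of_nonneg_right (le_abs_self L) h5
    _ ≤ |L| * (C * ‖w₁ - w₂‖) := mul_le_mul_of_nonneg_left h3 (abs_nonneg L)
    _ = |L| * C * ‖w₁ - w₂‖ := by ring

theorem gradSq_le_of_hdist_lipschitz (hg : IsMetric 𝓜 g) (hL : 0 ≤ L)
    (h : ∀ x ∈ 𝓜.carrier, ∀ y ∈ 𝓜.carrier, |ψ x - ψ y| ≤ L * hdist 𝓜 g x y) (hx : x ∈ 𝓜.carrier) :
    gradSq 𝓜 g ψ x ≤ L ^ 2 / 4 := by
  refine gradSq_le_of_lipschitz hg hL hx ?_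
  filter_upwards [self_mem_nhdsWithin] with y hy
  rw [abs_sub_comm]
  exact h x hx y hy

theorem locLip_hdist (hg : IsMetric 𝓜 g) (hconn : IsConnected 𝓜.carrier) (ho : o ∈ 𝓜.carrier) :
    𝓜.LocLip (fun x => hdist 𝓜 g o x) := by
  refine locLip_of_hdist_lipschitz (L := 1) hg fun x hx y hy => ?_
  rw [one_mul]
  exact abs_hdist_sub_le hg hconn ho hx hy

/-- the profile of the cutoff is `1/ρ`-Lipschitz. -/
theorem en_abs_profile_sub_le {ρ : ℝ} (hρ : 0 < ρ) (s s' : ℝ) :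
    |max 0 (min 1 (2 - s / ρ)) - max 0 (min 1 (2 - s' / ρ))| ≤ 1 / ρ * |s - s'| := by
  have h1 : |max 0 (min 1 (2 - s / ρ)) - max 0 (min 1 (2 - s' / ρ))| ≤
      |min 1 (2 - s / ρ) - min 1 (2 - s' / ρ)| := abs_max_sub_max_le_abs _ _ _ |>.trans_eq' (by
        rw [max_comm 0, max_comm 0])
  have h2 : |min 1 (2 - s / ρ) - min 1 (2 - s' / ρ)| ≤ |(2 - s / ρ) - (2 - s' / ρ)| :=
    (abs_min_sub_min_le_max _ _ _ _).trans (by simp)
  have h3 : |(2 - s / ρ) - (2 - s' / ρ)| = 1 / ρ * |s - s'| := by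
    have : (2 - s / ρ) - (2 - s' / ρ) = - (1 / ρ * (s - s')) := by ring
    rw [this, abs_neg, abs_mul, abs_of_pos (by positivity : 0 < 1 / ρ)]
  linarith

/-- **Lipschitz cutoffs of a proper metric**. -/
theorem exists_lip_cutoff (hg : IsMetric 𝓜 g) (hconn : IsConnected 𝓜.carrier)
    (hp : IsProperMetric 𝓜 g) (ho : o ∈ 𝓜.carrier) {ρ : ℝ} (hρ : 0 < ρ) :
    ∃ χ : V → ℝ, 𝓜.LocLip χ ∧ 𝓜.CSupp χ ∧ (∀ x, 0 ≤ χ x ∧ χ x ≤ 1) ∧
      (∀ x ∈ 𝓜.carrier, hdist 𝓜 g o x ≤ ρ → χ x = 1) ∧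
      ∀ x ∈ 𝓜.carrier, gradSq 𝓜 g χ x ≤ 1 / (4 * ρ ^ 2) := by
  have hlip : ∀ x ∈ 𝓜.carrier, ∀ y ∈ 𝓜.carrier,
      |max 0 (min 1 (2 - hdist 𝓜 g o x / ρ)) - max 0 (min 1 (2 - hdist 𝓜 g o y / ρ))| ≤
        1 / ρ * hdist 𝓜 g x y := fun x hx y hy =>
    (en_abs_profile_sub_le hρ _ _).trans
      (mul_le_mul_of_nonneg_left (abs_hdist_sub_le hg hconn ho hx hy) (by positivity))
  refine ⟨fun x => max 0 (min 1 (2 - hdist 𝓜 g o x / ρ)), locLip_of_hdist_lipschitz hg hlip,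
    ⟨hcball 𝓜 g o (2 * ρ), hp o ho _, hcball_subset_carrier 𝓜 g o _, fun x hx hxK => ?_⟩,
    fun x => ⟨le_max_left _ _, max_le zero_le_one (min_le_left _ _)⟩, fun x hx hxρ => ?_,
    fun x hx => ?_⟩
  · have h1 : 2 * ρ < hdist 𝓜 g o x := by
      by_contra hcon
      exact hxK ⟨hx, not_lt.1 hcon⟩
    have h2 : 2 - hdist 𝓜 g o x / ρ ≤ 0 := by
      have : 2 < hdist 𝓜 g o x / ρ := by rw [lt_div_iff₀ hρ]; exact h1
      linarith
    exact max_eq_left ((min_le_right _ _).trans h2)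
  · have h2 : 1 ≤ 2 - hdist 𝓜 g o x / ρ := by
      have : hdist 𝓜 g o x / ρ ≤ 1 := by rw [div_le_one hρ]; exact hxρ
      linarith
    show max 0 (min 1 (2 - hdist 𝓜 g o x / ρ)) = 1
    rw [min_eq_left h2]
    exact max_eq_right zero_le_one
  · have := gradSq_le_of_hdist_lipschitz hg (by positivity : 0 ≤ 1 / ρ) hlip hx
    refine this.trans_eq ?_
    field_simp

end cutoff

/-! ### the energy inequality -/

section energy

variable {I : Set ℝ} {w w' : ℝ → V → ℝ} {θ : V → ℝ} {t a b c M : ℝ}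

/-- `s ↦ (s⁺)²` is differentiable with derivative `2 s⁺`. -/
theorem en_hasDerivAt_sq_posPart (y : ℝ) :
    HasDerivAt (fun s : ℝ => (max s 0) ^ 2) (2 * max y 0) y := by
  rcases lt_trichotomy y 0 with hy | hy | hy
  · have h1 : (fun s : ℝ => (max s 0) ^ 2) =ᶠ[𝓝 y] fun _ => (0 : ℝ) := by
      filter_upwards [Iio_mem_nhds hy] with s hs
      rw [max_eq_right (le_of_lt hs)]; norm_num
    rw [max_eq_right hy.le, mul_zero]
    exact (hasDerivAt_const y (0 : ℝ)).congr_of_eventuallyEq h1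
  · subst hy
    rw [max_self, mul_zero, hasDerivAt_iff_isLittleO]
    have h1 : (fun s : ℝ => s ^ 2) =o[𝓝 0] fun s : ℝ => s :=
      Asymptotics.isLittleO_pow_id (by norm_num)
    have h2 : (fun s : ℝ => (max s 0) ^ 2 - (max (0 : ℝ) 0) ^ 2 - (s - 0) • (0 : ℝ)) =O[𝓝 0]
        fun s : ℝ => s ^ 2 := by
      refine Asymptotics.IsBigO.of_bound 1 (Eventually.of_forall fun s => ?_)
      have e : (max s 0) ^ 2 - (max (0 : ℝ) 0) ^ 2 - (s - 0) • (0 : ℝ) = (max s 0) ^ 2 := by simp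
      rw [e, one_mul, Real.norm_eq_abs, Real.norm_eq_abs, abs_of_nonneg (sq_nonneg _),
        abs_of_nonneg (sq_nonneg _), ← sq_abs s]
      exact pow_le_pow_left₀ (le_max_right _ _) (max_le (le_abs_self s) (abs_nonneg s)) 2
    simpa using h2.trans_isLittleO h1
  · have h1 : (fun s : ℝ => (max s 0) ^ 2) =ᶠ[𝓝 y] fun s => s ^ 2 := by
      filter_upwards [Ioi_mem_nhds hy] with s hs
      rw [max_eq_left (le_of_lt hs)]
    rw [max_eq_left hy.le]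
    have := (hasDerivAt_pow 2 y).congr_of_eventuallyEq h1
    simpa using this

/-- the pointwise inequality behind the energy estimate. -/
theorem en_neg_gradInner_le (hg : IsMetric 𝓜 g) {u : V → ℝ} (hu : 𝓜.Smooth u) {x : V}
    (hx : x ∈ 𝓜.carrier) (hθ : 𝓜.DiffAt θ x) :
    - gradInner 𝓜 g (fun y => θ y ^ 2 * max (u y) 0) u x ≤ (max (u x) 0) ^ 2 * gradSq 𝓜 g θ x := by
  have huc : ContinuousWithinAt u 𝓜.carrier x := hu.continuousOn x hx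
  rcases lt_trichotomy (u x) 0 with hy | hy | hy
  · have h1 : ∀ᶠ y in 𝓝[𝓜.carrier] x, θ y ^ 2 * max (u y) 0 = (fun _ => (0 : ℝ)) y := by
      filter_upwards [huc (Iio_mem_nhds hy)] with y hy'
      rw [max_eq_right (le_of_lt hy'), mul_zero]
    rw [gradInner_congr_left g hx h1, gradInner_const_left, max_eq_right hy.le]
    simp
  · have h1 : IsLocalMin ((fun y => θ y ^ 2 * max (u y) 0) ∘ 𝓜.pΦ x) (𝓜.co x) := by
      refine Eventually.of_forall fun z => ?_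
      simp only [Function.comp_apply, 𝓜.pΦ_co hx, hy, max_self, mul_zero]
      positivity
    rw [gradInner_def, grad10_eq_zero_of_isLocalMin h1, dualIP_zero_left, hy]
    simp
  · have h1 : ∀ᶠ y in 𝓝[𝓜.carrier] x, θ y ^ 2 * max (u y) 0 = (fun y => (θ y * θ y) * u y) y := by
      filter_upwards [huc (Ioi_mem_nhds hy)] with y hy'
      rw [max_eq_left (le_of_lt hy'), sq]
    have hud := hu.diffAt hx
    rw [gradInner_congr_left g hx h1, gradInner_mul_left g hx (hθ.mul hθ) hud,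
      gradInner_mul_left g hx hθ hθ, max_eq_left hy.le, gradInner_self]
    have h2 := gradSq_nonneg hg (fun y => θ y * u y) hx
    rw [gradSq_mul hg hx hθ hud] at h2
    nlinarith

/-- **energy inequality** for subsolutions: `d/dt ∫ θ² (w⁺)² ≤ 2 ∫ (w⁺)² |∂θ|²`. -/
theorem exists_hasDerivAt_integral_sq_posPart (hK : IsKahler 𝓜 g) (hI : IsOpen I)
    (hw : 𝓜.SmoothST I w)
    (hd : ∀ t ∈ I, ∀ x ∈ 𝓜.carrier, HasDerivAt (fun s => w s x) (w' t x) t)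
    (hsub : ∀ t ∈ I, ∀ x ∈ 𝓜.carrier, 0 < w t x → w' t x ≤ lap 𝓜 g (w t) x)
    (hθ : 𝓜.LocLip θ) (hc : 𝓜.CSupp θ) (ht : t ∈ I) :
    ∃ E' : ℝ, HasDerivAt (fun s => ∫ x, θ x ^ 2 * (max (w s x) 0) ^ 2 ∂(hvol 𝓜 g)) E' t ∧
      E' ≤ 2 * ∫ x, (max (w t x) 0) ^ 2 * gradSq 𝓜 g θ x ∂(hvol 𝓜 g) := by
  have hg : IsMetric 𝓜 g := hK.toIsMetric
  obtain ⟨δ, hδ, hδI⟩ := Metric.isOpen_iff.1 hI t ht
  obtain ⟨J, hJ⟩ : ∃ J : Set ℝ, J = Ioo (t - δ) (t + δ) := ⟨_, rfl⟩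
  have hJI : J ⊆ I := by rw [hJ, ← Real.ball_eq_Ioo]; exact hδI
  have htJ : t ∈ J := by rw [hJ]; exact ⟨by linarith, by linarith⟩
  have hJo : J.OrdConnected := by rw [hJ]; exact ordConnected_Ioo
  have hJn : J.Nontrivial :=
    ⟨t, htJ, t + δ / 2, by rw [hJ]; exact ⟨by linarith, by linarith⟩, by linarith⟩
  have hwJ : 𝓜.SmoothST J w := hw.mono hJI
  have hdJ : ∀ s ∈ J, ∀ x ∈ 𝓜.carrier, HasDerivWithinAt (fun r => w r x) (w' s x) J s :=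
    fun s hs x hx => (hd s (hJI hs) x hx).hasDerivWithinAt
  have hw'J : 𝓜.SmoothST J w' := hwJ.smoothST_of_hasDerivWithinAt hJo hJn hdJ
  have hwc := hwJ.continuousOn
  have hw'c := hw'J.continuousOn
  have hθc : ContinuousOn θ 𝓜.carrier := hθ.continuousOn
  have hθc2 : ContinuousOn (fun p : ℝ × V => θ p.2) (J ×ˢ 𝓜.carrier) :=
    hθc.comp continuousOn_snd (fun p hp => hp.2)
  have hG : ContinuousOn (fun p : ℝ × V => θ p.2 ^ 2 * (max (w p.1 p.2) 0) ^ 2)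
      (J ×ˢ 𝓜.carrier) := (hθc2.pow 2).mul ((hwc.sup continuousOn_const).pow 2)
  have hG' : ContinuousOn (fun p : ℝ × V => θ p.2 ^ 2 * (2 * max (w p.1 p.2) 0 * w' p.1 p.2))
      (J ×ˢ 𝓜.carrier) :=
    (hθc2.pow 2).mul ((continuousOn_const.mul (hwc.sup continuousOn_const)).mul hw'c)
  have hder : ∀ s ∈ J, ∀ x ∈ 𝓜.carrier,
      HasDerivWithinAt (fun r => θ x ^ 2 * (max (w r x) 0) ^ 2)
        (θ x ^ 2 * (2 * max (w s x) 0 * w' s x)) J s := fun s hs x hx =>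
    (((en_hasDerivAt_sq_posPart (w s x)).comp s (hd s (hJI hs) x hx)).const_mul _).hasDerivWithinAt
  have hcs : 𝓜.CSuppST J (fun s x => θ x ^ 2 * (max (w s x) 0) ^ 2) :=
    ((hc.pow two_ne_zero).toST J).mul_right _
  have hD := hasDerivWithinAt_integral_hvol (G := fun s x => θ x ^ 2 * (max (w s x) 0) ^ 2)
    (G' := fun s x => θ x ^ 2 * (2 * max (w s x) 0 * w' s x)) hg hJo hG hG' hder hcs htJ
  refine ⟨_, hD.hasDerivAt (by rw [hJ]; exact Ioo_mem_nhds (by linarith) (by linarith)), ?_⟩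
  -- the bound
  have hu : 𝓜.Smooth (w t) := hw.smooth ht
  have hθ2 : 𝓜.LocLip (fun x => θ x ^ 2) := (hθ.mul hθ).congr (fun x _ => (sq _).symm)
  have hpos : 𝓜.LocLip (fun x => max (w t x) 0) := hu.locLip.max (CMfd.smooth_const 0).locLip
  have hφL : 𝓜.LocLip (fun x => θ x ^ 2 * max (w t x) 0) := hθ2.mul hpos
  have hφc : 𝓜.CSupp (fun x => θ x ^ 2 * max (w t x) 0) := (hc.pow two_ne_zero).mul_right _
  have hGr := integral_mul_lap hK hφL hφc hu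
  have hA : ∫ x, θ x ^ 2 * (2 * max (w t x) 0 * w' t x) ∂(hvol 𝓜 g) ≤
      ∫ x, 2 * (θ x ^ 2 * max (w t x) 0 * lap 𝓜 g (w t) x) ∂(hvol 𝓜 g) := by
    refine integral_hvol_mono ?_ ?_ fun x hx => ?_
    · exact integrable_hvol_of_csupp hg
        (continuousOn_slice_space_of_joint (G := fun s x => θ x ^ 2 * (2 * max (w s x) 0 * w' s x))
          hG' htJ) ((hc.pow two_ne_zero).mul_right _)
    · exact (integrable_mul_lap_of_csupp hg hφL.continuousOn hφc hu).const_mul 2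
    · rcases le_or_gt (w t x) 0 with h0 | h0
      · rw [max_eq_right h0]; simp
      · have := hsub t ht x hx h0
        rw [max_eq_left h0.le]
        have h1 : 0 ≤ θ x ^ 2 * (2 * w t x) := by positivity
        nlinarith [mul_le_mul_of_nonneg_left this h1]
  have hB : ∫ x, - gradInner 𝓜 g (fun y => θ y ^ 2 * max (w t y) 0) (w t) x ∂(hvol 𝓜 g) ≤
      ∫ x, (max (w t x) 0) ^ 2 * gradSq 𝓜 g θ x ∂(hvol 𝓜 g) := by
    refine integral_mono_ae ?_ ?_ ?_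
    · exact (integrable_gradInner_of_csupp_left hg hφL hφc hu.locLip).neg
    · exact integrable_mul_gradInner_of_csupp hg hθ hc hθ (hpos.continuousOn.pow 2)
    · filter_upwards [ae_mem_carrier 𝓜 g, hθ.ae_diffAt hg] with x hx hdx
      exact en_neg_gradInner_le hg hu hx hdx
  rw [integral_const_mul, hGr, ← integral_neg] at hA
  linarith

/-- integrated form. -/
theorem integral_sq_posPart_le (hK : IsKahler 𝓜 g) (hI : IsOpen I) (hw : 𝓜.SmoothST I w)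
    (hd : ∀ t ∈ I, ∀ x ∈ 𝓜.carrier, HasDerivAt (fun s => w s x) (w' t x) t)
    (hsub : ∀ t ∈ I, ∀ x ∈ 𝓜.carrier, 0 < w t x → w' t x ≤ lap 𝓜 g (w t) x)
    (hθ : 𝓜.LocLip θ) (hc : 𝓜.CSupp θ) (hab : a ≤ b) (hI' : Icc a b ⊆ I)
    (hθg : ∀ x ∈ 𝓜.carrier, gradSq 𝓜 g θ x ≤ c) (hc0 : 0 ≤ c)
    (hM : ∀ t ∈ Icc a b, Integrable (fun x => (max (w t x) 0) ^ 2) (hvol 𝓜 g) ∧
      ∫ x, (max (w t x) 0) ^ 2 ∂(hvol 𝓜 g) ≤ M) :
    ∫ x, θ x ^ 2 * (max (w b x) 0) ^ 2 ∂(hvol 𝓜 g) ≤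
      ∫ x, θ x ^ 2 * (max (w a x) 0) ^ 2 ∂(hvol 𝓜 g) + 2 * c * M * (b - a) := by
  have hg : IsMetric 𝓜 g := hK.toIsMetric
  have key : ∀ s ∈ Icc a b, ∃ E' : ℝ,
      HasDerivAt (fun s => ∫ x, θ x ^ 2 * (max (w s x) 0) ^ 2 ∂(hvol 𝓜 g)) E' s ∧
        E' ≤ 2 * c * M := by
    intro s hs
    obtain ⟨E', h1, h2⟩ := exists_hasDerivAt_integral_sq_posPart hK hI hw hd hsub hθ hc (hI' hs)
    refine ⟨E', h1, h2.trans ?_⟩
    have hu : 𝓜.Smooth (w s) := hw.smooth (hI' hs)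
    have hpos : 𝓜.LocLip (fun x => max (w s x) 0) := hu.locLip.max (CMfd.smooth_const 0).locLip
    have h3 : ∫ x, (max (w s x) 0) ^ 2 * gradSq 𝓜 g θ x ∂(hvol 𝓜 g) ≤
        ∫ x, (max (w s x) 0) ^ 2 * c ∂(hvol 𝓜 g) := by
      refine integral_hvol_mono ?_ ((hM s hs).1.mul_const c) fun x hx =>
        mul_le_mul_of_nonneg_left (hθg x hx) (by positivity)
      exact integrable_mul_gradInner_of_csupp hg hθ hc hθ (hpos.continuousOn.pow 2)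
    rw [integral_mul_const] at h3
    have h4 := mul_le_mul_of_nonneg_right (hM s hs).2 hc0
    nlinarith
  have h := (convex_Icc a b).image_sub_le_mul_sub_of_deriv_le
    (f := fun s => ∫ x, θ x ^ 2 * (max (w s x) 0) ^ 2 ∂(hvol 𝓜 g)) (C := 2 * c * M)
    (fun s hs => (key s hs).choose_spec.1.continuousAt.continuousWithinAt)
    (fun s hs => (key s (interior_subset hs)).choose_spec.1.differentiableAt.differentiableWithinAt)
    (fun s hs => by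
      obtain ⟨E', h1, h2⟩ := key s (interior_subset hs)
      rw [h1.deriv]; exact h2)
    a (left_mem_Icc.2 hab) b (right_mem_Icc.2 hab) hab
  linarith

end energy

/-! ### comparison principle and its consequences -/

section pmp

variable {w w' v v' : ℝ → V → ℝ} {T t M c : ℝ} {x : V} {f : L2M 𝓜 g}

/-- **`L²` comparison principle.**  `w` smooth on `(0,T) × M`, `∂_t w ≤ Δ w` where `w > 0`, `sup_t ‖w_t⁺‖₂ < ∞`, `‖w_t⁺‖₂ → 0` as `t → 0`.  Then `w ≤ 0`.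
PROOF: `integral_sq_posPart_le` with `θ = χ_ρ` (`exists_lip_cutoff`, `c = 1/(4ρ²)`) on `[a,t]`:
`∫_{B(o,ρ₀)} (w_t⁺)² ≤ ∫ χ_ρ² (w_t⁺)² ≤ ∫ (w_a⁺)² + M T/(2ρ²)` for `ρ ≥ ρ₀`; `a → 0`, `ρ → ∞`; continuity (`eq_zero_of_integral_hvol_eq_zero` or
`hvol_pos_of_mem_nhdsWithin`). -/
theorem le_zero_of_subsolution (hK : IsKahler 𝓜 g) (hconn : IsConnected 𝓜.carrier)
    (hp : IsProperMetric 𝓜 g) (hw : 𝓜.SmoothST (Ioo 0 T) w)
    (hd : ∀ t ∈ Ioo 0 T, ∀ x ∈ 𝓜.carrier, HasDerivAt (fun s => w s x) (w' t x) t)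
    (hsub : ∀ t ∈ Ioo 0 T, ∀ x ∈ 𝓜.carrier, 0 < w t x → w' t x ≤ lap 𝓜 g (w t) x)
    (hM : ∀ t ∈ Ioo 0 T, Integrable (fun x => (max (w t x) 0) ^ 2) (hvol 𝓜 g) ∧
      ∫ x, (max (w t x) 0) ^ 2 ∂(hvol 𝓜 g) ≤ M)
    (h0 : Tendsto (fun t => ∫ x, (max (w t x) 0) ^ 2 ∂(hvol 𝓜 g)) (𝓝[>] 0) (𝓝 0)) :
    ∀ t ∈ Ioo 0 T, ∀ x ∈ 𝓜.carrier, w t x ≤ 0 := by
  intro t ht x hx
  have hg : IsMetric 𝓜 g := hK.toIsMetric
  obtain ⟨o, ho⟩ := hconn.nonempty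
  have hM0 : 0 ≤ M := le_trans (integral_nonneg fun x => sq_nonneg _) (hM t ht).2
  have hcont : ∀ s ∈ Ioo 0 T, ContinuousOn (fun x => (max (w s x) 0) ^ 2) 𝓜.carrier := fun s hs =>
    ((hw.smooth hs).continuousOn.sup continuousOn_const).pow 2
  have step : ∀ ρ : ℝ, 0 < ρ → ∀ χ : V → ℝ, 𝓜.LocLip χ → 𝓜.CSupp χ → (∀ x, 0 ≤ χ x ∧ χ x ≤ 1) →
      (∀ x ∈ 𝓜.carrier, gradSq 𝓜 g χ x ≤ 1 / (4 * ρ ^ 2)) →
      ∫ x, χ x ^ 2 * (max (w t x) 0) ^ 2 ∂(hvol 𝓜 g) ≤ 2 * (1 / (4 * ρ ^ 2)) * M * t := by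
    intro ρ hρ χ hχL hχc hχ01 hχg
    have hc0 : 0 ≤ 1 / (4 * ρ ^ 2) := by positivity
    have h1 : ∀ a ∈ Ioo 0 t, ∫ x, χ x ^ 2 * (max (w t x) 0) ^ 2 ∂(hvol 𝓜 g) ≤
        ∫ x, (max (w a x) 0) ^ 2 ∂(hvol 𝓜 g) + 2 * (1 / (4 * ρ ^ 2)) * M * t := by
      intro a ha
      have haT : a ∈ Ioo 0 T := ⟨ha.1, ha.2.trans ht.2⟩
      have hsubI : Icc a t ⊆ Ioo 0 T := fun s hs =>
        ⟨lt_of_lt_of_le ha.1 hs.1, lt_of_le_of_lt hs.2 ht.2⟩
      have h2 := integral_sq_posPart_le hK isOpen_Ioo hw hd hsub hχL hχc ha.2.le hsubI hχg hc0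
        (fun s hs => hM s (hsubI hs))
      have h3 : ∫ x, χ x ^ 2 * (max (w a x) 0) ^ 2 ∂(hvol 𝓜 g) ≤
          ∫ x, (max (w a x) 0) ^ 2 ∂(hvol 𝓜 g) := by
        refine integral_hvol_mono ?_ (hM a haT).1 fun x _ => ?_
        · exact integrable_hvol_of_csupp hg ((hχL.continuousOn.pow 2).mul (hcont a haT))
            ((hχc.pow two_ne_zero).mul_right _)
        · exact mul_le_of_le_one_left (sq_nonneg _) (pow_le_one₀ (hχ01 x).1 (hχ01 x).2)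
      have h4 : 2 * (1 / (4 * ρ ^ 2)) * M * (t - a) ≤ 2 * (1 / (4 * ρ ^ 2)) * M * t :=
        mul_le_mul_of_nonneg_left (by linarith [ha.1]) (by positivity)
      linarith
    have h5 : Tendsto (fun a => ∫ x, (max (w a x) 0) ^ 2 ∂(hvol 𝓜 g) +
        2 * (1 / (4 * ρ ^ 2)) * M * t) (𝓝[>] 0) (𝓝 (0 + 2 * (1 / (4 * ρ ^ 2)) * M * t)) :=
      h0.add_const _
    have h6 := ge_of_tendsto h5 (by filter_upwards [Ioo_mem_nhdsGT ht.1] with a ha using h1 a ha)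
    simpa using h6
  choose χ hχL hχc hχ01 hχ1 hχg using fun n : ℕ =>
    exists_lip_cutoff hg hconn hp ho (ρ := (n : ℝ) + 1) (by positivity)
  have hlim1 : Tendsto (fun n => ∫ x, χ n x ^ 2 * (max (w t x) 0) ^ 2 ∂(hvol 𝓜 g)) atTop
      (𝓝 (∫ x, (max (w t x) 0) ^ 2 ∂(hvol 𝓜 g))) := by
    refine tendsto_integral_of_dominated_convergence (fun x => (max (w t x) 0) ^ 2) ?_
      (hM t ht).1 ?_ ?_
    · intro n
      exact aestronglyMeasurable_hvol_of_continuousOn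
        (((hχL n).continuousOn.pow 2).mul (hcont t ht))
    · intro n
      refine Eventually.of_forall fun x => ?_
      rw [Real.norm_eq_abs, abs_of_nonneg (by positivity)]
      exact mul_le_of_le_one_left (sq_nonneg _) (pow_le_one₀ (hχ01 n x).1 (hχ01 n x).2)
    · filter_upwards [ae_mem_carrier 𝓜 g] with x hx
      refine tendsto_const_nhds.congr' ?_
      obtain ⟨N, hN⟩ := exists_nat_ge (hdist 𝓜 g o x)
      filter_upwards [eventually_ge_atTop N] with n hn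
      have hn' : (N : ℝ) ≤ n := by exact_mod_cast hn
      rw [hχ1 n x hx (by linarith)]
      ring
  have hlim2 : Tendsto (fun n : ℕ => 2 * (1 / (4 * ((n : ℝ) + 1) ^ 2)) * M * t) atTop (𝓝 0) := by
    have h1 := ((tendsto_one_div_add_atTop_nhds_zero_nat (𝕜 := ℝ)).pow 2).const_mul (M * t / 2)
    simp only [ne_eq, OfNat.ofNat_ne_zero, not_false_eq_true, zero_pow, mul_zero] at h1
    refine h1.congr fun n => ?_
    have : ((n : ℝ) + 1) ≠ 0 := by positivity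
    field_simp
    ring
  have hle : ∫ x, (max (w t x) 0) ^ 2 ∂(hvol 𝓜 g) ≤ 0 :=
    le_of_tendsto_of_tendsto' hlim1 hlim2 fun n =>
      step _ (by positivity) (χ n) (hχL n) (hχc n) (hχ01 n) (hχg n)
  have hz : ∫ x, (max (w t x) 0) ^ 2 ∂(hvol 𝓜 g) = 0 :=
    le_antisymm hle (integral_nonneg fun x => sq_nonneg _)
  have h7 := eq_zero_of_integral_hvol_eq_zero hg (hcont t ht) (fun x _ => sq_nonneg _)
    (hM t ht).1 hz x hx
  have h8 : max (w t x) 0 = 0 := by simpa using h7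
  exact (le_max_left _ _).trans_eq h8

/-- comparison principle with an integrable majorant of `(w⁺)²`. -/
theorem en_le_zero_of_bound (hK : IsKahler 𝓜 g) (hconn : IsConnected 𝓜.carrier)
    (hp : IsProperMetric 𝓜 g) (hw : 𝓜.SmoothST (Ioo 0 T) w)
    (hd : ∀ t ∈ Ioo 0 T, ∀ x ∈ 𝓜.carrier, HasDerivAt (fun s => w s x) (w' t x) t)
    (hsub : ∀ t ∈ Ioo 0 T, ∀ x ∈ 𝓜.carrier, 0 < w t x → w' t x ≤ lap 𝓜 g (w t) x)
    {b : ℝ → V → ℝ}
    (hb : ∀ t ∈ Ioo 0 T, Integrable (b t) (hvol 𝓜 g) ∧ ∫ x, b t x ∂(hvol 𝓜 g) ≤ M ∧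
      ∀ᵐ x ∂(hvol 𝓜 g), (max (w t x) 0) ^ 2 ≤ b t x)
    (hb0 : Tendsto (fun t => ∫ x, b t x ∂(hvol 𝓜 g)) (𝓝[>] 0) (𝓝 0)) :
    ∀ t ∈ Ioo 0 T, ∀ x ∈ 𝓜.carrier, w t x ≤ 0 := by
  intro t ht
  have hT : 0 < T := ht.1.trans ht.2
  have hi : ∀ s ∈ Ioo 0 T, Integrable (fun x => (max (w s x) 0) ^ 2) (hvol 𝓜 g) := fun s hs =>
    (hb s hs).1.mono' (aestronglyMeasurable_hvol_of_continuousOn
      (((hw.smooth hs).continuousOn.sup continuousOn_const).pow 2)) (by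
        filter_upwards [(hb s hs).2.2] with x hx
        rw [Real.norm_eq_abs, abs_of_nonneg (sq_nonneg _)]
        exact hx)
  have hle : ∀ s ∈ Ioo 0 T, ∫ x, (max (w s x) 0) ^ 2 ∂(hvol 𝓜 g) ≤ ∫ x, b s x ∂(hvol 𝓜 g) :=
    fun s hs => integral_mono_ae (hi s hs) (hb s hs).1 (hb s hs).2.2
  refine le_zero_of_subsolution hK hconn hp hw hd hsub (M := M)
    (fun s hs => ⟨hi s hs, (hle s hs).trans (hb s hs).2.1⟩) ?_ t ht
  refine tendsto_of_tendsto_of_tendsto_of_le_of_le' tendsto_const_nhds hb0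
    (Eventually.of_forall fun s => integral_nonneg fun x => sq_nonneg _) ?_
  filter_upwards [Ioo_mem_nhdsGT hT] with s hs using hle s hs

/-- a subsolution lies below a supersolution. -/
theorem en_le_of_sub_super (hK : IsKahler 𝓜 g) (hconn : IsConnected 𝓜.carrier)
    (hp : IsProperMetric 𝓜 g) {u₁ u₁' u₂ u₂' : ℝ → V → ℝ}
    (h₁ : 𝓜.SmoothST (Ioo 0 T) u₁) (h₂ : 𝓜.SmoothST (Ioo 0 T) u₂)
    (hd₁ : ∀ t ∈ Ioo 0 T, ∀ x ∈ 𝓜.carrier, HasDerivAt (fun s => u₁ s x) (u₁' t x) t)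
    (hd₂ : ∀ t ∈ Ioo 0 T, ∀ x ∈ 𝓜.carrier, HasDerivAt (fun s => u₂ s x) (u₂' t x) t)
    (hs₁ : ∀ t ∈ Ioo 0 T, ∀ x ∈ 𝓜.carrier, u₁' t x ≤ lap 𝓜 g (u₁ t) x)
    (hs₂ : ∀ t ∈ Ioo 0 T, ∀ x ∈ 𝓜.carrier, lap 𝓜 g (u₂ t) x ≤ u₂' t x)
    {b : ℝ → V → ℝ}
    (hb : ∀ t ∈ Ioo 0 T, Integrable (b t) (hvol 𝓜 g) ∧ ∫ x, b t x ∂(hvol 𝓜 g) ≤ M ∧
      ∀ᵐ x ∂(hvol 𝓜 g), (max (u₁ t x - u₂ t x) 0) ^ 2 ≤ b t x)
    (hb0 : Tendsto (fun t => ∫ x, b t x ∂(hvol 𝓜 g)) (𝓝[>] 0) (𝓝 0)) :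
    ∀ t ∈ Ioo 0 T, ∀ x ∈ 𝓜.carrier, u₁ t x ≤ u₂ t x := by
  intro t ht x hx
  have := en_le_zero_of_bound (w := fun s y => u₁ s y - u₂ s y)
    (w' := fun s y => u₁' s y - u₂' s y) hK hconn hp (h₁.sub h₂)
    (fun s hs y hy => (hd₁ s hs y hy).sub (hd₂ s hs y hy))
    (fun s hs y hy _ => by
      rw [lap_sub g ((h₁.smooth hs).c2At hy) ((h₂.smooth hs).c2At hy)]
      linarith [hs₁ s hs y hy, hs₂ s hs y hy]) hb hb0 t ht x hx
  linarith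

/-- the standard majorant `|e^{sΔ} f - f|²`. -/
theorem en_heat_bound (hg : IsMetric 𝓜 g) (f : L2M 𝓜 g) :
    (∀ s : ℝ, 0 < s → Integrable (fun x => (heatL 𝓜 g s f x - f x) ^ 2) (hvol 𝓜 g) ∧
      ∫ x, (heatL 𝓜 g s f x - f x) ^ 2 ∂(hvol 𝓜 g) ≤ (2 * ‖f‖) ^ 2) ∧
    Tendsto (fun s => ∫ x, (heatL 𝓜 g s f x - f x) ^ 2 ∂(hvol 𝓜 g)) (𝓝[>] 0) (𝓝 0) := by
  have hm : ∀ s : ℝ, 0 < s → MemLp (fun x => heatL 𝓜 g s f x - f x) 2 (hvol 𝓜 g) := fun s hs =>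
    (memLp_heatL hg hs f).sub (Lp.memLp f)
  have he : ∀ s : ℝ, 0 < s → ∫ x, (heatL 𝓜 g s f x - f x) ^ 2 ∂(hvol 𝓜 g) =
      ‖toL2 𝓜 g (heatL 𝓜 g s f) - f‖ ^ 2 := fun s hs => by
    rw [← norm_sq_toL2 (hm s hs), toL2_sub (memLp_heatL hg hs f) (Lp.memLp f), toL2_coe]
  refine ⟨fun s hs => ⟨(hm s hs).integrable_sq, ?_⟩, ?_⟩
  · rw [he s hs]
    refine pow_le_pow_left₀ (norm_nonneg _) ?_ 2
    have h1 : ‖toL2 𝓜 g (heatL 𝓜 g s f)‖ ≤ ‖f‖ := by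
      rw [toL2_heatL hg hs]
      exact norm_sg_apply_le _ _ _
    have := norm_sub_le (toL2 𝓜 g (heatL 𝓜 g s f)) f
    linarith
  · have h1 := (((tendsto_toL2_heatL hg f).sub_const f).norm).pow 2
    simp only [sub_self, norm_zero, ne_eq, OfNat.ofNat_ne_zero, not_false_eq_true, zero_pow] at h1
    refine h1.congr' ?_
    filter_upwards [self_mem_nhdsWithin] with s hs
    exact (he s hs).symm

/-- **sub-Markov property**: `w = e^{tΔ} f - c`, `w⁺ ≤ |e^{tΔ} f - f|` a.e. -/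
theorem heatL_le_of_le (hK : IsKahler 𝓜 g) (hconn : IsConnected 𝓜.carrier) (hp : IsProperMetric 𝓜 g)
    (ht : 0 < t) (hf : ∀ᵐ y ∂(hvol 𝓜 g), f y ≤ c) (hx : x ∈ 𝓜.carrier) : heatL 𝓜 g t f x ≤ c := by
  have hg : IsMetric 𝓜 g := hK.toIsMetric
  obtain ⟨hb1, hb2⟩ := en_heat_bound hg f
  refine en_le_of_sub_super (T := t + 1) (u₁ := fun s => heatL 𝓜 g s f)
    (u₁' := fun s => lap 𝓜 g (heatL 𝓜 g s f)) (u₂ := fun _ _ => c) (u₂' := fun _ _ => 0)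
    (b := fun s x => (heatL 𝓜 g s f x - f x) ^ 2) hK hconn hp
    ((smoothST_heatL hg f).mono Ioo_subset_Ioi_self) (CMfd.smoothST_const c)
    (fun s hs y hy => hasDerivAt_heatL hK hs.1 hy f) (fun s _ y _ => hasDerivAt_const s c)
    (fun s _ y _ => le_rfl) (fun s _ y _ => (lap_const 𝓜 g c y).le)
    (fun s hs => ⟨(hb1 s hs.1).1, (hb1 s hs.1).2, ?_⟩) hb2 t ⟨ht, by linarith⟩ x hx
  filter_upwards [hf] with y hy
  rcases le_or_gt (heatL 𝓜 g s f y - c) 0 with h0 | h0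
  · rw [max_eq_right h0]
    simpa using sq_nonneg (heatL 𝓜 g s f y - f y)
  · rw [max_eq_left h0.le]
    exact pow_le_pow_left₀ h0.le (by linarith) 2

/-- **positivity**: apply the principle to `w = - e^{tΔ} f`; `‖(e^{tΔ}f)⁻‖₂ → ‖f⁻‖₂ = 0`
(`tendsto_integral_posPart_sq_of_tendsto_l2M`, `tendsto_toL2_heatL`). -/
theorem heatL_nonneg (hK : IsKahler 𝓜 g) (hconn : IsConnected 𝓜.carrier) (hp : IsProperMetric 𝓜 g)
    (ht : 0 < t) (hf : ∀ᵐ y ∂(hvol 𝓜 g), 0 ≤ f y) (hx : x ∈ 𝓜.carrier) : 0 ≤ heatL 𝓜 g t f x := by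
  have h1 : heatL 𝓜 g t (-f) x ≤ 0 := by
    refine heatL_le_of_le hK hconn hp ht ?_ hx
    filter_upwards [hf, Lp.coeFn_neg f] with y hy hy'
    rw [hy', Pi.neg_apply]
    linarith
  have h2 : heatL 𝓜 g t (-f) x = - heatL 𝓜 g t f x := by simp [heatL]
  linarith

theorem heatL_mono (hK : IsKahler 𝓜 g) (hconn : IsConnected 𝓜.carrier) (hp : IsProperMetric 𝓜 g)
    (ht : 0 < t) {f' : L2M 𝓜 g} (hf : ∀ᵐ y ∂(hvol 𝓜 g), f y ≤ f' y) (hx : x ∈ 𝓜.carrier) :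
    heatL 𝓜 g t f x ≤ heatL 𝓜 g t f' x := by
  have h1 : 0 ≤ heatL 𝓜 g t (f' - f) x := by
    refine heatL_nonneg hK hconn hp ht ?_ hx
    filter_upwards [hf, Lp.coeFn_sub f' f] with y hy hy'
    rw [hy', Pi.sub_apply]
    linarith
  rw [heatL_sub] at h1
  linarith

/-- **uniqueness in `L²`.** -/
theorem eq_heatL_of_solution (hK : IsKahler 𝓜 g) (hconn : IsConnected 𝓜.carrier)
    (hp : IsProperMetric 𝓜 g) (hv : 𝓜.SmoothST (Ioo 0 T) v)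
    (hd : ∀ t ∈ Ioo 0 T, ∀ x ∈ 𝓜.carrier, HasDerivAt (fun s => v s x) (lap 𝓜 g (v t) x) t)
    (hM : ∀ t ∈ Ioo 0 T, MemLp (v t) 2 (hvol 𝓜 g) ∧ ‖toL2 𝓜 g (v t)‖ ≤ M)
    (h0 : Tendsto (fun t => toL2 𝓜 g (v t)) (𝓝[>] 0) (𝓝 f)) :
    ∀ t ∈ Ioo 0 T, ∀ x ∈ 𝓜.carrier, v t x = heatL 𝓜 g t f x := by
  intro t ht x hx
  have hT : 0 < T := ht.1.trans ht.2
  have hg : IsMetric 𝓜 g := hK.toIsMetric
  have hm : ∀ s ∈ Ioo 0 T, MemLp (fun x => v s x - heatL 𝓜 g s f x) 2 (hvol 𝓜 g) := fun s hs =>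
    (hM s hs).1.sub (memLp_heatL hg hs.1 f)
  have he : ∀ s ∈ Ioo 0 T, ∫ x, (v s x - heatL 𝓜 g s f x) ^ 2 ∂(hvol 𝓜 g) =
      ‖toL2 𝓜 g (v s) - toL2 𝓜 g (heatL 𝓜 g s f)‖ ^ 2 := fun s hs => by
    rw [← norm_sq_toL2 (hm s hs), toL2_sub (hM s hs).1 (memLp_heatL hg hs.1 f)]
  have hbd : ∀ s ∈ Ioo 0 T, ∫ x, (v s x - heatL 𝓜 g s f x) ^ 2 ∂(hvol 𝓜 g) ≤ (M + ‖f‖) ^ 2 := by
    intro s hs
    rw [he s hs]
    refine pow_le_pow_left₀ (norm_nonneg _) ?_ 2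
    have h1 : ‖toL2 𝓜 g (heatL 𝓜 g s f)‖ ≤ ‖f‖ := by
      rw [toL2_heatL hg hs.1]
      exact norm_sg_apply_le _ _ _
    have := norm_sub_le (toL2 𝓜 g (v s)) (toL2 𝓜 g (heatL 𝓜 g s f))
    linarith [(hM s hs).2]
  have hlim : Tendsto (fun s => ∫ x, (v s x - heatL 𝓜 g s f x) ^ 2 ∂(hvol 𝓜 g)) (𝓝[>] 0) (𝓝 0) := by
    have h1 := ((h0.sub (tendsto_toL2_heatL hg f)).norm).pow 2
    simp only [sub_self, norm_zero, ne_eq, OfNat.ofNat_ne_zero, not_false_eq_true, zero_pow] at h1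
    refine h1.congr' ?_
    filter_upwards [Ioo_mem_nhdsGT hT] with s hs
    exact (he s hs).symm
  have hH : 𝓜.SmoothST (Ioo 0 T) (fun s => heatL 𝓜 g s f) :=
    (smoothST_heatL hg f).mono Ioo_subset_Ioi_self
  refine le_antisymm ?_ ?_
  · refine en_le_of_sub_super (u₁ := v) (u₁' := fun s => lap 𝓜 g (v s))
      (u₂ := fun s => heatL 𝓜 g s f) (u₂' := fun s => lap 𝓜 g (heatL 𝓜 g s f))
      (b := fun s x => (v s x - heatL 𝓜 g s f x) ^ 2) hK hconn hp hv hH hd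
      (fun s hs y hy => hasDerivAt_heatL hK hs.1 hy f) (fun s _ y _ => le_rfl)
      (fun s _ y _ => le_rfl)
      (fun s hs => ⟨(hm s hs).integrable_sq, hbd s hs, Eventually.of_forall fun y => ?_⟩) hlim
      t ht x hx
    rw [← sq_abs (v s y - heatL 𝓜 g s f y)]
    exact pow_le_pow_left₀ (le_max_right _ _) (max_le (le_abs_self _) (abs_nonneg _)) 2
  · refine en_le_of_sub_super (u₂ := v) (u₂' := fun s => lap 𝓜 g (v s))
      (u₁ := fun s => heatL 𝓜 g s f) (u₁' := fun s => lap 𝓜 g (heatL 𝓜 g s f))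
      (b := fun s x => (v s x - heatL 𝓜 g s f x) ^ 2) hK hconn hp hH hv
      (fun s hs y hy => hasDerivAt_heatL hK hs.1 hy f) hd (fun s _ y _ => le_rfl)
      (fun s _ y _ => le_rfl)
      (fun s hs => ⟨(hm s hs).integrable_sq, hbd s hs, Eventually.of_forall fun y => ?_⟩) hlim
      t ht x hx
    rw [← sq_abs (v s y - heatL 𝓜 g s f y), abs_sub_comm]
    exact pow_le_pow_left₀ (le_max_right _ _) (max_le (le_abs_self _) (abs_nonneg _)) 2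

/-- **minimality**: a nonnegative smooth supersolution, continuous up to `t = 0`, with `v_0 ≥ φ`, `φ` continuous with compact support, dominates `e^{tΔ} φ`.
`w = e^{tΔ}φ - v`: `w⁺ ≤ |e^{tΔ}φ - φ| + (φ - v_t)⁺`, `(φ - v_t)⁺ ≤ |φ|`, it vanishes off the support `K` of `φ`, and is `≤ sup_K |v_0 - v_t| → 0` on `K`. -/
theorem heatL_le_of_supersolution (hK : IsKahler 𝓜 g) (hconn : IsConnected 𝓜.carrier)
    (hp : IsProperMetric 𝓜 g) (hv : 𝓜.SmoothST (Ioo 0 T) v)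
    (hd : ∀ t ∈ Ioo 0 T, ∀ x ∈ 𝓜.carrier, HasDerivAt (fun s => v s x) (v' t x) t)
    (hsup : ∀ t ∈ Ioo 0 T, ∀ x ∈ 𝓜.carrier, lap 𝓜 g (v t) x ≤ v' t x)
    (hv0 : ∀ t ∈ Ioo 0 T, ∀ x ∈ 𝓜.carrier, 0 ≤ v t x)
    (hcont : ContinuousOn (fun p : ℝ × V => v p.1 p.2) (Ico 0 T ×ˢ 𝓜.carrier))
    {φ : V → ℝ} (hφ : ContinuousOn φ 𝓜.carrier) (hc : 𝓜.CSupp φ)
    (h0 : ∀ x ∈ 𝓜.carrier, φ x ≤ v 0 x) :
    ∀ t ∈ Ioo 0 T, ∀ x ∈ 𝓜.carrier, heatL 𝓜 g t (toL2 𝓜 g φ) x ≤ v t x := by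
  intro t ht x hx
  have hT : 0 < T := ht.1.trans ht.2
  have hg : IsMetric 𝓜 g := hK.toIsMetric
  have hφm : MemLp φ 2 (hvol 𝓜 g) := memLp_of_continuousOn_csupp hg hφ hc 2
  obtain ⟨hb1, hb2⟩ := en_heat_bound hg (toL2 𝓜 g φ)
  have hPc : ∀ s ∈ Ioo 0 T, ContinuousOn (fun x => (max (φ x - v s x) 0) ^ 2) 𝓜.carrier :=
    fun s hs => ((hφ.sub (hv.smooth hs).continuousOn).sup continuousOn_const).pow 2
  have hPle : ∀ s ∈ Ioo 0 T, ∀ x ∈ 𝓜.carrier, (max (φ x - v s x) 0) ^ 2 ≤ φ x ^ 2 := by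
    intro s hs y hy
    have h1 := hv0 s hs y hy
    rcases le_or_gt (φ y - v s y) 0 with h2 | h2
    · rw [max_eq_right h2]
      simpa using sq_nonneg (φ y)
    · rw [max_eq_left h2.le]
      exact pow_le_pow_left₀ h2.le (by linarith) 2
  have hPs : ∀ s ∈ Ioo 0 T, 𝓜.CSupp (fun x => (max (φ x - v s x) 0) ^ 2) := by
    intro s hs
    obtain ⟨K, hK1, hK2, hK3⟩ := hc
    refine ⟨K, hK1, hK2, fun y hy hyK => ?_⟩
    have h1 := hPle s hs y hy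
    have h2 : φ y ^ 2 = 0 := by rw [hK3 y hy hyK]; norm_num
    exact le_antisymm (h1.trans_eq h2) (sq_nonneg _)
  have hPi : ∀ s ∈ Ioo 0 T, Integrable (fun x => (max (φ x - v s x) 0) ^ 2) (hvol 𝓜 g) :=
    fun s hs => integrable_hvol_of_csupp hg (hPc s hs) (hPs s hs)
  have hPlim : Tendsto (fun s => ∫ x, (max (φ x - v s x) 0) ^ 2 ∂(hvol 𝓜 g)) (𝓝[>] 0) (𝓝 0) := by
    have h1 : Tendsto (fun s => ∫ x, (max (φ x - v s x) 0) ^ 2 ∂(hvol 𝓜 g)) (𝓝[>] 0)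
        (𝓝 (∫ _x, (0 : ℝ) ∂(hvol 𝓜 g))) := by
      refine tendsto_integral_filter_of_dominated_convergence (fun x => φ x ^ 2) ?_ ?_
        hφm.integrable_sq ?_
      · filter_upwards [Ioo_mem_nhdsGT hT] with s hs
        exact aestronglyMeasurable_hvol_of_continuousOn (hPc s hs)
      · filter_upwards [Ioo_mem_nhdsGT hT] with s hs
        refine ae_hvol_of_forall_mem fun y hy => ?_
        rw [Real.norm_eq_abs, abs_of_nonneg (sq_nonneg _)]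
        exact hPle s hs y hy
      · refine ae_hvol_of_forall_mem fun y hy => ?_
        have h2 : ContinuousWithinAt (fun s => v s y) (Ico 0 T) 0 :=
          continuousOn_slice_time_of_joint hcont hy 0 ⟨le_rfl, hT⟩
        have h3 : Tendsto (fun s => v s y) (𝓝[>] 0) (𝓝 (v 0 y)) :=
          h2.tendsto.mono_left (nhdsWithin_le_of_mem (Ico_mem_nhdsGT hT))
        have h4 := (((tendsto_const_nhds (x := φ y)).sub h3).max
          (tendsto_const_nhds (x := (0 : ℝ)))).pow 2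
        rw [max_eq_right (by linarith [h0 y hy] : φ y - v 0 y ≤ 0)] at h4
        simpa using h4
    simpa using h1
  refine en_le_of_sub_super (u₁ := fun s => heatL 𝓜 g s (toL2 𝓜 g φ))
    (u₁' := fun s => lap 𝓜 g (heatL 𝓜 g s (toL2 𝓜 g φ))) (u₂ := v) (u₂' := v')
    (M := 2 * (2 * ‖toL2 𝓜 g φ‖) ^ 2 + 2 * ∫ x, φ x ^ 2 ∂(hvol 𝓜 g))
    (b := fun s x => 2 * (heatL 𝓜 g s (toL2 𝓜 g φ) x - toL2 𝓜 g φ x) ^ 2 +
      2 * (max (φ x - v s x) 0) ^ 2) hK hconn hp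
    ((smoothST_heatL hg _).mono Ioo_subset_Ioi_self) hv
    (fun s hs y hy => hasDerivAt_heatL hK hs.1 hy _) hd (fun s _ y _ => le_rfl) hsup
    (fun s hs => ⟨((hb1 s hs.1).1.const_mul 2).add ((hPi s hs).const_mul 2), ?_, ?_⟩) ?_ t ht x hx
  · rw [integral_add ((hb1 s hs.1).1.const_mul 2) ((hPi s hs).const_mul 2), integral_const_mul,
      integral_const_mul]
    have h1 := (hb1 s hs.1).2
    have h2 : ∫ x, (max (φ x - v s x) 0) ^ 2 ∂(hvol 𝓜 g) ≤ ∫ x, φ x ^ 2 ∂(hvol 𝓜 g) :=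
      integral_hvol_mono (hPi s hs) hφm.integrable_sq (hPle s hs)
    linarith
  · filter_upwards [toL2_ae_eq hφm] with y hy
    rw [hy]
    have h1 : max (heatL 𝓜 g s (toL2 𝓜 g φ) y - v s y) 0 ≤
        |heatL 𝓜 g s (toL2 𝓜 g φ) y - φ y| + max (φ y - v s y) 0 := by
      refine max_le ?_ (add_nonneg (abs_nonneg _) (le_max_right _ _))
      have e1 := le_abs_self (heatL 𝓜 g s (toL2 𝓜 g φ) y - φ y)
      have e2 := le_max_left (φ y - v s y) 0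
      linarith
    have h2 := pow_le_pow_left₀ (le_max_right _ _) h1 2
    have h3 := sq_abs (heatL 𝓜 g s (toL2 𝓜 g φ) y - φ y)
    nlinarith [sq_nonneg (|heatL 𝓜 g s (toL2 𝓜 g φ) y - φ y| - max (φ y - v s y) 0)]
  · have h1 := (hb2.const_mul 2).add (hPlim.const_mul 2)
    simp only [mul_zero, add_zero] at h1
    refine h1.congr' ?_
    filter_upwards [Ioo_mem_nhdsGT hT] with s hs
    rw [integral_add ((hb1 s hs.1).1.const_mul 2) ((hPi s hs).const_mul 2), integral_const_mul,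
      integral_const_mul]

end pmp

end Claimed.Agent.R316
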