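import Claimed.Agent.R316.Base.Heat.L2.SgAbs
import Claimed.Agent.R316.Pack018

/-!
# Row 316, BP-G8, file 4: the Hilbert space `L²(M, dV_g)`, the energy form, the resolvent `(1 - Δ_g)⁻¹`

Statement file by helper55.  `μ = hvol 𝓜 g`, `L2M 𝓜 g = Lp ℝ 2 μ`, `Δ = lap 𝓜 g`, `⟨∂u,∂v⟩ = gradInner 𝓜 g u v`,
test functions = `𝓜.Smooth φ ∧ 𝓜.CSupp φ` (`𝓜.IsTest φ`).  No completeness of the metric in this file.

## Leaf G8-L2 (section `l2`): toolbox, ~300 lines.  `toL2 𝓜 g u` is the class of `u` (`0` if `u ∉ L²`).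
Everything from `MemLp.toLp`, `MemLp.coeFn_toLp`, `L2.inner_def`, `MeasureTheory.L2.integrable_inner`, `Lp.norm_def`/`L2.integral_inner_eq_sq_eLpNorm`,
`integrable_hvol_of_csupp`, `aestronglyMeasurable_hvol_of_continuousOn`, `memLp_two_iff_integrable_sq`.

## Leaf G8-DENSE: `denseRange_test` / `eq_zero_of_forall_test`.
If `F ∈ L²` is orthogonal to all test functions then for every parametrisation `(Φ,U)` and every `ψ ∈ C_c^∞(U)` (transplant with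
`CMfd.exists_smooth_of_chart`, `integral_hvol_of_support_real`): `∫_U ψ · (F ∘ Φ) det H = 0`; `(F ∘ Φ) det H` is locally integrable on `U`
(`integrableOn_hvol_image_iff`, `F` is integrable on compact sets by Cauchy-Schwarz), so it vanishes a.e. on `U`
(`IsOpen.ae_eq_zero_of_integral_contDiff_smul_eq_zero`), `det H > 0`, hence `F ∘ Φ = 0` a.e. on `U`; `ae_hvol_iff`.
Density: `Submodule.topologicalClosure_eq_top_iff` (`Kᗮ = ⊥`).

## Leaf G8-RES: `exists_isHeatRes` and the rest of section `resolvent`.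
Apply `exists_isFriedrichs` with `D = ` the submodule `{φ | 𝓜.IsTest φ}` of `V → ℝ`, `J φ = toL2 φ`, `a φ ψ = ∫ ⟨∂φ,∂ψ⟩`
(`LinearMap.mk₂`; bilinearity: `gradInner_add_left`, `gradInner_const_mul_left`, … pointwise on the carrier + `integrable_gradInner_of_csupp_left`;
symmetry `gradInner_comm`; `gradSq ≥ 0`: `gradSq_nonneg'` of CM/Forms or `gradInner_sq_le`).  Translate `IsFriedrichs` into `IsHeatRes`.
Weak equation: `∫ u_n φ + ∫ ⟨∂u_n,∂φ⟩ = ∫ u_n (φ - Δφ)` (`integral_mul_lap'`, needs Kaehler) and `u_n → R f` in `L²`.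
-/

set_option autoImplicit false
set_option linter.unusedSectionVars false
set_option linter.deprecated false
open scoped ContDiff ComplexOrder Topology InnerProductSpace
open MeasureTheory Set Filter

namespace Claimed.Agent.R316

variable {V : Type} [NormedAddCommGroup V] [NormedSpace ℝ V] [FiniteDimensional ℝ V]
  [MeasurableSpace V] [BorelSpace V]
variable {ι : Type} [Fintype ι] [DecidableEq ι]

/-- the real Hilbert space `L²(M, dV_g)`. -/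
noncomputable abbrev L2M (𝓜 : CMfd V ι) (g : HFam V ι) := Lp ℝ 2 (hvol 𝓜 g)

/-- test functions. -/
def CMfd.IsTest (𝓜 : CMfd V ι) (φ : V → ℝ) : Prop := 𝓜.Smooth φ ∧ 𝓜.CSupp φ

open Classical in
/-- the class of a function in `L²` (junk `0`). -/
noncomputable def toL2 (𝓜 : CMfd V ι) (g : HFam V ι) (u : V → ℝ) : L2M 𝓜 g :=
  if h : MemLp u 2 (hvol 𝓜 g) then h.toLp u else 0

variable {𝓜 : CMfd V ι} {g : HFam V ι} {u v φ ψ : V → ℝ}

/-! ### toolbox -/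

section l2

theorem CMfd.IsTest.add (hφ : 𝓜.IsTest φ) (hψ : 𝓜.IsTest ψ) : 𝓜.IsTest (fun x => φ x + ψ x) :=
  ⟨hφ.1.add hψ.1, hφ.2.add hψ.2⟩

theorem CMfd.IsTest.sub (hφ : 𝓜.IsTest φ) (hψ : 𝓜.IsTest ψ) : 𝓜.IsTest (fun x => φ x - ψ x) :=
  ⟨hφ.1.sub hψ.1, hφ.2.sub hψ.2⟩

theorem CMfd.IsTest.const_mul (c : ℝ) (hφ : 𝓜.IsTest φ) : 𝓜.IsTest (fun x => c * φ x) :=
  ⟨hφ.1.const_mul c, hφ.2.mul_left _⟩

theorem CMfd.IsTest.mul_smooth (hφ : 𝓜.IsTest φ) (hu : 𝓜.Smooth u) : 𝓜.IsTest (fun x => φ x * u x) :=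
  ⟨hφ.1.mul hu, hφ.2.mul_right _⟩

theorem CMfd.isTest_zero : 𝓜.IsTest (fun _ => (0 : ℝ)) := ⟨CMfd.smooth_const 0, CMfd.csupp_zero⟩

theorem CMfd.IsTest.lap (hg : IsMetric 𝓜 g) (hφ : 𝓜.IsTest φ) : 𝓜.IsTest (lap 𝓜 g φ) := by
  exact ⟨smooth_lap hg hφ.1, hφ.2.lap g⟩

/-- bounded measurable compactly supported functions. -/
theorem memLp_of_bdd_csupp (hg : IsMetric 𝓜 g) (hm : AEStronglyMeasurable u (hvol 𝓜 g))
    (hc : 𝓜.CSupp u) {C : ℝ} (hb : ∀ x ∈ 𝓜.carrier, |u x| ≤ C) (p : ENNReal) :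
    MemLp u p (hvol 𝓜 g) := by
  obtain ⟨K, hK, hKs, h0⟩ := hc
  have : IsFiniteMeasure ((hvol 𝓜 g).restrict K) :=
    ⟨by rw [Measure.restrict_apply_univ]; exact hvol_lt_top_of_isCompact hg hK hKs⟩
  have h1 : MemLp u p ((hvol 𝓜 g).restrict K) := by
    refine MemLp.of_bound hm.restrict C ?_
    refine ae_restrict_of_ae ?_
    exact ae_hvol_of_forall_mem fun x hx => by rw [Real.norm_eq_abs]; exact hb x hx
  have h2 : MemLp (K.indicator u) p (hvol 𝓜 g) :=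
    (memLp_indicator_iff_restrict hK.measurableSet).2 h1
  refine h2.ae_eq ?_
  refine ae_hvol_of_forall_mem fun x hx => ?_
  by_cases hxK : x ∈ K
  · rw [indicator_of_mem hxK]
  · rw [indicator_of_notMem hxK, h0 x hx hxK]

/-- continuous compactly supported functions are in every `L^p`. -/
theorem memLp_of_continuousOn_csupp (hg : IsMetric 𝓜 g) (hu : ContinuousOn u 𝓜.carrier)
    (hc : 𝓜.CSupp u) (p : ENNReal) : MemLp u p (hvol 𝓜 g) := by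
  obtain ⟨C, hC⟩ := hc.exists_bound hu
  exact memLp_of_bdd_csupp hg (aestronglyMeasurable_hvol_of_continuousOn hu) hc
    (fun x hx => by rw [← Real.norm_eq_abs]; exact hC x hx) p

theorem CMfd.IsTest.memLp (hg : IsMetric 𝓜 g) (hφ : 𝓜.IsTest φ) (p : ENNReal) :
    MemLp φ p (hvol 𝓜 g) := by
  exact memLp_of_continuousOn_csupp hg hφ.1.continuousOn hφ.2 p

theorem toL2_ae_eq (hu : MemLp u 2 (hvol 𝓜 g)) : (toL2 𝓜 g u : V → ℝ) =ᵐ[hvol 𝓜 g] u := by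
  rw [toL2, dif_pos hu]; exact hu.coeFn_toLp

theorem toL2_coe (F : L2M 𝓜 g) : toL2 𝓜 g (F : V → ℝ) = F := by
  rw [toL2, dif_pos (Lp.memLp F)]; exact Lp.toLp_coeFn F _

theorem toL2_congr (h : u =ᵐ[hvol 𝓜 g] v) : toL2 𝓜 g u = toL2 𝓜 g v := by
  by_cases hu : MemLp u 2 (hvol 𝓜 g)
  · have hv : MemLp v 2 (hvol 𝓜 g) := hu.ae_eq h
    rw [toL2, toL2, dif_pos hu, dif_pos hv]
    exact (MemLp.toLp_eq_toLp_iff hu hv).2 h
  · have hv : ¬ MemLp v 2 (hvol 𝓜 g) := fun hv => hu (hv.ae_eq h.symm)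
    rw [toL2, toL2, dif_neg hu, dif_neg hv]

theorem toL2_congr_of_eqOn (h : EqOn u v 𝓜.carrier) : toL2 𝓜 g u = toL2 𝓜 g v := by
  exact toL2_congr (ae_hvol_of_forall_mem h)

theorem toL2_eq_iff (hu : MemLp u 2 (hvol 𝓜 g)) (F : L2M 𝓜 g) :
    toL2 𝓜 g u = F ↔ u =ᵐ[hvol 𝓜 g] (F : V → ℝ) := by
  constructor
  · intro h; rw [← h]; exact (toL2_ae_eq hu).symm
  · intro h; rw [toL2_congr h, toL2_coe]

theorem toL2_add (hu : MemLp u 2 (hvol 𝓜 g)) (hv : MemLp v 2 (hvol 𝓜 g)) :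
    toL2 𝓜 g (fun x => u x + v x) = toL2 𝓜 g u + toL2 𝓜 g v := by
  have h : MemLp (fun x => u x + v x) 2 (hvol 𝓜 g) := hu.add hv
  rw [toL2, toL2, toL2, dif_pos hu, dif_pos hv, dif_pos h]
  exact MemLp.toLp_add hu hv

theorem toL2_sub (hu : MemLp u 2 (hvol 𝓜 g)) (hv : MemLp v 2 (hvol 𝓜 g)) :
    toL2 𝓜 g (fun x => u x - v x) = toL2 𝓜 g u - toL2 𝓜 g v := by
  have h : MemLp (fun x => u x - v x) 2 (hvol 𝓜 g) := hu.sub hv
  rw [toL2, toL2, toL2, dif_pos hu, dif_pos hv, dif_pos h]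
  exact MemLp.toLp_sub hu hv

theorem toL2_const_mul (c : ℝ) (hu : MemLp u 2 (hvol 𝓜 g)) :
    toL2 𝓜 g (fun x => c * u x) = c • toL2 𝓜 g u := by
  have h : MemLp (fun x => c * u x) 2 (hvol 𝓜 g) := hu.const_smul c
  rw [toL2, toL2, dif_pos hu, dif_pos h]
  exact MemLp.toLp_const_smul c hu

theorem inner_l2M (F G : L2M 𝓜 g) : ⟪F, G⟫_ℝ = ∫ x, F x * G x ∂(hvol 𝓜 g) := by
  rw [L2.inner_def]
  refine integral_congr_ae (Eventually.of_forall fun x => ?_)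
  simp [mul_comm]

theorem integrable_l2M_mul (F G : L2M 𝓜 g) : Integrable (fun x => F x * G x) (hvol 𝓜 g) := by
  exact (Lp.memLp F).integrable_mul (Lp.memLp G)

theorem inner_toL2_right (F : L2M 𝓜 g) (hu : MemLp u 2 (hvol 𝓜 g)) :
    ⟪F, toL2 𝓜 g u⟫_ℝ = ∫ x, F x * u x ∂(hvol 𝓜 g) := by
  rw [inner_l2M]
  refine integral_congr_ae ?_
  filter_upwards [toL2_ae_eq hu] with x hx
  rw [hx]

theorem inner_toL2_toL2 (hu : MemLp u 2 (hvol 𝓜 g)) (hv : MemLp v 2 (hvol 𝓜 g)) :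
    ⟪toL2 𝓜 g u, toL2 𝓜 g v⟫_ℝ = ∫ x, u x * v x ∂(hvol 𝓜 g) := by
  rw [inner_toL2_right _ hv]
  refine integral_congr_ae ?_
  filter_upwards [toL2_ae_eq hu] with x hx
  rw [hx]

theorem norm_sq_l2M (F : L2M 𝓜 g) : ‖F‖ ^ 2 = ∫ x, F x ^ 2 ∂(hvol 𝓜 g) := by
  rw [← real_inner_self_eq_norm_sq, inner_l2M]
  simp only [sq]

theorem norm_sq_toL2 (hu : MemLp u 2 (hvol 𝓜 g)) :
    ‖toL2 𝓜 g u‖ ^ 2 = ∫ x, u x ^ 2 ∂(hvol 𝓜 g) := by
  rw [← real_inner_self_eq_norm_sq, inner_toL2_toL2 hu hu]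
  simp only [sq]

theorem memLp_two_iff_sq (hm : AEStronglyMeasurable u (hvol 𝓜 g)) :
    MemLp u 2 (hvol 𝓜 g) ↔ Integrable (fun x => u x ^ 2) (hvol 𝓜 g) := by
  exact memLp_two_iff_integrable_sq hm

/-- an `L²` function is integrable on compact subsets of the carrier. -/
theorem integrableOn_l2M (hg : IsMetric 𝓜 g) (F : L2M 𝓜 g) {K : Set V} (hK : IsCompact K)
    (hsub : K ⊆ 𝓜.carrier) : IntegrableOn (F : V → ℝ) K (hvol 𝓜 g) := by
  have : IsFiniteMeasure ((hvol 𝓜 g).restrict K) :=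
    ⟨by rw [Measure.restrict_apply_univ]; exact hvol_lt_top_of_isCompact hg hK hsub⟩
  exact ((Lp.memLp F).restrict K).integrable (by norm_num)

/-- `L²` convergence implies convergence of the integrals against a fixed `L²` function. -/
theorem tendsto_integral_mul_of_tendsto_l2M {α : Type} {l : Filter α} {Fs : α → L2M 𝓜 g}
    {F : L2M 𝓜 g} (h : Tendsto Fs l (𝓝 F)) (hu : MemLp u 2 (hvol 𝓜 g)) :
    Tendsto (fun a => ∫ x, Fs a x * u x ∂(hvol 𝓜 g)) l (𝓝 (∫ x, F x * u x ∂(hvol 𝓜 g))) := by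
  simp only [← inner_toL2_right _ hu]
  exact h.inner tendsto_const_nhds

/-- bounded measurable multiples of `L²` functions. -/
theorem l2A_memLp_mul {w : V → ℝ} (hw : AEStronglyMeasurable w (hvol 𝓜 g)) {C : ℝ}
    (hb : ∀ x ∈ 𝓜.carrier, |w x| ≤ C) (hu : MemLp u 2 (hvol 𝓜 g)) :
    MemLp (fun x => w x * u x) 2 (hvol 𝓜 g) ∧
      ∫ x, (w x * u x) ^ 2 ∂(hvol 𝓜 g) ≤ C ^ 2 * ∫ x, u x ^ 2 ∂(hvol 𝓜 g) := by
  have hm : AEStronglyMeasurable (fun x => w x * u x) (hvol 𝓜 g) := hw.mul hu.1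
  have hi : Integrable (fun x => u x ^ 2) (hvol 𝓜 g) := (memLp_two_iff_sq hu.1).1 hu
  have hle : ∀ x ∈ 𝓜.carrier, (w x * u x) ^ 2 ≤ C ^ 2 * u x ^ 2 := fun x hx => by
    rw [mul_pow]
    refine mul_le_mul_of_nonneg_right ?_ (sq_nonneg _)
    rw [← sq_abs (w x)]
    exact pow_le_pow_left₀ (abs_nonneg _) (hb x hx) 2
  have hi2 : Integrable (fun x => (w x * u x) ^ 2) (hvol 𝓜 g) := by
    refine (hi.const_mul (C ^ 2)).mono' (hm.pow 2) ?_
    refine ae_hvol_of_forall_mem fun x hx => ?_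
    rw [Real.norm_eq_abs, abs_of_nonneg (sq_nonneg _)]
    exact hle x hx
  refine ⟨(memLp_two_iff_sq hm).2 hi2, ?_⟩
  rw [← integral_const_mul]
  exact integral_hvol_mono hi2 (hi.const_mul _) hle

/-- multiplication by a bounded measurable function as an operator of `L²`. -/
theorem l2A_exists_mulOp {w : V → ℝ} (hw : AEStronglyMeasurable w (hvol 𝓜 g)) {C : ℝ}
    (hb : ∀ x ∈ 𝓜.carrier, |w x| ≤ C) :
    ∃ T : L2M 𝓜 g →L[ℝ] L2M 𝓜 g, ∀ F : L2M 𝓜 g, T F = toL2 𝓜 g (fun x => w x * F x) := by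
  have hM : ∀ F : L2M 𝓜 g, MemLp (fun x => w x * F x) 2 (hvol 𝓜 g) := fun F =>
    (l2A_memLp_mul hw hb (Lp.memLp F)).1
  refine ⟨LinearMap.mkContinuous
    { toFun := fun F => toL2 𝓜 g (fun x => w x * F x)
      map_add' := fun F G => ?_
      map_smul' := fun c F => ?_ } |C| (fun F => ?_), fun F => rfl⟩
  · rw [← toL2_add (hM F) (hM G)]
    refine toL2_congr ?_
    filter_upwards [Lp.coeFn_add F G] with x hx
    rw [hx, Pi.add_apply, mul_add]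
  · rw [RingHom.id_apply, ← toL2_const_mul c (hM F)]
    refine toL2_congr ?_
    filter_upwards [Lp.coeFn_smul c F] with x hx
    rw [hx, Pi.smul_apply, smul_eq_mul]; ring
  · change ‖toL2 𝓜 g (fun x => w x * F x)‖ ≤ |C| * ‖F‖
    refine (pow_le_pow_iff_left₀ (norm_nonneg _) (by positivity) two_ne_zero).1 ?_
    rw [norm_sq_toL2 (hM F), mul_pow, sq_abs, norm_sq_l2M]
    exact (l2A_memLp_mul hw hb (Lp.memLp F)).2

/-- with a bounded measurable weight: `∫ w F_a² → ∫ w F²`. -/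
theorem tendsto_integral_mul_sq_of_tendsto_l2M {α : Type} {l : Filter α} {Fs : α → L2M 𝓜 g}
    {F : L2M 𝓜 g} (h : Tendsto Fs l (𝓝 F)) {w : V → ℝ} (hw : AEStronglyMeasurable w (hvol 𝓜 g))
    {C : ℝ} (hb : ∀ x ∈ 𝓜.carrier, |w x| ≤ C) :
    Tendsto (fun a => ∫ x, w x * Fs a x ^ 2 ∂(hvol 𝓜 g)) l
      (𝓝 (∫ x, w x * F x ^ 2 ∂(hvol 𝓜 g))) := by
  obtain ⟨T, hT⟩ := l2A_exists_mulOp (g := g) hw hb
  have e : ∀ G : L2M 𝓜 g, ∫ x, w x * G x ^ 2 ∂(hvol 𝓜 g) = ⟪G, T G⟫_ℝ := fun G => by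
    rw [hT, inner_toL2_right _ (l2A_memLp_mul hw hb (Lp.memLp G)).1]
    refine integral_congr_ae (Eventually.of_forall fun x => ?_)
    simp only; ring
  simp only [e]
  exact h.inner ((T.continuous.tendsto F).comp h)

/-- positive parts: `∫ (F_a⁺)² → ∫ (F⁺)²`. -/
theorem tendsto_integral_posPart_sq_of_tendsto_l2M {α : Type} {l : Filter α} {Fs : α → L2M 𝓜 g}
    {F : L2M 𝓜 g} (h : Tendsto Fs l (𝓝 F)) :
    Tendsto (fun a => ∫ x, (max (Fs a x) 0) ^ 2 ∂(hvol 𝓜 g)) l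
      (𝓝 (∫ x, (max (F x) 0) ^ 2 ∂(hvol 𝓜 g))) := by
  have e : ∀ G : L2M 𝓜 g, ∫ x, (max (G x) 0) ^ 2 ∂(hvol 𝓜 g) = ‖Lp.posPart G‖ ^ 2 := fun G => by
    rw [norm_sq_l2M]
    refine integral_congr_ae ?_
    filter_upwards [Lp.coeFn_posPart G] with x hx
    rw [hx]
  simp only [e]
  exact (((Lp.continuous_posPart (p := 2) (μ := hvol 𝓜 g)).tendsto F).comp h).norm.pow 2

/-- local `L²` norms in a parametrisation are controlled by the global norm. -/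
theorem exists_setIntegral_comp_sq_le (hg : IsMetric 𝓜 g) {Φ : CE ι → V} {U K : Set (CE ι)}
    (hΦ : 𝓜.IsHol Φ U) (hK : IsCompact K) (hKU : K ⊆ U) :
    ∃ C : ℝ, 0 ≤ C ∧ ∀ F : L2M 𝓜 g, MemLp (fun z => F (Φ z)) 2 (volume.restrict K) ∧
      ∫ z in K, F (Φ z) ^ 2 ≤ C * ‖F‖ ^ 2 := by
  have hdc : ContinuousOn (fun z => ((g Φ z).det.re)⁻¹) K :=
    ((hg.toIsHForm.continuousOn_det_re hΦ).mono hKU).inv₀ fun z hz =>
      (hg.det_re_pos hΦ (hKU hz)).ne'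
  obtain ⟨C, hC⟩ := hK.exists_bound_of_continuousOn hdc
  refine ⟨max C 0, le_max_right _ _, fun F => ?_⟩
  have hmF : AEStronglyMeasurable (fun z => F (Φ z)) (volume.restrict K) :=
    (((aestronglyMeasurable_hvol_iff hg).1 (Lp.aestronglyMeasurable F)) Φ U hΦ).mono_measure
      (Measure.restrict_mono hKU le_rfl)
  have hF2 : Integrable (fun x => F x ^ 2) (hvol 𝓜 g) :=
    (memLp_two_iff_sq (Lp.aestronglyMeasurable F)).1 (Lp.memLp F)
  have hi1 : IntegrableOn (fun z => (g Φ z).det.re • (F (Φ z) ^ 2)) K :=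
    (integrableOn_hvol_image_iff hg hΦ hKU hK.measurableSet (fun x => F x ^ 2)).1
      hF2.integrableOn
  have hle : ∀ z ∈ K, F (Φ z) ^ 2 ≤ max C 0 * ((g Φ z).det.re • (F (Φ z) ^ 2)) := fun z hz => by
    have hd := hg.det_re_pos hΦ (hKU hz)
    have h1 : ((g Φ z).det.re)⁻¹ ≤ max C 0 :=
      ((le_abs_self _).trans (by rw [← Real.norm_eq_abs]; exact hC z hz)).trans (le_max_left _ _)
    calc F (Φ z) ^ 2 = ((g Φ z).det.re)⁻¹ * ((g Φ z).det.re • (F (Φ z) ^ 2)) := by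
          rw [smul_eq_mul]; field_simp
      _ ≤ max C 0 * ((g Φ z).det.re • (F (Φ z) ^ 2)) :=
          mul_le_mul_of_nonneg_right h1 (by rw [smul_eq_mul]; positivity)
  have hi2 : IntegrableOn (fun z => F (Φ z) ^ 2) K := by
    refine (hi1.const_mul (max C 0)).mono' (hmF.pow 2) ?_
    refine (ae_restrict_iff' hK.measurableSet).2 (Eventually.of_forall fun z hz => ?_)
    rw [Real.norm_eq_abs, abs_of_nonneg (sq_nonneg _)]
    exact hle z hz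
  refine ⟨(memLp_two_iff_integrable_sq hmF).2 hi2, ?_⟩
  calc ∫ z in K, F (Φ z) ^ 2 ≤ ∫ z in K, max C 0 * ((g Φ z).det.re • (F (Φ z) ^ 2)) :=
        setIntegral_mono_on hi2 (hi1.const_mul _) hK.measurableSet hle
    _ = max C 0 * ∫ x in Φ '' K, F x ^ 2 ∂(hvol 𝓜 g) := by
        rw [integral_const_mul, integral_hvol_image hg hΦ hKU hK.measurableSet]
    _ ≤ max C 0 * ‖F‖ ^ 2 := by
        refine mul_le_mul_of_nonneg_left ?_ (le_max_right _ _)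
        rw [norm_sq_l2M]
        exact setIntegral_le_integral hF2 (Eventually.of_forall fun x => sq_nonneg _)

end l2

/-! ### density of test functions -/

section dense

theorem eq_zero_of_forall_test (hg : IsMetric 𝓜 g) (F : L2M 𝓜 g)
    (h : ∀ φ : V → ℝ, 𝓜.IsTest φ → ∫ x, F x * φ x ∂(hvol 𝓜 g) = 0) : F = 0 := by
  rw [Lp.eq_zero_iff_ae_eq_zero]
  change ∀ᵐ x ∂(hvol 𝓜 g), F x = 0
  rw [ae_hvol_iff hg]
  intro Φ U hΦ
  have hp := 𝓜.isParam hΦ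
  have hloc : LocallyIntegrableOn (fun z => (g Φ z).det.re • F (Φ z)) U volume := by
    rw [locallyIntegrableOn_iff hp.isOpen.isLocallyClosed]
    intro k hkU hk
    refine (integrableOn_hvol_image_iff hg hΦ hkU hk.measurableSet (F : V → ℝ)).1 ?_
    exact integrableOn_l2M hg F (hk.image_of_continuousOn (hp.continuousOn.mono hkU))
      ((image_mono hkU).trans hp.image_subset)
  have hz := hp.isOpen.ae_eq_zero_of_integral_contDiff_smul_eq_zero hloc ?_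
  · rw [ae_restrict_iff' hp.isOpen.measurableSet]
    filter_upwards [hz] with z hz hzU
    have h1 := hz hzU
    rw [smul_eq_mul] at h1
    exact (mul_eq_zero.1 h1).resolve_left (hg.det_re_pos hΦ hzU).ne'
  · intro ψ hψ hψc hψU
    obtain ⟨u, hu, huΦ, hu0⟩ := CMfd.exists_smooth_of_chart hΦ hψc hψU hψ.contDiffOn
      (fun z _ hz => image_eq_zero_of_notMem_tsupport hz)
    have hcK : IsCompact (Φ '' tsupport ψ) :=
      IsCompact.image_of_continuousOn hψc (hp.continuousOn.mono hψU)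
    have hut : 𝓜.IsTest u :=
      ⟨hu, Φ '' tsupport ψ, hcK, (image_mono hψU).trans hp.image_subset, fun x _ hx => hu0 x hx⟩
    have h1 := h u hut
    rw [integral_hvol_of_support_real hg hΦ (fun x => F x * u x) (fun x _ hx => by
      rw [hu0 x (fun hx' => hx (image_mono hψU hx')), mul_zero])] at h1
    rw [← h1, ← setIntegral_eq_integral_of_forall_compl_eq_zero (s := U)]
    · refine setIntegral_congr_fun hp.isOpen.measurableSet fun z hz => ?_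
      simp only [smul_eq_mul]
      rw [huΦ z hz]; ring
    · intro z hz
      rw [image_eq_zero_of_notMem_tsupport (fun hz' => hz (hψU hz')), zero_smul]

/-- test functions are dense in `L²`. -/
theorem exists_test_tendsto (hg : IsMetric 𝓜 g) (F : L2M 𝓜 g) :
    ∃ φ : ℕ → V → ℝ, (∀ n, 𝓜.IsTest (φ n)) ∧ Tendsto (fun n => toL2 𝓜 g (φ n)) atTop (𝓝 F) := by
  let S : Submodule ℝ (L2M 𝓜 g) :=
    { carrier := {G | ∃ φ : V → ℝ, 𝓜.IsTest φ ∧ toL2 𝓜 g φ = G}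
      add_mem' := by
        rintro _ _ ⟨φ, hφ, rfl⟩ ⟨ψ, hψ, rfl⟩
        exact ⟨_, hφ.add hψ, toL2_add (hφ.memLp hg 2) (hψ.memLp hg 2)⟩
      zero_mem' := by
        refine ⟨_, CMfd.isTest_zero, ?_⟩
        rw [toL2_eq_iff (CMfd.isTest_zero.memLp hg 2)]
        exact (Lp.coeFn_zero ℝ 2 (hvol 𝓜 g)).symm
      smul_mem' := by
        rintro c _ ⟨φ, hφ, rfl⟩
        exact ⟨_, hφ.const_mul c, toL2_const_mul c (hφ.memLp hg 2)⟩ }
  have h1 : Sᗮ = ⊥ := by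
    rw [Submodule.eq_bot_iff]
    intro G hG
    rw [Submodule.mem_orthogonal'] at hG
    refine eq_zero_of_forall_test hg G fun φ hφ => ?_
    rw [← inner_toL2_right G (hφ.memLp hg 2)]
    exact hG _ ⟨φ, hφ, rfl⟩
  have h2 : Dense (S : Set (L2M 𝓜 g)) :=
    (Submodule.dense_iff_topologicalClosure_eq_top).2
      ((Submodule.topologicalClosure_eq_top_iff).2 h1)
  obtain ⟨G, hG, hlim⟩ := mem_closure_iff_seq_limit.1 (h2 F)
  choose φ hφ hφG using hG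
  exact ⟨φ, hφ, by simpa only [hφG] using hlim⟩

/-- sign version (test against `G = F⁻`). -/
theorem ae_nonneg_of_forall_inner_nonneg (F : L2M 𝓜 g)
    (h : ∀ G : L2M 𝓜 g, (∀ᵐ x ∂(hvol 𝓜 g), 0 ≤ G x) → 0 ≤ ⟪F, G⟫_ℝ) :
    ∀ᵐ x ∂(hvol 𝓜 g), 0 ≤ F x := by
  have hn := Lp.coeFn_negPart_eq_max F
  have h1 : 0 ≤ ⟪F, Lp.negPart F⟫_ℝ := h _ (by
    filter_upwards [hn] with x hx
    rw [hx]; exact le_max_right _ _)
  have h2 : ⟪F, Lp.negPart F⟫_ℝ = - ‖Lp.negPart F‖ ^ 2 := by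
    rw [inner_l2M, norm_sq_l2M, ← integral_neg]
    refine integral_congr_ae ?_
    filter_upwards [hn] with x hx
    rw [hx]
    rcases le_total (F x) 0 with h0 | h0
    · rw [max_eq_left (by linarith)]; ring
    · rw [max_eq_right (by linarith)]; ring
  have h3 : Lp.negPart F = 0 := by
    have : ‖Lp.negPart F‖ ^ 2 ≤ 0 := by linarith
    exact norm_eq_zero.1 (pow_eq_zero_iff two_ne_zero |>.1 (le_antisymm this (sq_nonneg _)))
  have h4 := (Lp.eq_zero_iff_ae_eq_zero).1 h3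
  filter_upwards [hn, h4] with x hx hx4
  rw [hx4, Pi.zero_apply] at hx
  have := le_max_left (-F x) 0
  linarith

end dense

/-! ### the resolvent -/

section resolvent

/-- energy Cauchy sequence of functions. -/
def TestCauchy (𝓜 : CMfd V ι) (g : HFam V ι) (u : ℕ → V → ℝ) : Prop :=
  ∀ ε : ℝ, 0 < ε → ∃ N : ℕ, ∀ n m : ℕ, N ≤ n → N ≤ m →
    ∫ x, (u n x - u m x) ^ 2 ∂(hvol 𝓜 g) + ∫ x, gradSq 𝓜 g (fun y => u n y - u m y) x ∂(hvol 𝓜 g) < ε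

/-- `u n` are test functions which converge in the energy norm to "the solution `v ∈ H¹₀` of `v - Δv = f`". -/
def ResApprox (𝓜 : CMfd V ι) (g : HFam V ι) (f v : L2M 𝓜 g) (u : ℕ → V → ℝ) : Prop :=
  (∀ n, 𝓜.IsTest (u n)) ∧ TestCauchy 𝓜 g u ∧ Tendsto (fun n => toL2 𝓜 g (u n)) atTop (𝓝 v) ∧
    ∀ φ : V → ℝ, 𝓜.IsTest φ →
      Tendsto (fun n => ∫ x, u n x * φ x ∂(hvol 𝓜 g) + ∫ x, gradInner 𝓜 g (u n) φ x ∂(hvol 𝓜 g))
        atTop (𝓝 (∫ x, f x * φ x ∂(hvol 𝓜 g)))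

/-- `R = (1 - Δ_g)⁻¹` (Friedrichs extension from test functions). -/
structure IsHeatRes (𝓜 : CMfd V ι) (g : HFam V ι) (R : L2M 𝓜 g →L[ℝ] L2M 𝓜 g) : Prop where
  unitOp : IsUnitOp R
  injective : Function.Injective R
  approx : ∀ f : L2M 𝓜 g, ∃ u : ℕ → V → ℝ, ResApprox 𝓜 g f (R f) u ∧
    Tendsto (fun n => ∫ x, u n x ^ 2 ∂(hvol 𝓜 g) + ∫ x, gradSq 𝓜 g (u n) x ∂(hvol 𝓜 g)) atTop
      (𝓝 ⟪R f, f⟫_ℝ)
  unique : ∀ (f v : L2M 𝓜 g) (u : ℕ → V → ℝ), ResApprox 𝓜 g f v u → v = R f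

/-- the space of test functions. -/
def resA_D (𝓜 : CMfd V ι) : Submodule ℝ (V → ℝ) where
  carrier := {φ | 𝓜.IsTest φ}
  add_mem' := fun hφ hψ => CMfd.IsTest.add hφ hψ
  zero_mem' := CMfd.isTest_zero
  smul_mem' := fun c _ hφ => CMfd.IsTest.const_mul c hφ

/-- the inclusion of test functions in `L²`. -/
noncomputable def resA_J (hg : IsMetric 𝓜 g) : resA_D 𝓜 →ₗ[ℝ] L2M 𝓜 g where
  toFun φ := toL2 𝓜 g φ.1
  map_add' φ ψ := toL2_add (CMfd.IsTest.memLp hg φ.2 2) (CMfd.IsTest.memLp hg ψ.2 2)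
  map_smul' c φ := toL2_const_mul c (CMfd.IsTest.memLp hg φ.2 2)

theorem resA_integrable (hg : IsMetric 𝓜 g) (hφ : 𝓜.IsTest φ) (hψ : 𝓜.IsTest ψ) :
    Integrable (gradInner 𝓜 g φ ψ) (hvol 𝓜 g) :=
  integrable_gradInner_of_csupp_left hg hφ.1.locLip hφ.2 hψ.1.locLip

/-- the Dirichlet form on test functions. -/
noncomputable def resA_a (hg : IsMetric 𝓜 g) : resA_D 𝓜 →ₗ[ℝ] resA_D 𝓜 →ₗ[ℝ] ℝ :=
  LinearMap.mk₂ ℝ (fun φ ψ => ∫ x, gradInner 𝓜 g φ.1 ψ.1 x ∂(hvol 𝓜 g))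
    (fun φ φ' ψ => by
      rw [← integral_add (resA_integrable hg φ.2 ψ.2) (resA_integrable hg φ'.2 ψ.2)]
      exact integral_hvol_congr fun x hx =>
        gradInner_add_left g (φ.2.1.diffAt hx) (φ'.2.1.diffAt hx) ψ.1)
    (fun c φ ψ => by
      rw [smul_eq_mul, ← integral_const_mul]
      exact integral_hvol_congr fun x hx => gradInner_const_mul_left g c (φ.2.1.diffAt hx) ψ.1)
    (fun φ ψ ψ' => by
      rw [← integral_add (resA_integrable hg φ.2 ψ.2) (resA_integrable hg φ.2 ψ'.2)]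
      exact integral_hvol_congr fun x hx =>
        gradInner_add_right g (ψ.2.1.diffAt hx) (ψ'.2.1.diffAt hx) φ.1)
    (fun c φ ψ => by
      rw [smul_eq_mul, ← integral_const_mul]
      exact integral_hvol_congr fun x hx => gradInner_const_mul_right g c (ψ.2.1.diffAt hx) φ.1)

theorem resA_frApprox_iff (hg : IsMetric 𝓜 g) (f v : L2M 𝓜 g) (u : ℕ → resA_D 𝓜) :
    FrApprox (resA_J hg) (resA_a hg) f v u ↔ ResApprox 𝓜 g f v (fun n => (u n).1) := by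
  have hJn : ∀ w : resA_D 𝓜, ‖resA_J hg w‖ ^ 2 = ∫ x, w.1 x ^ 2 ∂(hvol 𝓜 g) := fun w =>
    norm_sq_toL2 (CMfd.IsTest.memLp hg w.2 2)
  have h1 : EnCauchy (resA_J hg) (resA_a hg) u ↔ TestCauchy 𝓜 g (fun n => (u n).1) := by
    unfold EnCauchy TestCauchy
    simp only [hJn]
    rfl
  have h2 : (∀ φ : resA_D 𝓜, Tendsto (fun n => ⟪resA_J hg (u n), resA_J hg φ⟫_ℝ
        + resA_a hg (u n) φ) atTop (𝓝 ⟪f, resA_J hg φ⟫_ℝ)) ↔
      ∀ φ : V → ℝ, 𝓜.IsTest φ →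
        Tendsto (fun n => ∫ x, (u n).1 x * φ x ∂(hvol 𝓜 g)
          + ∫ x, gradInner 𝓜 g (u n).1 φ x ∂(hvol 𝓜 g))
          atTop (𝓝 (∫ x, f x * φ x ∂(hvol 𝓜 g))) := by
    have e1 : ∀ w φ : resA_D 𝓜, ⟪resA_J hg w, resA_J hg φ⟫_ℝ
        = ∫ x, w.1 x * φ.1 x ∂(hvol 𝓜 g) := fun w φ =>
      inner_toL2_toL2 (CMfd.IsTest.memLp hg w.2 2) (CMfd.IsTest.memLp hg φ.2 2)
    have e2 : ∀ φ : resA_D 𝓜, ⟪f, resA_J hg φ⟫_ℝ = ∫ x, f x * φ.1 x ∂(hvol 𝓜 g) := fun φ =>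
      inner_toL2_right f (CMfd.IsTest.memLp hg φ.2 2)
    simp only [e1, e2]
    constructor
    · intro h φ hφ; exact h ⟨φ, hφ⟩
    · intro h φ; exact h φ.1 φ.2
  unfold FrApprox ResApprox
  rw [h1, h2]
  constructor
  · rintro ⟨a1, a2, a3⟩; exact ⟨fun n => (u n).2, a1, a2, a3⟩
  · rintro ⟨-, a1, a2, a3⟩; exact ⟨a1, a2, a3⟩

theorem exists_isHeatRes (hg : IsMetric 𝓜 g) : ∃ R : L2M 𝓜 g →L[ℝ] L2M 𝓜 g, IsHeatRes 𝓜 g R := by
  have hJ : DenseRange (resA_J hg) := by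
    intro F
    obtain ⟨φ, hφ, hlim⟩ := exists_test_tendsto hg F
    exact mem_closure_of_tendsto hlim (Eventually.of_forall fun n => ⟨⟨φ n, hφ n⟩, rfl⟩)
  obtain ⟨R, hR⟩ := exists_isFriedrichs (resA_J hg) (resA_a hg) hJ
    (fun φ ψ => integral_hvol_congr fun x hx => gradInner_comm hg hx φ.1 ψ.1)
    (fun φ => integral_hvol_nonneg fun x hx => by
      rw [gradInner_self]; exact gradSq_nonneg hg φ.1 hx)
  refine ⟨R, hR.unitOp, hR.injective, fun f => ?_, fun f v u hu => ?_⟩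
  · obtain ⟨u, hu, hlim⟩ := hR.approx f
    refine ⟨fun n => (u n).1, (resA_frApprox_iff hg f (R f) u).1 hu, ?_⟩
    refine hlim.congr fun n => ?_
    congr 1
    exact norm_sq_toL2 (CMfd.IsTest.memLp hg (u n).2 2)
  · exact hR.unique f v (fun n => ⟨u n, hu.1 n⟩) ((resA_frApprox_iff hg f v _).2 hu)

open Classical in
/-- **the resolvent** `(1 - Δ_g)⁻¹` on `L²(M, dV_g)`. -/
noncomputable def heatR (𝓜 : CMfd V ι) (g : HFam V ι) : L2M 𝓜 g →L[ℝ] L2M 𝓜 g :=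
  if h : ∃ R : L2M 𝓜 g →L[ℝ] L2M 𝓜 g, IsHeatRes 𝓜 g R then h.choose else 0

theorem isHeatRes_heatR (hg : IsMetric 𝓜 g) : IsHeatRes 𝓜 g (heatR 𝓜 g) := by
  rw [heatR, dif_pos (exists_isHeatRes hg)]
  exact (exists_isHeatRes hg).choose_spec

theorem isUnitOp_heatR (hg : IsMetric 𝓜 g) : IsUnitOp (heatR 𝓜 g) := (isHeatRes_heatR hg).unitOp

theorem heatR_injective (hg : IsMetric 𝓜 g) : Function.Injective (heatR 𝓜 g) :=
  (isHeatRes_heatR hg).injective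

theorem resA_green (hK : IsKahler 𝓜 g) (hu : 𝓜.IsTest u) (hφ : 𝓜.IsTest φ) :
    ∫ x, u x * φ x ∂(hvol 𝓜 g) + ∫ x, gradInner 𝓜 g u φ x ∂(hvol 𝓜 g)
      = ∫ x, u x * (φ x - lap 𝓜 g φ x) ∂(hvol 𝓜 g) := by
  have hg := hK.toIsMetric
  have h1 := integral_mul_lap' hK hφ.1 hφ.2 hu.1.locLip
  have i1 : Integrable (fun x => u x * φ x) (hvol 𝓜 g) :=
    integrable_hvol_of_csupp hg (hu.1.continuousOn.mul hφ.1.continuousOn) (hu.2.mul_right _)
  have i2 : Integrable (fun x => u x * lap 𝓜 g φ x) (hvol 𝓜 g) :=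
    integrable_mul_lap_of_csupp' hg hu.1.continuousOn hφ.1 hφ.2
  simp only [mul_sub]
  rw [integral_sub i1 i2, h1]; ring

/-- **weak equation** `∫ (R f)(φ - Δφ) = ∫ f φ`. -/
theorem integral_heatR_mul (hK : IsKahler 𝓜 g) (f : L2M 𝓜 g) (hφ : 𝓜.IsTest φ) :
    ∫ x, heatR 𝓜 g f x * (φ x - lap 𝓜 g φ x) ∂(hvol 𝓜 g) = ∫ x, f x * φ x ∂(hvol 𝓜 g) := by
  have hg := hK.toIsMetric
  obtain ⟨u, ⟨hu, -, hlim, hw⟩, -⟩ := (isHeatRes_heatR hg).approx f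
  have hm : MemLp (fun x => φ x - lap 𝓜 g φ x) 2 (hvol 𝓜 g) := (hφ.sub (hφ.lap hg)).memLp hg 2
  have h1 := tendsto_integral_mul_of_tendsto_l2M hlim hm
  have h2 := hw φ hφ
  refine tendsto_nhds_unique h1 (h2.congr fun n => ?_)
  rw [resA_green hK (hu n) hφ]
  refine integral_congr_ae ?_
  filter_upwards [toL2_ae_eq ((hu n).memLp hg 2)] with x hx
  rw [hx]

/-- test functions: `R (φ - Δφ) = φ`. -/
theorem heatR_sub_lap (hK : IsKahler 𝓜 g) (hφ : 𝓜.IsTest φ) :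
    heatR 𝓜 g (toL2 𝓜 g (fun x => φ x - lap 𝓜 g φ x)) = toL2 𝓜 g φ := by
  have hg := hK.toIsMetric
  have hm : MemLp (fun x => φ x - lap 𝓜 g φ x) 2 (hvol 𝓜 g) := (hφ.sub (hφ.lap hg)).memLp hg 2
  refine ((isHeatRes_heatR hg).unique _ _ (fun _ => φ) ⟨fun _ => hφ, fun ε hε => ⟨0, fun n m _ _ => ?_⟩,
    tendsto_const_nhds, fun ψ hψ => ?_⟩).symm
  · simp only [sub_self, gradSq_const]
    simpa using hε
  · have e : ∫ x, φ x * ψ x ∂(hvol 𝓜 g) + ∫ x, gradInner 𝓜 g φ ψ x ∂(hvol 𝓜 g)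
        = ∫ x, toL2 𝓜 g (fun x => φ x - lap 𝓜 g φ x) x * ψ x ∂(hvol 𝓜 g) := by
      have e1 : ∫ x, φ x * ψ x ∂(hvol 𝓜 g) + ∫ x, gradInner 𝓜 g φ ψ x ∂(hvol 𝓜 g)
          = ∫ x, ψ x * φ x ∂(hvol 𝓜 g) + ∫ x, gradInner 𝓜 g ψ φ x ∂(hvol 𝓜 g) := by
        congr 1
        · simp only [mul_comm]
        · exact integral_hvol_congr fun x hx => gradInner_comm hg hx φ ψ
      rw [e1, resA_green hK hψ hφ]
      refine integral_congr_ae ?_
      filter_upwards [toL2_ae_eq hm] with x hx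
      rw [hx]; ring
    simp only [e]
    exact tendsto_const_nhds

/-- iterated: `φ = R^k (1 - Δ)^k φ`. -/
theorem exists_test_heatR_pow (hK : IsKahler 𝓜 g) (hφ : 𝓜.IsTest φ) (k : ℕ) :
    ∃ ψ : V → ℝ, 𝓜.IsTest ψ ∧ (heatR 𝓜 g ^ k) (toL2 𝓜 g ψ) = toL2 𝓜 g φ := by
  induction k with
  | zero => exact ⟨φ, hφ, by simp⟩
  | succ k ih =>
    obtain ⟨ψ, hψ, h⟩ := ih
    refine ⟨fun x => ψ x - lap 𝓜 g ψ x, hψ.sub (hψ.lap hK.toIsMetric), ?_⟩
    rw [pow_succ, ContinuousLinearMap.mul_apply, heatR_sub_lap hK hψ, h]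

end resolvent

end Claimed.Agent.R316
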