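import Mathlib

/-!
# Row 316, BP-G8 (heat semigroup), file 1: continuous functional calculus on a REAL Hilbert space

Statement file by helper55 (sub-captain G8).  FRAMEWORK INDEPENDENT (only Mathlib).

`H` is a real Hilbert space, `R : H →L[ℝ] H` selfadjoint with `0 ≤ R ≤ 1` (`IsUnitOp R`).
Mathlib has the continuous functional calculus only for COMPLEX C⋆-algebras, so:

## Leaf G8-RFC-A: `exists_rfcHom`   (PROVED, by another route: NO complexification.  `‖p(R)‖ ≤ sup_{[0,1]} |p|` for real polynomials from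
`ContinuousLinearMap.spectralRadius_eq_nnnorm` (valid over `ℝ`) and the spectral mapping inclusion, proved through the factorisation of real polynomials into
irreducible factors of degree `≤ 2` (`rfcA_isUnit_aeval`); then Weierstrass.)
ORIGINAL ROUTE (not used).  1. Complexify: `HC := H × H` as a new `structure` with fields `re im`; `AddCommGroup` (transport), `Module ℂ`
  (`(a+bi)(x,y) = (ax - by, ay + bx)`), `InnerProductSpace.Core ℂ` with
  `⟪(x,y),(x',y')⟫ = (⟪x,x'⟫ + ⟪y,y'⟫) + i (⟪x,y'⟫ - ⟪y,x'⟫)` (conjugate linear in the FIRST variable), so that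
  `‖(x,y)‖² = ‖x‖² + ‖y‖²`; `NormedAddCommGroup`, `InnerProductSpace ℂ` from the core; completeness: a Cauchy sequence
  has Cauchy components.  (Alternative: `exists_hilbertBasis` identifies `H` with `ℓ²(ι,ℝ)`, use `ℓ²(ι,ℂ)`.)
2. `cpx T (x,y) = (T x, T y)`: an `ℝ`-algebra homomorphism `(H →L[ℝ] H) → (HC →L[ℂ] HC)`, `‖cpx T‖ = ‖T‖`,
  `cpx (adjoint T) = adjoint (cpx T)`; hence its range `𝒜` is a CLOSED real star subalgebra (`StarSubalgebra ℝ _`; closed since
  `cpx` is isometric and `H →L[ℝ] H` is complete).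
3. `a := cpx R` is selfadjoint with `spectrum ℝ a ⊆ Icc 0 1`: `⟪a z, z⟫ = ⟪R x,x⟫ + ⟪R y,y⟫ ∈ [0, ‖z‖²]`; so `a` and `1 - a` are
  positive operators (`ContinuousLinearMap.IsPositive`, `ContinuousLinearMap.nonneg_iff_isPositive`), and
  `spectrum_nonneg_of_nonneg` / `SpectrumRestricts.nnreal_of_nonneg`, applied to `a` and `1 - a`, give the inclusion.
4. `instance : ContinuousFunctionalCalculus ℝ (HC →L[ℂ] HC) IsSelfAdjoint` is found by Lean.  For `f : C(Icc 0 1, ℝ)` let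
  `f' : ℝ → ℝ := IccExtend f`; `cfc f' a ∈ StarAlgebra.elemental ℝ a ≤ 𝒜` (`cfc_mem_elemental`, `StarAlgebra.elemental.le_of_mem`).
  `Θ f :=` the preimage under the injective `cpx` (concretely `x ↦ (cfc f' a (x,0)).re`).  Additivity, multiplicativity, unit:
  `cfc_add`, `cfc_mul`, `cfc_const_mul`/`cfc_smul`, `cfc_one`/`cfc_const_one`, `cfc_id`, + injectivity of `cpx`;
  `‖Θ f‖ = ‖cfc f' a‖ ≤ ‖f‖`: `norm_cfc_le`; selfadjoint: `cfc_predicate`/`IsSelfAdjoint.cfc`.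

## Leaf G8-RFC-B: the function level API `rfc R f` (everything after `exists_rfcHom`), 150 lines.
-/

set_option autoImplicit false
set_option linter.unusedSectionVars false
set_option linter.deprecated false
open scoped Topology InnerProductSpace
open Set Filter

namespace Claimed.Agent.R316

variable {H : Type*} [NormedAddCommGroup H] [InnerProductSpace ℝ H] [CompleteSpace H]

/-- bounded selfadjoint operator with `0 ≤ R ≤ 1`. -/
structure IsUnitOp (R : H →L[ℝ] H) : Prop where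
  selfAdjoint : IsSelfAdjoint R
  nonneg : ∀ x, 0 ≤ ⟪R x, x⟫_ℝ
  le_one : ∀ x, ⟪R x, x⟫_ℝ ≤ ‖x‖ ^ 2

section poly

open Polynomial

variable {R : H →L[ℝ] H}

theorem rfcA_isUnit_of_coercive (T : H →L[ℝ] H) {c : ℝ} (hc : 0 < c)
    (h : ∀ x, c * ‖x‖ ^ 2 ≤ |⟪T x, x⟫_ℝ|) : IsUnit T := by
  refine ContinuousLinearMap.isUnit_of_forall_le_norm_inner_map T (c := Real.toNNReal c)
    (Real.toNNReal_pos.2 hc) fun x => ?_
  rw [Real.norm_eq_abs, Real.coe_toNNReal c hc.le, mul_comm]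
  exact h x

theorem rfcA_inner_comm (hR : IsUnitOp R) (x y : H) : ⟪R x, y⟫_ℝ = ⟪x, R y⟫_ℝ := by
  have h := ContinuousLinearMap.adjoint_inner_left R y x
  rw [ContinuousLinearMap.isSelfAdjoint_iff'.1 hR.selfAdjoint] at h
  exact h

theorem rfcA_aeval_quadratic (R : H →L[ℝ] H) {π : ℝ[X]} (hπ : π.natDegree < 3) :
    aeval R π = π.coeff 0 • (1 : H →L[ℝ] H) + π.coeff 1 • R + π.coeff 2 • (R * R) := by
  rw [aeval_eq_sum_range' hπ]
  simp [Finset.sum_range_succ, pow_two]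

theorem rfcA_eval_quadratic {π : ℝ[X]} (hπ : π.natDegree < 3) (l : ℝ) :
    π.eval l = π.coeff 0 + π.coeff 1 * l + π.coeff 2 * (l * l) := by
  rw [eval_eq_sum_range' hπ]
  simp [Finset.sum_range_succ, pow_two]

theorem rfcA_isUnit_irreducible (hR : IsUnitOp R) {π : ℝ[X]} (hπ : Irreducible π)
    (h0 : ∀ l ∈ Icc (0 : ℝ) 1, π.eval l ≠ 0) : IsUnit (aeval R π) := by
  have hdeg : π.natDegree < 3 := Nat.lt_succ_of_le hπ.natDegree_le_two
  set a := π.coeff 2 with ha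
  set b := π.coeff 1 with hb
  set c := π.coeff 0 with hc
  have hinner : ∀ x, ⟪aeval R π x, x⟫_ℝ = c * ‖x‖ ^ 2 + b * ⟪R x, x⟫_ℝ + a * ‖R x‖ ^ 2 := by
    intro x
    rw [rfcA_aeval_quadratic R hdeg]
    simp only [ContinuousLinearMap.add_apply, ContinuousLinearMap.smul_apply,
      ContinuousLinearMap.one_apply, ContinuousLinearMap.mul_apply, inner_add_left,
      inner_smul_left, real_inner_self_eq_norm_sq, RCLike.conj_to_real]
    rw [rfcA_inner_comm hR (R x) x, real_inner_self_eq_norm_sq]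
  by_cases ha0 : a = 0
  · -- linear
    have hb0 : b ≠ 0 := by
      intro hb0
      have hpos := hπ.natDegree_pos
      have : π.natDegree = 0 := by
        by_contra hne
        have hlc : π.coeff π.natDegree ≠ 0 := by
          rw [coeff_natDegree]; exact leadingCoeff_ne_zero.2 hπ.ne_zero
        have : π.natDegree = 1 ∨ π.natDegree = 2 := by omega
        rcases this with h1 | h1
        · rw [h1] at hlc; exact hlc hb0
        · rw [h1] at hlc; exact hlc ha0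
      omega
    set l₀ := - c / b with hl₀
    have hroot : π.eval l₀ = 0 := by
      rw [rfcA_eval_quadratic hdeg, ← ha, ← hb, ← hc, ha0, hl₀]
      field_simp
      ring
    have hl : l₀ < 0 ∨ 1 < l₀ := by
      by_contra hcon
      rw [not_or, not_lt, not_lt] at hcon
      exact h0 l₀ hcon hroot
    have hc' : c = - b * l₀ := by rw [hl₀]; field_simp
    rcases hl with hl | hl
    · refine rfcA_isUnit_of_coercive _ (c := |b| * (-l₀)) (by
        have := abs_pos.2 hb0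
        nlinarith) fun x => ?_
      rw [hinner, ha0, hc']
      have e : -b * l₀ * ‖x‖ ^ 2 + b * ⟪R x, x⟫_ℝ + 0 * ‖R x‖ ^ 2
          = b * (⟪R x, x⟫_ℝ - l₀ * ‖x‖ ^ 2) := by ring
      rw [e, abs_mul, mul_assoc]
      refine mul_le_mul_of_nonneg_left ?_ (abs_nonneg b)
      refine le_trans ?_ (le_abs_self _)
      linarith [hR.nonneg x]
    · refine rfcA_isUnit_of_coercive _ (c := |b| * (l₀ - 1)) (by
        have := abs_pos.2 hb0
        nlinarith) fun x => ?_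
      rw [hinner, ha0, hc']
      have e : -b * l₀ * ‖x‖ ^ 2 + b * ⟪R x, x⟫_ℝ + 0 * ‖R x‖ ^ 2
          = b * (⟪R x, x⟫_ℝ - l₀ * ‖x‖ ^ 2) := by ring
      rw [e, abs_mul, mul_assoc]
      refine mul_le_mul_of_nonneg_left ?_ (abs_nonneg b)
      refine le_trans ?_ (neg_le_abs _)
      linarith [hR.le_one x]
  · -- quadratic, negative discriminant
    have hdisc : b * b - 4 * a * c < 0 := by
      by_contra hcon
      rw [not_lt] at hcon
      obtain ⟨r, hr⟩ := exists_quadratic_eq_zero (a := a) (b := b) (c := c) ha0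
        ⟨Real.sqrt (b * b - 4 * a * c), by
          rw [discrim, Real.mul_self_sqrt hcon]; ring⟩
      have hroot : π.IsRoot r := by
        rw [IsRoot, rfcA_eval_quadratic hdeg, ← ha, ← hb, ← hc]
        linarith
      have h1 := degree_eq_one_of_irreducible_of_root hπ hroot
      have : π.coeff 2 = 0 := coeff_eq_zero_of_degree_lt (by rw [h1]; norm_num)
      exact ha0 this
    set δ := (4 * a * c - b * b) / 4 with hδ
    have hδpos : 0 < δ := by rw [hδ]; linarith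
    have ha_pos := abs_pos.2 ha0
    refine rfcA_isUnit_of_coercive _ (c := δ / |a|) (by positivity) fun x => ?_
    rw [hinner, div_mul_eq_mul_div, div_le_iff₀ ha_pos, ← abs_mul]
    refine le_trans ?_ (le_abs_self _)
    have e : (c * ‖x‖ ^ 2 + b * ⟪R x, x⟫_ℝ + a * ‖R x‖ ^ 2) * a
        = ‖a • R x + (b / 2) • x‖ ^ 2 + δ * ‖x‖ ^ 2 := by
      rw [norm_add_sq_real, norm_smul, norm_smul, inner_smul_left, inner_smul_right, hδ,
        mul_pow, mul_pow, Real.norm_eq_abs, Real.norm_eq_abs, sq_abs, sq_abs]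
      simp only [RCLike.conj_to_real]
      ring
    rw [e]
    nlinarith [sq_nonneg ‖a • R x + (b / 2) • x‖]

theorem rfcA_isUnit_aeval (hR : IsUnitOp R) (q : ℝ[X]) (hq : q ≠ 0)
    (h0 : ∀ l ∈ Icc (0 : ℝ) 1, q.eval l ≠ 0) : IsUnit (aeval R q) := by
  induction q using UniqueFactorizationMonoid.induction_on_prime with
  | h₁ => exact absurd rfl hq
  | h₂ x hx => exact hx.map (aeval R)
  | h₃ a p ha hp ih =>
    rw [map_mul]
    refine IsUnit.mul ?_ (ih ha fun l hl hl0 => h0 l hl (by rw [eval_mul, hl0, mul_zero]))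
    exact rfcA_isUnit_irreducible hR hp.irreducible
      fun l hl hl0 => h0 l hl (by rw [eval_mul, hl0, zero_mul])

theorem rfcA_isSelfAdjoint_aeval (hR : IsUnitOp R) (p : ℝ[X]) : IsSelfAdjoint (aeval R p) := by
  rw [aeval_eq_sum_range]
  exact isSelfAdjoint_sum _ fun i _ => (IsSelfAdjoint.all (p.coeff i)).smul (hR.selfAdjoint.pow i)

theorem rfcA_norm_aeval_le (hR : IsUnitOp R) (p : ℝ[X]) {M : ℝ}
    (hM : ∀ l ∈ Icc (0 : ℝ) 1, |p.eval l| ≤ M) : ‖aeval R p‖ ≤ M := by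
  have hM0 : 0 ≤ M := (abs_nonneg _).trans (hM 0 ⟨le_rfl, zero_le_one⟩)
  have h1 := ContinuousLinearMap.spectralRadius_eq_nnnorm (𝕜 := ℝ) _ (rfcA_isSelfAdjoint_aeval hR p)
  have h2 : spectralRadius ℝ (aeval R p) ≤ ((Real.toNNReal M : NNReal) : ENNReal) := by
    refine iSup₂_le fun k hk => ?_
    have hk' : |k| ≤ M := by
      by_contra hcon
      rw [not_le] at hcon
      rw [spectrum.mem_iff] at hk
      apply hk
      have e : algebraMap ℝ (H →L[ℝ] H) k - aeval R p = aeval R (C k - p) := by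
        rw [map_sub, aeval_C]
      rw [e]
      refine rfcA_isUnit_aeval hR _ ?_ ?_
      · intro h0
        have h3 : p = C k := (sub_eq_zero.1 h0).symm
        have h4 := hM 0 ⟨le_rfl, zero_le_one⟩
        rw [h3, eval_C] at h4
        linarith
      · intro l hl h0
        rw [eval_sub, eval_C, sub_eq_zero] at h0
        have h4 := hM l hl
        rw [← h0] at h4
        linarith
    rw [ENNReal.coe_le_coe, ← NNReal.coe_le_coe, Real.coe_toNNReal M hM0, coe_nnnorm,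
      Real.norm_eq_abs]
    exact hk'
  rw [h1, ENNReal.coe_le_coe, ← NNReal.coe_le_coe, Real.coe_toNNReal M hM0, coe_nnnorm] at h2
  exact h2

/-- restriction of polynomials to `[0,1]`. -/
noncomputable def rfcA_toC : ℝ[X] →ₐ[ℝ] C(Set.Icc (0 : ℝ) 1, ℝ) :=
  toContinuousMapOnAlgHom (Set.Icc (0 : ℝ) 1)

theorem rfcA_toC_apply (p : ℝ[X]) (l : Set.Icc (0 : ℝ) 1) : rfcA_toC p l = p.eval (l : ℝ) := rfl

theorem rfcA_norm_aeval_le_norm (hR : IsUnitOp R) (p : ℝ[X]) : ‖aeval R p‖ ≤ ‖rfcA_toC p‖ := by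
  refine rfcA_norm_aeval_le hR p fun l hl => ?_
  exact (rfcA_toC p).norm_coe_le_norm ⟨l, hl⟩

theorem rfcA_dist_aeval_le (hR : IsUnitOp R) (p q : ℝ[X]) :
    dist (aeval R p) (aeval R q) ≤ dist (rfcA_toC p) (rfcA_toC q) := by
  rw [dist_eq_norm, dist_eq_norm, ← map_sub, ← map_sub]
  exact rfcA_norm_aeval_le_norm hR _

theorem rfcA_exists_seq (f : C(Set.Icc (0 : ℝ) 1, ℝ)) :
    ∃ P : ℕ → ℝ[X], Tendsto (fun n => rfcA_toC (P n)) atTop (𝓝 f) := by
  choose P hP using fun n : ℕ =>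
    exists_polynomial_near_continuousMap 0 1 f (1 / ((n : ℝ) + 1)) (by positivity)
  refine ⟨P, ?_⟩
  rw [tendsto_iff_norm_sub_tendsto_zero]
  refine squeeze_zero (fun n => norm_nonneg _) (fun n => (hP n).le) ?_
  exact tendsto_one_div_add_atTop_nhds_zero_nat

theorem rfcA_exists_limit (hR : IsUnitOp R) (f : C(Set.Icc (0 : ℝ) 1, ℝ)) :
    ∃ T : H →L[ℝ] H, ∀ q : ℕ → ℝ[X], Tendsto (fun n => rfcA_toC (q n)) atTop (𝓝 f) →
      Tendsto (fun n => aeval R (q n)) atTop (𝓝 T) := by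
  obtain ⟨P, hP⟩ := rfcA_exists_seq f
  have hc : CauchySeq fun n => aeval R (P n) := by
    rw [Metric.cauchySeq_iff]
    intro ε hε
    obtain ⟨N, hN⟩ := Metric.cauchySeq_iff.1 hP.cauchySeq ε hε
    exact ⟨N, fun m hm n hn => lt_of_le_of_lt (rfcA_dist_aeval_le hR _ _) (hN m hm n hn)⟩
  obtain ⟨T, hT⟩ := cauchySeq_tendsto_of_complete hc
  refine ⟨T, fun q hq => tendsto_of_tendsto_of_dist hT ?_⟩
  refine squeeze_zero (fun n => dist_nonneg) (fun n => rfcA_dist_aeval_le hR _ _) ?_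
  have := hP.dist hq
  rwa [dist_self] at this

end poly

/-- the coordinate function of `C([0,1])`. -/
def idIcc : C(Set.Icc (0 : ℝ) 1, ℝ) := ⟨Subtype.val, continuous_subtype_val⟩

/-- the properties of a functional calculus of `R`. -/
def IsRfcHom (R : H →L[ℝ] H) (Θ : C(Set.Icc (0 : ℝ) 1, ℝ) →ₐ[ℝ] (H →L[ℝ] H)) : Prop :=
  Θ idIcc = R ∧ (∀ f, ‖Θ f‖ ≤ ‖f‖) ∧ ∀ f, IsSelfAdjoint (Θ f)

open Polynomial in
/-- **continuous functional calculus on a real Hilbert space**. -/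
theorem exists_rfcHom {R : H →L[ℝ] H} (hR : IsUnitOp R) :
    ∃ Θ : C(Set.Icc (0 : ℝ) 1, ℝ) →ₐ[ℝ] (H →L[ℝ] H), IsRfcHom R Θ := by
  choose Θ hΘ using rfcA_exists_limit hR
  choose P hP using rfcA_exists_seq
  have hlim : ∀ f, Tendsto (fun n => aeval R (P f n)) atTop (𝓝 (Θ f)) := fun f => hΘ f _ (hP f)
  have hconst : ∀ p : ℝ[X], Θ (rfcA_toC p) = aeval R p := fun p =>
    tendsto_nhds_unique (hΘ _ (fun _ => p) tendsto_const_nhds) tendsto_const_nhds
  have hadd : ∀ f g, Θ (f + g) = Θ f + Θ g := by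
    intro f g
    have h1 : Tendsto (fun n => rfcA_toC (P f n + P g n)) atTop (𝓝 (f + g)) := by
      simp only [map_add]
      exact (hP f).add (hP g)
    have h2 := hΘ _ _ h1
    simp only [map_add] at h2
    exact tendsto_nhds_unique h2 ((hlim f).add (hlim g))
  have hmul : ∀ f g, Θ (f * g) = Θ f * Θ g := by
    intro f g
    have h1 : Tendsto (fun n => rfcA_toC (P f n * P g n)) atTop (𝓝 (f * g)) := by
      simp only [map_mul]
      exact (hP f).mul (hP g)
    have h2 := hΘ _ _ h1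
    simp only [map_mul] at h2
    exact tendsto_nhds_unique h2 ((hlim f).mul (hlim g))
  have halg : ∀ r : ℝ, Θ (algebraMap ℝ _ r) = algebraMap ℝ _ r := by
    intro r
    have := hconst (C r)
    rwa [aeval_C, ← algebraMap_eq, AlgHom.commutes] at this
  refine ⟨{ toFun := Θ
            map_one' := by
              have := halg 1
              rwa [map_one, map_one] at this
            map_mul' := hmul
            map_zero' := by
              have := halg 0
              rwa [map_zero, map_zero] at this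
            map_add' := hadd
            commutes' := halg }, ?_, ?_, ?_⟩
  · show Θ idIcc = R
    have h1 : rfcA_toC X = idIcc := by
      ext l
      rw [rfcA_toC_apply, eval_X]
      rfl
    rw [← h1, hconst, aeval_X]
  · intro f
    show ‖Θ f‖ ≤ ‖f‖
    exact le_of_tendsto_of_tendsto' (hlim f).norm (hP f).norm
      fun n => rfcA_norm_aeval_le_norm hR _
  · intro f
    show star (Θ f) = Θ f
    have h1 := (continuous_star.tendsto (Θ f)).comp (hlim f)
    refine tendsto_nhds_unique h1 ((hlim f).congr fun n => ?_)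
    exact (rfcA_isSelfAdjoint_aeval hR (P f n)).star_eq.symm

open Classical in
/-- `f(R)` for `f` continuous on `[0,1]` (junk value `0` otherwise). -/
noncomputable def rfc (R : H →L[ℝ] H) (f : ℝ → ℝ) : H →L[ℝ] H :=
  if h : (∃ Θ : C(Set.Icc (0 : ℝ) 1, ℝ) →ₐ[ℝ] (H →L[ℝ] H), IsRfcHom R Θ) ∧
      ContinuousOn f (Set.Icc 0 1)
  then h.1.choose ⟨(Set.Icc (0 : ℝ) 1).domRestrict f, h.2.domRestrict⟩ else 0

section api

variable {R : H →L[ℝ] H} {f g : ℝ → ℝ}

/-- the restriction to `[0,1]` as a continuous map. -/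
def rfcB_C (f : ℝ → ℝ) (hf : ContinuousOn f (Icc 0 1)) : C(Set.Icc (0 : ℝ) 1, ℝ) :=
  ⟨(Set.Icc (0 : ℝ) 1).domRestrict f, hf.domRestrict⟩

theorem rfcB_C_apply (hf : ContinuousOn f (Icc 0 1)) (l : Set.Icc (0 : ℝ) 1) :
    rfcB_C f hf l = f l := rfl

theorem rfcB_eq (hE : ∃ Θ : C(Set.Icc (0 : ℝ) 1, ℝ) →ₐ[ℝ] (H →L[ℝ] H), IsRfcHom R Θ)
    (hf : ContinuousOn f (Icc 0 1)) : rfc R f = hE.choose (rfcB_C f hf) := by
  unfold rfc
  rw [dif_pos ⟨hE, hf⟩]
  rfl

theorem rfcB_junk (h : ¬ ((∃ Θ : C(Set.Icc (0 : ℝ) 1, ℝ) →ₐ[ℝ] (H →L[ℝ] H), IsRfcHom R Θ) ∧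
    ContinuousOn f (Set.Icc 0 1))) : rfc R f = 0 := by
  unfold rfc
  rw [dif_neg h]

theorem IsUnitOp.norm_le_one (hR : IsUnitOp R) : ‖R‖ ≤ 1 := by
  obtain ⟨Θ, h1, h2, -⟩ := exists_rfcHom hR
  rw [← h1]
  refine (h2 idIcc).trans ?_
  rw [ContinuousMap.norm_le _ zero_le_one]
  intro l
  show ‖(l : ℝ)‖ ≤ 1
  rw [Real.norm_eq_abs, abs_of_nonneg l.2.1]
  exact l.2.2

theorem IsUnitOp.norm_apply_le (hR : IsUnitOp R) (x : H) : ‖R x‖ ≤ ‖x‖ := by
  calc ‖R x‖ ≤ ‖R‖ * ‖x‖ := R.le_opNorm x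
    _ ≤ 1 * ‖x‖ := mul_le_mul_of_nonneg_right hR.norm_le_one (norm_nonneg x)
    _ = ‖x‖ := one_mul _

theorem IsUnitOp.inner_comm (hR : IsUnitOp R) (x y : H) : ⟪R x, y⟫_ℝ = ⟪x, R y⟫_ℝ := by
  exact rfcA_inner_comm hR x y

theorem rfc_congr (R : H →L[ℝ] H) (hfg : EqOn f g (Icc 0 1)) : rfc R f = rfc R g := by
  by_cases h : (∃ Θ : C(Set.Icc (0 : ℝ) 1, ℝ) →ₐ[ℝ] (H →L[ℝ] H), IsRfcHom R Θ) ∧
      ContinuousOn f (Set.Icc 0 1)
  · have hg : ContinuousOn g (Icc 0 1) := h.2.congr hfg.symm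
    rw [rfcB_eq h.1 h.2, rfcB_eq h.1 hg]
    congr 1
    ext l
    exact hfg l.2
  · have h' : ¬ ((∃ Θ : C(Set.Icc (0 : ℝ) 1, ℝ) →ₐ[ℝ] (H →L[ℝ] H), IsRfcHom R Θ) ∧
        ContinuousOn g (Set.Icc 0 1)) := fun h' => h ⟨h'.1, h'.2.congr hfg⟩
    rw [rfcB_junk h, rfcB_junk h']

theorem rfc_id (hR : IsUnitOp R) : rfc R (fun l => l) = R := by
  have hE := exists_rfcHom hR
  rw [rfcB_eq (f := fun l => l) hE continuousOn_id]
  exact hE.choose_spec.1

theorem rfc_const (hR : IsUnitOp R) (c : ℝ) : rfc R (fun _ => c) = c • (1 : H →L[ℝ] H) := by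
  have hE := exists_rfcHom hR
  rw [rfcB_eq hE continuousOn_const]
  have : rfcB_C (fun _ => c) continuousOn_const = algebraMap ℝ _ c := by
    ext l
    rfl
  rw [this, AlgHom.commutes, Algebra.algebraMap_eq_smul_one]

theorem rfc_one (hR : IsUnitOp R) : rfc R (fun _ => 1) = 1 := by
  rw [rfc_const hR, one_smul]

theorem rfc_zero (R : H →L[ℝ] H) : rfc R (fun _ => 0) = 0 := by
  by_cases h : (∃ Θ : C(Set.Icc (0 : ℝ) 1, ℝ) →ₐ[ℝ] (H →L[ℝ] H), IsRfcHom R Θ) ∧
      ContinuousOn (fun _ : ℝ => (0 : ℝ)) (Set.Icc 0 1)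
  · rw [rfcB_eq h.1 h.2]
    have : rfcB_C (fun _ => 0) h.2 = 0 := by
      ext l
      rfl
    rw [this, map_zero]
  · exact rfcB_junk h

theorem rfc_add (hR : IsUnitOp R) (hf : ContinuousOn f (Icc 0 1)) (hg : ContinuousOn g (Icc 0 1)) :
    rfc R (fun l => f l + g l) = rfc R f + rfc R g := by
  have hE := exists_rfcHom hR
  rw [rfcB_eq hE hf, rfcB_eq hE hg, rfcB_eq (f := fun l => f l + g l) hE (hf.add hg), ← map_add]
  rfl

theorem rfc_neg (R : H →L[ℝ] H) (f : ℝ → ℝ) : rfc R (fun l => - f l) = - rfc R f := by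
  by_cases h : (∃ Θ : C(Set.Icc (0 : ℝ) 1, ℝ) →ₐ[ℝ] (H →L[ℝ] H), IsRfcHom R Θ) ∧
      ContinuousOn f (Set.Icc 0 1)
  · rw [rfcB_eq h.1 h.2, rfcB_eq (f := fun l => - f l) h.1 h.2.neg, ← map_neg]
    rfl
  · have h' : ¬ ((∃ Θ : C(Set.Icc (0 : ℝ) 1, ℝ) →ₐ[ℝ] (H →L[ℝ] H), IsRfcHom R Θ) ∧
        ContinuousOn (fun l => - f l) (Set.Icc 0 1)) := fun h' => h ⟨h'.1, by
          have := h'.2.neg
          exact this.congr fun l _ => by simp⟩
    rw [rfcB_junk h, rfcB_junk h', neg_zero]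

theorem rfc_sub (hR : IsUnitOp R) (hf : ContinuousOn f (Icc 0 1)) (hg : ContinuousOn g (Icc 0 1)) :
    rfc R (fun l => f l - g l) = rfc R f - rfc R g := by
  have hE := exists_rfcHom hR
  rw [rfcB_eq hE hf, rfcB_eq hE hg, rfcB_eq (f := fun l => f l - g l) hE (hf.sub hg), ← map_sub]
  rfl

theorem rfc_const_mul (hR : IsUnitOp R) (c : ℝ) (hf : ContinuousOn f (Icc 0 1)) :
    rfc R (fun l => c * f l) = c • rfc R f := by
  have hE := exists_rfcHom hR
  rw [rfcB_eq hE hf, rfcB_eq (f := fun l => c * f l) hE (continuousOn_const.mul hf), ← map_smul]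
  rfl

theorem rfc_sum (hR : IsUnitOp R) {α : Type*} (s : Finset α) {F : α → ℝ → ℝ}
    (hF : ∀ a ∈ s, ContinuousOn (F a) (Icc 0 1)) :
    rfc R (fun l => ∑ a ∈ s, F a l) = ∑ a ∈ s, rfc R (F a) := by
  classical
  induction s using Finset.induction_on with
  | empty => simpa using rfc_zero R
  | insert a s ha ih =>
    simp only [Finset.sum_insert ha]
    rw [rfc_add hR (hF a (Finset.mem_insert_self a s))
      (continuousOn_finsetSum _ fun b hb => hF b (Finset.mem_insert_of_mem hb)),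
      ih fun b hb => hF b (Finset.mem_insert_of_mem hb)]

/-- multiplicativity (`*` on `H →L[ℝ] H` is composition). -/
theorem rfc_mul (hR : IsUnitOp R) (hf : ContinuousOn f (Icc 0 1)) (hg : ContinuousOn g (Icc 0 1)) :
    rfc R (fun l => f l * g l) = rfc R f * rfc R g := by
  have hE := exists_rfcHom hR
  rw [rfcB_eq hE hf, rfcB_eq hE hg, rfcB_eq (f := fun l => f l * g l) hE (hf.mul hg), ← map_mul]
  rfl

theorem rfc_pow (hR : IsUnitOp R) (hf : ContinuousOn f (Icc 0 1)) (k : ℕ) :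
    rfc R (fun l => f l ^ k) = rfc R f ^ k := by
  have hE := exists_rfcHom hR
  rw [rfcB_eq hE hf, rfcB_eq (f := fun l => f l ^ k) hE (hf.pow k), ← map_pow]
  rfl

theorem rfc_id_pow (hR : IsUnitOp R) (k : ℕ) : rfc R (fun l => l ^ k) = R ^ k := by
  rw [rfc_pow (f := fun l => l) hR continuousOn_id, rfc_id hR]

theorem rfc_commute (R : H →L[ℝ] H) (f g : ℝ → ℝ) : Commute (rfc R f) (rfc R g) := by
  by_cases h : (∃ Θ : C(Set.Icc (0 : ℝ) 1, ℝ) →ₐ[ℝ] (H →L[ℝ] H), IsRfcHom R Θ) ∧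
      ContinuousOn f (Set.Icc 0 1)
  · by_cases h' : ContinuousOn g (Set.Icc 0 1)
    · rw [rfcB_eq h.1 h.2, rfcB_eq h.1 h']
      exact (Commute.all _ _).map h.1.choose
    · rw [rfcB_junk (f := g) fun hh => h' hh.2]
      exact Commute.zero_right _
  · rw [rfcB_junk h]
    exact Commute.zero_left _

theorem rfc_commute_self (hR : IsUnitOp R) (f : ℝ → ℝ) : Commute (rfc R f) R := by
  have := rfc_commute R f (fun l => l)
  rwa [rfc_id hR] at this

/-- norm bound (no continuity needed: the junk value is `0`). -/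
theorem norm_rfc_le (R : H →L[ℝ] H) {C : ℝ} (hC : 0 ≤ C) (hf : ∀ l ∈ Icc (0 : ℝ) 1, |f l| ≤ C) :
    ‖rfc R f‖ ≤ C := by
  by_cases h : (∃ Θ : C(Set.Icc (0 : ℝ) 1, ℝ) →ₐ[ℝ] (H →L[ℝ] H), IsRfcHom R Θ) ∧
      ContinuousOn f (Set.Icc 0 1)
  · rw [rfcB_eq h.1 h.2]
    refine (h.1.choose_spec.2.1 _).trans ?_
    rw [ContinuousMap.norm_le _ hC]
    exact fun l => hf l l.2
  · rw [rfcB_junk h, norm_zero]
    exact hC

theorem norm_rfc_sub_le (hR : IsUnitOp R) (hf : ContinuousOn f (Icc 0 1))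
    (hg : ContinuousOn g (Icc 0 1)) {C : ℝ} (hC : 0 ≤ C)
    (hfg : ∀ l ∈ Icc (0 : ℝ) 1, |f l - g l| ≤ C) : ‖rfc R f - rfc R g‖ ≤ C := by
  rw [← rfc_sub hR hf hg]
  exact norm_rfc_le R hC hfg

theorem isSelfAdjoint_rfc (R : H →L[ℝ] H) (f : ℝ → ℝ) : IsSelfAdjoint (rfc R f) := by
  by_cases h : (∃ Θ : C(Set.Icc (0 : ℝ) 1, ℝ) →ₐ[ℝ] (H →L[ℝ] H), IsRfcHom R Θ) ∧
      ContinuousOn f (Set.Icc 0 1)
  · rw [rfcB_eq h.1 h.2]
    exact h.1.choose_spec.2.2 _
  · rw [rfcB_junk h]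
    exact IsSelfAdjoint.zero _

theorem inner_rfc_comm (R : H →L[ℝ] H) (f : ℝ → ℝ) (x y : H) :
    ⟪rfc R f x, y⟫_ℝ = ⟪x, rfc R f y⟫_ℝ := by
  have h := ContinuousLinearMap.adjoint_inner_left (rfc R f) y x
  rw [ContinuousLinearMap.isSelfAdjoint_iff'.1 (isSelfAdjoint_rfc R f)] at h
  exact h

/-- positivity: `f = (√f)²`. -/
theorem inner_rfc_nonneg (hR : IsUnitOp R) (hf : ∀ l ∈ Icc (0 : ℝ) 1, 0 ≤ f l) (x : H) :
    0 ≤ ⟪rfc R f x, x⟫_ℝ := by
  by_cases h : ContinuousOn f (Set.Icc 0 1)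
  · have hs : ContinuousOn (fun l => Real.sqrt (f l)) (Icc 0 1) := h.sqrt
    have e : rfc R f = rfc R (fun l => Real.sqrt (f l)) * rfc R (fun l => Real.sqrt (f l)) := by
      rw [← rfc_mul hR hs hs]
      exact rfc_congr R fun l hl => (Real.mul_self_sqrt (hf l hl)).symm
    rw [e, ContinuousLinearMap.mul_apply, inner_rfc_comm]
    exact real_inner_self_nonneg
  · rw [rfcB_junk (f := f) fun hh => h hh.2]
    simp

/-- norm differentiability of `t ↦ f_t(R)` from a uniform second order Taylor estimate. -/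
theorem hasDerivWithinAt_rfc (hR : IsUnitOp R) {F F' : ℝ → ℝ → ℝ} {I : Set ℝ} {t C : ℝ}
    (hF : ∀ s ∈ I, ContinuousOn (F s) (Icc 0 1)) (ht : t ∈ I) (hF' : ContinuousOn (F' t) (Icc 0 1))
    (hT : ∀ᶠ s in 𝓝[I] t, ∀ l ∈ Icc (0 : ℝ) 1, |F s l - F t l - (s - t) * F' t l| ≤ C * (s - t) ^ 2) :
    HasDerivWithinAt (fun s => rfc R (F s)) (rfc R (F' t)) I t := by
  rw [hasDerivWithinAt_iff_isLittleO]
  have h1 : (fun s => rfc R (F s) - rfc R (F t) - (s - t) • rfc R (F' t))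
      =O[𝓝[I] t] fun s => ‖s - t‖ ^ 2 := by
    refine Asymptotics.IsBigO.of_bound |C| ?_
    filter_upwards [hT, self_mem_nhdsWithin] with s hs hsI
    rw [← rfc_sub hR (hF s hsI) (hF t ht), ← rfc_const_mul hR _ hF',
      ← rfc_sub (f := fun l => F s l - F t l) (g := fun l => (s - t) * F' t l) hR
        ((hF s hsI).sub (hF t ht)) (continuousOn_const.mul hF')]
    refine norm_rfc_le R (by positivity) fun l hl => ?_
    refine (hs l hl).trans ?_
    rw [Real.norm_eq_abs, Real.norm_eq_abs, abs_pow, abs_abs, sq_abs]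
    exact mul_le_mul_of_nonneg_right (le_abs_self C) (sq_nonneg _)
  exact h1.trans_isLittleO
    ((Asymptotics.isLittleO_pow_sub_sub t (by norm_num : 1 < 2)).mono nhdsWithin_le_nhds)

end api

end Claimed.Agent.R316
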