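import Claimed.Agent.R316.Base.Heat.L2.Form
import Claimed.Agent.Lib.Sob.Api

/-!
# Row 316, BP-G8, file 5: interior regularity of the resolvent `R = (1 - Δ_g)⁻¹`

Statement file by helper55.  `R = heatR 𝓜 g`, `μ = hvol 𝓜 g`, `(Φ,U)` a holomorphic parametrisation, `H z = g Φ z`, `D z = det (H z)`.
All regularity comes from `Lib/Sob/Api.lean` (black box; namespace `Claimed.Agent.Lib.Sob`; measure `volume` on `CE ι`).

In the chart, `v = R f` solves `- div (A dv) = D (f - v)`, `A z = princ (H z)`, where `η (princ H ξ) = det H · ⟨η,ξ⟩_H` (dual metric on real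
covectors, `⟨dψ,dφ⟩_H = dualIP H (grad10 ψ) (grad10 φ)`).  No Kaehler condition is needed for this weak form (it is the form itself).

## Leaf G8-REG-A (section `princ`): linear algebra of `princ`, ~250 lines.
`η v = 2 Re ∑_k (cov10 η)_k v_k` for `v : CE ι` (expand `v = ∑ (Re v_k) e_k + (Im v_k) i e_k`).  Ellipticity on compact sets: `z ↦ princ (H z)` is
continuous, `ξ (princ (H z) ξ) > 0` on the compact set `K × unit sphere`.
## Leaf G8-REG-B (section `weak`): `exists_weakFDeriv_heatR`, ~400 lines.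
`(isHeatRes_heatR _).approx f` gives test functions `u n`.  `u n ∘ Φ → (R f) ∘ Φ` in `L²(K)` (`exists_setIntegral_comp_sq_le` applied to `toL2 (u n) - R f`),
`fderiv (u n ∘ Φ)` is Cauchy in `L²(K)`: `‖ξ‖² ≤ C_K ⟨ξ,ξ⟩_{H z}` on `K`, `gradSq` in the chart (`gradInner_eq`), `integral_hvol_image`.
`Lib.Sob.exists_hasWeakFDeriv_of_cauchy` gives `G`.  Weak equation: a `Lib.Sob.IsTest U φ` is transplanted to the manifold
(`CMfd.exists_smooth_of_chart` with `C = tsupport φ`), `integral_hvol_of_support_real`, `apply_princ`, pass to the limit on `tsupport φ`.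
## Leaf G8-REG-C (section `chain`): induction on `k` with shrinking radii, ~400 lines.
`k = 0`: `exists_setIntegral_comp_sq_le`.  `k → k+1`: `v = R^{k+1} w = R (R^k w)`; both `R^k w` and `R^k (R w) = v` are `H^{2k}` on the middle ball with bound
`C ‖w‖` (`‖R w‖ ≤ ‖w‖`); so `D (R^k w - v) ∈ H^{2k}` (`HkLe.smul_smooth`, `exists_ckLe_of_isCompact`); `interior_Hk_lower` with `b = c = d = 0`, `H = 0`
gives `v ∈ H^{2k+2}` on the small ball.  Then `embedding_ball` (`sobN (CE ι) = 2 card ι + 1`: `finrank_real_of_complex`, `finrank_euclideanSpace`).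
## Leaf G8-REG-D (section `rep`): the continuous representative, ~450 lines.
Patch the local representatives: `v x := v_{(𝓜.pΦ x)} (𝓜.co x)` on small balls; two continuous functions on an open subset of `CE ι` which agree a.e. agree
(`Lib.Sob.eqOn_of_ae_eq`); a.e. statements move between charts through `ae_hvol_iff`.  Bounds on a compact `K ⊆ U`: finite cover by balls.
## Leaf G8-REG-E: `crep_heatR_sub_lap` (Green II `integral_mul_lap_comm` + `eq_zero_of_forall_integral_mul_eq_zero`), ~100 lines.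
-/

set_option autoImplicit false
set_option maxSynthPendingDepth 6
set_option linter.unusedSectionVars false
set_option linter.deprecated false
open scoped ContDiff ComplexOrder Topology InnerProductSpace ComplexConjugate
open MeasureTheory Set Filter Metric
open Claimed.Agent.Lib.Sob (HasWeakFDeriv L2Loc IsWeakSol HkLe CkLe Elliptic)

namespace Claimed.Agent.R316

variable {ι : Type} [Fintype ι] [DecidableEq ι]

/-! ### the principal part -/

section princ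

/-- `(1,0)`-components of a real covector: `grad10 f z = cov10 (fderiv ℝ f z)`. -/
noncomputable def cov10 (ξ : CE ι →L[ℝ] ℝ) : ι → ℂ :=
  fun k => (1 / 2 : ℂ) * ((ξ (eb k) : ℂ) - Complex.I * (ξ (Complex.I • eb k) : ℂ))

/-- the principal part `ξ ↦ det H · (the vector dual to ξ for the dual metric of H)`. -/
noncomputable def princ (H : Matrix ι ι ℂ) : (CE ι →L[ℝ] ℝ) →L[ℝ] CE ι :=
  LinearMap.toContinuousLinearMap
    { toFun := fun ξ => (H.det.re / 2) •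
        (WithLp.toLp 2 (fun k => conj ((H⁻¹.transpose.mulVec (cov10 ξ)) k)) : CE ι)
      map_add' := by
        intro ξ η
        have h : cov10 (ξ + η) = cov10 ξ + cov10 η := by
          funext k; simp [cov10]; ring
        rw [h, Matrix.mulVec_add, ← smul_add]
        congr 1
        ext k
        simp
      map_smul' := by
        intro c ξ
        have h : cov10 (c • ξ) = (c : ℂ) • cov10 ξ := by
          funext k; simp [cov10]; ring
        rw [h, Matrix.mulVec_smul, smul_comm]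
        congr 1
        ext k
        simp }

theorem cov10_zero : cov10 (0 : CE ι →L[ℝ] ℝ) = 0 := by
  funext k; simp [cov10]

/-- valid for ARBITRARY `f` (both sides vanish if `f` is not differentiable at `z`). -/
theorem grad10_eq_cov10 (f : CE ι → ℝ) (z : CE ι) : grad10 f z = cov10 (fderiv ℝ f z) := by
  by_cases h : DifferentiableAt ℝ f z
  · funext k
    rw [grad10_apply, dz, cov10, fderiv_ofReal_apply h, fderiv_ofReal_apply h]
  · rw [grad10_of_not_differentiableAt h, fderiv_zero_of_not_differentiableAt h, cov10_zero]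

/-- a real covector in terms of its `(1,0)`-components. -/
theorem regA_apply_eq (η : CE ι →L[ℝ] ℝ) (v : CE ι) :
    η v = 2 * (∑ k, cov10 η k * v k).re := by
  conv_lhs => rw [CE_eq_sum v]
  rw [map_sum, Complex.re_sum, Finset.mul_sum]
  refine Finset.sum_congr rfl fun k _ => ?_
  rw [map_add, map_smul, map_smul, cov10]
  simp only [smul_eq_mul, Complex.mul_re, Complex.sub_re, Complex.sub_im, Complex.ofReal_re,
    Complex.ofReal_im, Complex.I_re, Complex.I_im, Complex.mul_im]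
  norm_num
  ring

theorem apply_princ (H : Matrix ι ι ℂ) (ξ η : CE ι →L[ℝ] ℝ) :
    η (princ H ξ) = H.det.re * dualIP H (cov10 η) (cov10 ξ) := by
  have e : princ H ξ = (H.det.re / 2) •
      (WithLp.toLp 2 (fun k => conj ((H⁻¹.transpose.mulVec (cov10 ξ)) k)) : CE ι) := rfl
  rw [e, map_smul, regA_apply_eq, dualIP, smul_eq_mul]
  have h1 : (∑ k, cov10 η k * (WithLp.toLp 2
      (fun k => conj ((H⁻¹.transpose.mulVec (cov10 ξ)) k)) : CE ι) k).re
      = (star (cov10 η) ⬝ᵥ (H⁻¹.transpose.mulVec (cov10 ξ))).re := by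
    rw [← Complex.conj_re, map_sum, dotProduct]
    congr 1
    refine Finset.sum_congr rfl fun k _ => ?_
    simp
  rw [h1]; ring

theorem fderiv_apply_princ (H : Matrix ι ι ℂ) (ψ φ : CE ι → ℝ) (z : CE ι) :
    fderiv ℝ ψ z (princ H (fderiv ℝ φ z)) = H.det.re * dualIP H (grad10 ψ z) (grad10 φ z) := by
  rw [apply_princ, grad10_eq_cov10, grad10_eq_cov10]

theorem regA_cov10_ne_zero {ξ : CE ι →L[ℝ] ℝ} (hξ : ξ ≠ 0) : cov10 ξ ≠ 0 := by
  intro h
  apply hξ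
  ext v
  rw [regA_apply_eq, h]
  simp

theorem regA_det_re_pos {H : Matrix ι ι ℂ} (hH : H.PosDef) : 0 < H.det.re := by
  have := hH.det_pos
  exact (Complex.lt_def.1 this).1

theorem princ_pos {H : Matrix ι ι ℂ} (hH : H.PosDef) {ξ : CE ι →L[ℝ] ℝ} (hξ : ξ ≠ 0) :
    0 < ξ (princ H ξ) := by
  rw [apply_princ]
  exact mul_pos (regA_det_re_pos hH) (dualIP_self_pos hH (regA_cov10_ne_zero hξ))

variable {V : Type} [NormedAddCommGroup V] [NormedSpace ℝ V]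
variable {𝓜 : CMfd V ι} {g : HFam V ι} {Φ : CE ι → V} {U K : Set (CE ι)}

theorem contDiffOn_princ (hg : IsMetric 𝓜 g) (hΦ : 𝓜.IsHol Φ U) :
    ContDiffOn ℝ ∞ (fun z => princ (g Φ z)) U := by
  rw [contDiffOn_clm_apply]
  intro ξ
  have e : (fun z => princ (g Φ z) ξ) = fun z => ((g Φ z).det.re / 2) •
      (WithLp.toLp 2 (fun k => conj (((g Φ z)⁻¹.transpose.mulVec (cov10 ξ)) k)) : CE ι) := rfl
  rw [e]
  refine ((contDiffOn_det_re (fun a b => hg.smooth hΦ a b)).div_const 2).smul ?_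
  refine (contDiffOn_piLp (𝕜 := ℝ) 2).2 fun k => ?_
  simp only [Matrix.mulVec, dotProduct, Matrix.transpose_apply]
  refine Complex.conjCLE.contDiff.comp_contDiffOn ?_
  refine ContDiffOn.sum fun j _ => ?_
  exact (contDiffOn_matInv_of_posDef (fun a b => hg.smooth hΦ a b)
    (fun w hw => hg.posDef hΦ w hw) j k).mul contDiffOn_const

theorem exists_elliptic_princ (hg : IsMetric 𝓜 g) (hΦ : 𝓜.IsHol Φ U) (hK : IsCompact K)
    (hKU : K ⊆ U) : ∃ lam : ℝ, 0 < lam ∧ Elliptic K (fun z => princ (g Φ z)) lam := by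
  have hc : ContinuousOn (fun p : CE ι × (CE ι →L[ℝ] ℝ) => p.2 (princ (g Φ p.1) p.2))
      (K ×ˢ sphere (0 : CE ι →L[ℝ] ℝ) 1) := by
    have h1 : ContinuousOn (fun p : CE ι × (CE ι →L[ℝ] ℝ) => princ (g Φ p.1))
        (K ×ˢ sphere (0 : CE ι →L[ℝ] ℝ) 1) :=
      ((contDiffOn_princ hg hΦ).continuousOn.mono hKU).comp continuousOn_fst fun p hp => hp.1
    exact continuousOn_snd.clm_apply (h1.clm_apply continuousOn_snd)
  have hcomp : IsCompact (K ×ˢ sphere (0 : CE ι →L[ℝ] ℝ) 1) := hK.prod (isCompact_sphere 0 1)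
  rcases (K ×ˢ sphere (0 : CE ι →L[ℝ] ℝ) 1).eq_empty_or_nonempty with he | hne
  · refine ⟨1, one_pos, fun z hz ξ => ?_⟩
    by_cases hξ : ξ = 0
    · subst hξ; simp
    · exfalso
      have : (z, ‖ξ‖⁻¹ • ξ) ∈ K ×ˢ sphere (0 : CE ι →L[ℝ] ℝ) 1 := by
        refine ⟨hz, ?_⟩
        rw [mem_sphere_zero_iff_norm, norm_smul, norm_inv, norm_norm,
          inv_mul_cancel₀ (norm_ne_zero_iff.2 hξ)]
      rw [he] at this
      exact this
  · obtain ⟨p, hp, hmin⟩ := hcomp.exists_isMinOn hne hc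
    have hp2 : p.2 ≠ 0 := by
      intro h0
      have := hp.2
      rw [mem_sphere_zero_iff_norm, h0, norm_zero] at this
      exact zero_ne_one this
    refine ⟨p.2 (princ (g Φ p.1) p.2), princ_pos (hg.posDef hΦ p.1 (hKU hp.1)) hp2,
      fun z hz ξ => ?_⟩
    by_cases hξ : ξ = 0
    · subst hξ; simp
    · have hn : ‖ξ‖ ≠ 0 := norm_ne_zero_iff.2 hξ
      have hmem : (z, ‖ξ‖⁻¹ • ξ) ∈ K ×ˢ sphere (0 : CE ι →L[ℝ] ℝ) 1 := by
        refine ⟨hz, ?_⟩
        rw [mem_sphere_zero_iff_norm, norm_smul, norm_inv, norm_norm, inv_mul_cancel₀ hn]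
      have h1 := isMinOn_iff.1 hmin _ hmem
      simp only [map_smul, ContinuousLinearMap.smul_apply, smul_eq_mul] at h1
      have h2 : ‖ξ‖⁻¹ * (‖ξ‖⁻¹ * ξ (princ (g Φ z) ξ)) * ‖ξ‖ ^ 2 = ξ (princ (g Φ z) ξ) := by
        field_simp
      rw [← h2]
      exact mul_le_mul_of_nonneg_right h1 (sq_nonneg _)

/-- the Euclidean norm of covectors is controlled by the dual metric on compact sets. -/
theorem exists_norm_sq_le_dualIP (hg : IsMetric 𝓜 g) (hΦ : 𝓜.IsHol Φ U) (hK : IsCompact K)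
    (hKU : K ⊆ U) : ∃ C : ℝ, 0 < C ∧ ∀ z ∈ K, ∀ ξ : CE ι →L[ℝ] ℝ,
      ‖ξ‖ ^ 2 ≤ C * dualIP (g Φ z) (cov10 ξ) (cov10 ξ) := by
  obtain ⟨lam, hlam, hell⟩ := exists_elliptic_princ hg hΦ hK hKU
  obtain ⟨D, hD⟩ := hK.exists_bound_of_continuousOn
    ((contDiffOn_det_re (N := ∞) (fun a b => hg.smooth hΦ a b)).continuousOn.mono hKU)
  refine ⟨(max D 1) / lam, by positivity, fun z hz ξ => ?_⟩
  have h1 := hell z hz ξ
  simp only [apply_princ] at h1
  have h2 : 0 ≤ dualIP (g Φ z) (cov10 ξ) (cov10 ξ) :=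
    dualIP_self_nonneg (hg.posDef hΦ z (hKU hz)) _
  have h3 : (g Φ z).det.re ≤ max D 1 :=
    ((le_abs_self _).trans (by rw [← Real.norm_eq_abs]; exact hD z hz)).trans (le_max_left _ _)
  rw [div_mul_eq_mul_div, le_div_iff₀ hlam]
  calc ‖ξ‖ ^ 2 * lam = lam * ‖ξ‖ ^ 2 := mul_comm _ _
    _ ≤ (g Φ z).det.re * dualIP (g Φ z) (cov10 ξ) (cov10 ξ) := h1
    _ ≤ max D 1 * dualIP (g Φ z) (cov10 ξ) (cov10 ξ) := mul_le_mul_of_nonneg_right h3 h2

end princ

variable {V : Type} [NormedAddCommGroup V] [NormedSpace ℝ V] [FiniteDimensional ℝ V]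
  [MeasurableSpace V] [BorelSpace V]
variable {𝓜 : CMfd V ι} {g : HFam V ι} {Φ : CE ι → V} {U K : Set (CE ι)}

/-! ### `R f` is locally `H¹` and a weak solution -/

section weak

/-- integrals of nonnegative functions over compact pieces of a chart. -/
theorem regB_comp (hg : IsMetric 𝓜 g) (hΦ : 𝓜.IsHol Φ U) (hK : IsCompact K) (hKU : K ⊆ U) :
    ∃ C : ℝ, 0 ≤ C ∧ ∀ h : V → ℝ, (∀ x ∈ 𝓜.carrier, 0 ≤ h x) → Integrable h (hvol 𝓜 g) →
      IntegrableOn (fun z => h (Φ z)) K ∧ ∫ z in K, h (Φ z) ≤ C * ∫ x, h x ∂(hvol 𝓜 g) := by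
  have hp := 𝓜.isParam hΦ
  have hdc : ContinuousOn (fun z => ((g Φ z).det.re)⁻¹) K :=
    ((hg.toIsHForm.continuousOn_det_re hΦ).mono hKU).inv₀ fun z hz =>
      (hg.det_re_pos hΦ (hKU hz)).ne'
  obtain ⟨C, hC⟩ := hK.exists_bound_of_continuousOn hdc
  refine ⟨max C 0, le_max_right _ _, fun h h0 hi => ?_⟩
  have hm : AEStronglyMeasurable (fun z => h (Φ z)) (volume.restrict K) :=
    (((aestronglyMeasurable_hvol_iff hg).1 hi.1) Φ U hΦ).mono_measure
      (Measure.restrict_mono hKU le_rfl)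
  have hi1 : IntegrableOn (fun z => (g Φ z).det.re • h (Φ z)) K :=
    (integrableOn_hvol_image_iff hg hΦ hKU hK.measurableSet h).1 hi.integrableOn
  have hle : ∀ z ∈ K, h (Φ z) ≤ max C 0 * ((g Φ z).det.re • h (Φ z)) := fun z hz => by
    have hd := hg.det_re_pos hΦ (hKU hz)
    have hh := h0 _ (hp.mem (hKU hz))
    have h1 : ((g Φ z).det.re)⁻¹ ≤ max C 0 :=
      ((le_abs_self _).trans (by rw [← Real.norm_eq_abs]; exact hC z hz)).trans (le_max_left _ _)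
    calc h (Φ z) = ((g Φ z).det.re)⁻¹ * ((g Φ z).det.re • h (Φ z)) := by
          rw [smul_eq_mul]; field_simp
      _ ≤ max C 0 * ((g Φ z).det.re • h (Φ z)) :=
          mul_le_mul_of_nonneg_right h1 (by rw [smul_eq_mul]; positivity)
  have hi2 : IntegrableOn (fun z => h (Φ z)) K := by
    refine (hi1.const_mul (max C 0)).mono' hm ?_
    refine (ae_restrict_iff' hK.measurableSet).2 (Eventually.of_forall fun z hz => ?_)
    rw [Real.norm_eq_abs, abs_of_nonneg (h0 _ (hp.mem (hKU hz)))]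
    exact hle z hz
  refine ⟨hi2, ?_⟩
  calc ∫ z in K, h (Φ z) ≤ ∫ z in K, max C 0 * ((g Φ z).det.re • h (Φ z)) :=
        setIntegral_mono_on hi2 (hi1.const_mul _) hK.measurableSet hle
    _ = max C 0 * ∫ x in Φ '' K, h x ∂(hvol 𝓜 g) := by
        rw [integral_const_mul, integral_hvol_image hg hΦ hKU hK.measurableSet]
    _ ≤ max C 0 * ∫ x, h x ∂(hvol 𝓜 g) := by
        refine mul_le_mul_of_nonneg_left ?_ (le_max_right _ _)
        exact setIntegral_le_integral hi (ae_hvol_of_forall_mem h0)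

/-- a.e. statements in a chart. -/
theorem regB_ae (hg : IsMetric 𝓜 g) (hΦ : 𝓜.IsHol Φ U) (hKU : K ⊆ U) {P : V → Prop}
    (h : ∀ᵐ x ∂(hvol 𝓜 g), P x) : ∀ᵐ z ∂(volume.restrict K), P (Φ z) :=
  ae_restrict_of_ae_restrict_of_subset hKU ((ae_hvol_iff hg).1 h Φ U hΦ)

/-- `L²` convergence on the manifold gives `L²` convergence on compact pieces of a chart. -/
theorem regB_tendsto (hg : IsMetric 𝓜 g) (hΦ : 𝓜.IsHol Φ U) (hK : IsCompact K) (hKU : K ⊆ U)
    {Fs : ℕ → L2M 𝓜 g} {F : L2M 𝓜 g} (h : Tendsto Fs atTop (𝓝 F)) :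
    Tendsto (fun n => eLpNorm (fun z => Fs n (Φ z) - F (Φ z)) 2 (volume.restrict K)) atTop
      (𝓝 0) := by
  obtain ⟨C, hC0, hC⟩ := exists_setIntegral_comp_sq_le hg hΦ hK hKU
  have hb : ∀ n, eLpNorm (fun z => Fs n (Φ z) - F (Φ z)) 2 (volume.restrict K)
      ≤ ENNReal.ofReal (Real.sqrt C * ‖Fs n - F‖) := fun n => by
    obtain ⟨h1, h2⟩ := hC (Fs n - F)
    have h3 : Claimed.Agent.Lib.Sob.L2Le volume K (fun z => (Fs n - F : L2M 𝓜 g) (Φ z))
        (Real.sqrt C * ‖Fs n - F‖) := by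
      rw [Claimed.Agent.Lib.Sob.l2Le_iff_integral (by positivity)]
      refine ⟨h1, ?_⟩
      rw [mul_pow, Real.sq_sqrt hC0]
      simpa only [Real.norm_eq_abs, sq_abs] using h2
    refine le_trans (le_of_eq ?_) h3.2
    refine eLpNorm_congr_ae ?_
    filter_upwards [regB_ae hg hΦ hKU (Lp.coeFn_sub (Fs n) F)] with z hz
    rw [hz]; rfl
  have h0 : Tendsto (fun n => ENNReal.ofReal (Real.sqrt C * ‖Fs n - F‖)) atTop (𝓝 0) := by
    have h1 : Tendsto (fun n => Real.sqrt C * ‖Fs n - F‖) atTop (𝓝 (Real.sqrt C * 0)) :=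
      (tendsto_iff_norm_sub_tendsto_zero.1 h).const_mul _
    rw [mul_zero] at h1
    simpa using ENNReal.tendsto_ofReal h1
  exact tendsto_of_tendsto_of_tendsto_of_le_of_le tendsto_const_nhds h0 (fun _ => zero_le) hb

/-- transplantation of a chart test function. -/
theorem regB_transplant (hΦ : 𝓜.IsHol Φ U) {φ : CE ι → ℝ}
    (hφ : Claimed.Agent.Lib.Sob.IsTest U φ) :
    ∃ φ' : V → ℝ, 𝓜.IsTest φ' ∧ (∀ z ∈ U, φ' (Φ z) = φ z) ∧
      ∀ y, y ∉ Φ '' tsupport φ → φ' y = 0 := by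
  have hp := 𝓜.isParam hΦ
  obtain ⟨u, hu, huΦ, hu0⟩ := CMfd.exists_smooth_of_chart hΦ hφ.compact hφ.supp
    hφ.smooth.contDiffOn (fun z _ hz => image_eq_zero_of_notMem_tsupport hz)
  exact ⟨u, ⟨hu, Φ '' tsupport φ,
    IsCompact.image_of_continuousOn hφ.compact (hp.continuousOn.mono hφ.supp),
    (image_mono hφ.supp).trans hp.image_subset, fun x _ hx => hu0 x hx⟩, huΦ, hu0⟩

/-- chart formula for `∫ F φ'`. -/
theorem regB_integral_mul (hg : IsMetric 𝓜 g) (hΦ : 𝓜.IsHol Φ U) {φ : CE ι → ℝ}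
    (hφ : Claimed.Agent.Lib.Sob.IsTest U φ) {φ' : V → ℝ} (h1 : ∀ z ∈ U, φ' (Φ z) = φ z)
    (h0 : ∀ y, y ∉ Φ '' tsupport φ → φ' y = 0) (F : V → ℝ) :
    ∫ x, F x * φ' x ∂(hvol 𝓜 g)
      = ∫ z in tsupport φ, F (Φ z) • (φ z * (g Φ z).det.re) := by
  have hp := 𝓜.isParam hΦ
  rw [integral_hvol_of_support_real hg hΦ (fun x => F x * φ' x) (fun x _ hx => by
    rw [h0 x (fun hx' => hx (image_mono hφ.supp hx')), mul_zero]),
    setIntegral_eq_of_subset_of_forall_sdiff_eq_zero hp.isOpen.measurableSet hφ.supp]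
  · refine setIntegral_congr_fun (isClosed_tsupport φ).measurableSet fun z hz => ?_
    simp only [smul_eq_mul]
    rw [h1 z (hφ.supp hz)]; ring
  · intro z hz
    rw [h1 z hz.1, image_eq_zero_of_notMem_tsupport hz.2]; ring

/-- chart formula for `∫ ⟨∂w,∂φ'⟩`. -/
theorem regB_integral_gradInner (hg : IsMetric 𝓜 g) (hΦ : 𝓜.IsHol Φ U) {φ : CE ι → ℝ}
    (hφ : Claimed.Agent.Lib.Sob.IsTest U φ) {φ' : V → ℝ} (h1 : ∀ z ∈ U, φ' (Φ z) = φ z)
    (h0 : ∀ y, y ∉ Φ '' tsupport φ → φ' y = 0) (w : V → ℝ) :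
    ∫ x, gradInner 𝓜 g w φ' x ∂(hvol 𝓜 g)
      = ∫ z in tsupport φ, fderiv ℝ (fun z => w (Φ z)) z (princ (g Φ z) (fderiv ℝ φ z)) := by
  have hp := 𝓜.isParam hΦ
  have hcl : IsClosed (Φ '' tsupport φ) :=
    (IsCompact.image_of_continuousOn hφ.compact (hp.continuousOn.mono hφ.supp)).isClosed
  have hpt : ∀ z ∈ U, gradInner 𝓜 g w φ' (Φ z) * (g Φ z).det.re
      = fderiv ℝ (fun z => w (Φ z)) z (princ (g Φ z) (fderiv ℝ φ z)) := fun z hz => by
    have e : grad10 (φ' ∘ Φ) z = grad10 φ z := by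
      refine grad10_congr ?_
      filter_upwards [hp.isOpen.mem_nhds hz] with y hy using h1 y hy
    rw [gradInner_eq hg w φ' hΦ hz, e, fderiv_apply_princ]
    exact mul_comm _ _
  rw [integral_hvol_of_support_real hg hΦ (gradInner 𝓜 g w φ') (fun x hx hxU =>
    gradInner_eq_zero_of_notMem_right hcl (fun y _ hy => h0 y hy) g w hx
      (fun hx' => hxU (image_mono hφ.supp hx'))),
    setIntegral_eq_of_subset_of_forall_sdiff_eq_zero hp.isOpen.measurableSet hφ.supp]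
  · exact setIntegral_congr_fun (isClosed_tsupport φ).measurableSet fun z hz =>
      hpt z (hφ.supp hz)
  · intro z hz
    rw [hpt z hz.1, fderiv_of_notMem_tsupport ℝ hz.2, map_zero, map_zero]

theorem exists_weakFDeriv_heatR (hg : IsMetric 𝓜 g) (hΦ : 𝓜.IsHol Φ U) (f : L2M 𝓜 g) :
    ∃ G : CE ι → CE ι →L[ℝ] ℝ,
      HasWeakFDeriv volume U (fun z => heatR 𝓜 g f (Φ z)) G ∧ L2Loc volume U G ∧
      IsWeakSol volume U (fun z => princ (g Φ z)) G
        (fun z => (g Φ z).det.re * (f (Φ z) - heatR 𝓜 g f (Φ z))) 0 := by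
  have hp := 𝓜.isParam hΦ
  have hU := hp.isOpen
  obtain ⟨u, ⟨hut, hcau, hlim, hweak⟩, -⟩ := (isHeatRes_heatR hg).approx f
  have hsm : ∀ n, ContDiffOn ℝ ∞ (fun z => u n (Φ z)) U := fun n => (hut n).1 Φ U hΦ
  have hun : ∀ n, ContDiffOn ℝ 1 (fun z => u n (Φ z)) U := fun n =>
    (hsm n).of_le (by exact_mod_cast le_top)
  have hL2 : ∀ F : L2M 𝓜 g, L2Loc volume U (fun z => F (Φ z)) := fun F K hK hKU =>
    ((exists_setIntegral_comp_sq_le hg hΦ hK hKU).choose_spec.2 F).1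
  have hdc : ∀ n, ContinuousOn (fderiv ℝ (fun z => u n (Φ z))) U := fun n =>
    (hun n).continuousOn_fderiv_of_isOpen hU le_rfl
  have h1 : ∀ K : Set (CE ι), IsCompact K → K ⊆ U →
      Tendsto (fun n => eLpNorm (fun z => u n (Φ z) - heatR 𝓜 g f (Φ z)) 2 (volume.restrict K))
        atTop (𝓝 0) := by
    intro K hK hKU
    refine (regB_tendsto hg hΦ hK hKU hlim).congr fun n => ?_
    refine eLpNorm_congr_ae ?_
    filter_upwards [regB_ae hg hΦ hKU (toL2_ae_eq ((hut n).memLp hg 2))] with z hz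
    rw [hz]
  have h2 : ∀ K : Set (CE ι), IsCompact K → K ⊆ U → ∀ ε : ENNReal, 0 < ε → ∃ N : ℕ,
      ∀ n m : ℕ, N ≤ n → N ≤ m →
      eLpNorm (fun z => fderiv ℝ (fun z => u n (Φ z)) z - fderiv ℝ (fun z => u m (Φ z)) z) 2
        (volume.restrict K) ≤ ε := by
    intro K hK hKU ε hε
    obtain ⟨C₁, hC₁, hn⟩ := exists_norm_sq_le_dualIP hg hΦ hK hKU
    obtain ⟨C₂, hC₂, hc⟩ := regB_comp hg hΦ hK hKU
    have hmin : min ε 1 ≠ ⊤ := ne_top_of_le_ne_top ENNReal.one_ne_top (min_le_right _ _)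
    have hδ : 0 < (min ε 1).toReal :=
      ENNReal.toReal_pos (ne_of_gt (lt_min hε one_pos)) hmin
    set δ := (min ε 1).toReal with hδd
    obtain ⟨N, hN⟩ := hcau (δ ^ 2 / (C₁ * C₂ + 1)) (by positivity)
    refine ⟨N, fun n m hn' hm' => ?_⟩
    have hw : 𝓜.IsTest (fun y => u n y - u m y) := (hut n).sub (hut m)
    have hgi : Integrable (gradSq 𝓜 g (fun y => u n y - u m y)) (hvol 𝓜 g) := by
      rw [gradSq_eq_gradInner]; exact resA_integrable hg hw hw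
    obtain ⟨hi, hle⟩ := hc _ (fun x hx => gradSq_nonneg hg _ hx) hgi
    have hpt : ∀ z ∈ K,
        ‖fderiv ℝ (fun z => u n (Φ z)) z - fderiv ℝ (fun z => u m (Φ z)) z‖ ^ 2
          ≤ C₁ * gradSq 𝓜 g (fun y => u n y - u m y) (Φ z) := by
      intro z hz
      have hzU := hKU hz
      have e : fderiv ℝ (fun z => u n (Φ z)) z - fderiv ℝ (fun z => u m (Φ z)) z
          = fderiv ℝ ((fun y => u n y - u m y) ∘ Φ) z :=
        (fderiv_fun_sub (((hun n).contDiffAt (hU.mem_nhds hzU)).differentiableAt one_ne_zero)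
          (((hun m).contDiffAt (hU.mem_nhds hzU)).differentiableAt one_ne_zero)).symm
      rw [e, ← gradInner_self, gradInner_eq hg _ _ hΦ hzU, grad10_eq_cov10]
      exact hn z hz _
    have hmem : MemLp
        (fun z => fderiv ℝ (fun z => u n (Φ z)) z - fderiv ℝ (fun z => u m (Φ z)) z) 2
        (volume.restrict K) :=
      Claimed.Agent.Lib.Sob.l2Loc_of_continuousOn ((hdc n).sub (hdc m)) K hK hKU
    have hen : ∫ x, gradSq 𝓜 g (fun y => u n y - u m y) x ∂(hvol 𝓜 g)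
        ≤ δ ^ 2 / (C₁ * C₂ + 1) := by
      have h3 := hN n m hn' hm'
      have h4 : 0 ≤ ∫ x, (u n x - u m x) ^ 2 ∂(hvol 𝓜 g) :=
        integral_nonneg fun x => sq_nonneg _
      linarith
    have hL : Claimed.Agent.Lib.Sob.L2Le volume K
        (fun z => fderiv ℝ (fun z => u n (Φ z)) z - fderiv ℝ (fun z => u m (Φ z)) z) δ := by
      rw [Claimed.Agent.Lib.Sob.l2Le_iff_integral hδ.le]
      refine ⟨hmem, ?_⟩
      calc ∫ z in K,
            ‖fderiv ℝ (fun z => u n (Φ z)) z - fderiv ℝ (fun z => u m (Φ z)) z‖ ^ 2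
          ≤ ∫ z in K, C₁ * gradSq 𝓜 g (fun y => u n y - u m y) (Φ z) :=
            setIntegral_mono_on (Claimed.Agent.Lib.Sob.MemLp_two_integrable_sq hmem)
              (hi.const_mul _) hK.measurableSet hpt
        _ = C₁ * ∫ z in K, gradSq 𝓜 g (fun y => u n y - u m y) (Φ z) := integral_const_mul _ _
        _ ≤ C₁ * (C₂ * (δ ^ 2 / (C₁ * C₂ + 1))) :=
            mul_le_mul_of_nonneg_left (hle.trans (mul_le_mul_of_nonneg_left hen hC₂)) hC₁.le
        _ = δ ^ 2 * ((C₁ * C₂) / (C₁ * C₂ + 1)) := by ring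
        _ ≤ δ ^ 2 * 1 := by
            refine mul_le_mul_of_nonneg_left ?_ (sq_nonneg _)
            rw [div_le_one (by positivity)]; linarith
        _ = δ ^ 2 := mul_one _
    refine hL.2.trans ?_
    rw [hδd, ENNReal.ofReal_toReal hmin]
    exact min_le_left _ _
  obtain ⟨G, hG1, hG2, hG3⟩ := Claimed.Agent.Lib.Sob.exists_hasWeakFDeriv_of_cauchy volume hU hun
    (hL2 (heatR 𝓜 g f)) h1 h2
  refine ⟨G, hG1, hG2, fun φ hφ => ?_⟩
  obtain ⟨φ', hφt, hφ1, hφ0⟩ := regB_transplant hΦ hφ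
  have hC : IsCompact (tsupport φ) := hφ.compact
  have hCU : tsupport φ ⊆ U := hφ.supp
  have hw := hweak φ' hφt
  simp only [regB_integral_mul hg hΦ hφ hφ1 hφ0, regB_integral_gradInner hg hΦ hφ hφ1 hφ0] at hw
  -- the fixed `L²` functions
  have hm1 : MemLp (fun z => φ z * (g Φ z).det.re) 2 (volume.restrict (tsupport φ)) :=
    Claimed.Agent.Lib.Sob.l2Loc_of_continuousOn
      (hφ.smooth.continuous.continuousOn.mul (hg.toIsHForm.continuousOn_det_re hΦ)) _ hC hCU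
  have hm2 : MemLp (fun z => princ (g Φ z) (fderiv ℝ φ z)) 2 (volume.restrict (tsupport φ)) :=
    Claimed.Agent.Lib.Sob.l2Loc_of_continuousOn
      ((contDiffOn_princ hg hΦ).continuousOn.clm_apply
        (hφ.smooth.continuous_fderiv (by simp)).continuousOn) _ hC hCU
  have l1 := Claimed.Agent.Lib.Sob.tendsto_setIntegral_smul hm1
    (fun n => Claimed.Agent.Lib.Sob.l2Loc_of_continuousOn (hun n).continuousOn _ hC hCU)
    (hL2 (heatR 𝓜 g f) _ hC hCU) (h1 _ hC hCU)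
  have l2 := Claimed.Agent.Lib.Sob.tendsto_setIntegral_apply_clm hm2
    (fun n => Claimed.Agent.Lib.Sob.l2Loc_of_continuousOn (hdc n) _ hC hCU)
    (hG2 _ hC hCU) (hG3 _ hC hCU)
  have key := tendsto_nhds_unique hw (l1.add l2)
  -- rewrite the three integrals of the statement
  have e1 : ∫ z, G z (princ (g Φ z) (fderiv ℝ φ z))
      = ∫ z in tsupport φ, G z (princ (g Φ z) (fderiv ℝ φ z)) :=
    (setIntegral_eq_integral_of_forall_compl_eq_zero fun z hz => by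
      rw [fderiv_of_notMem_tsupport ℝ hz, map_zero, map_zero]).symm
  have i1 : ∀ F : L2M 𝓜 g,
      IntegrableOn (fun z => F (Φ z) • (φ z * (g Φ z).det.re)) (tsupport φ) := fun F =>
    (hL2 F _ hC hCU).integrable_mul hm1
  have e2 : ∫ z, φ z • ((g Φ z).det.re * (f (Φ z) - heatR 𝓜 g f (Φ z)))
      = (∫ z in tsupport φ, f (Φ z) • (φ z * (g Φ z).det.re))
        - ∫ z in tsupport φ, heatR 𝓜 g f (Φ z) • (φ z * (g Φ z).det.re) := by
    rw [← integral_sub (i1 f) (i1 _),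
      ← setIntegral_eq_integral_of_forall_compl_eq_zero (s := tsupport φ) fun z hz => by
        rw [image_eq_zero_of_notMem_tsupport hz, zero_smul]]
    refine setIntegral_congr_fun (isClosed_tsupport φ).measurableSet fun z _ => ?_
    simp only [smul_eq_mul]; ring
  rw [e1, e2, key]
  simp

end weak

/-! ### the chain `R^k w ∈ H^{2k}_loc` -/

section chain

theorem exists_hkLe_heatR_pow (hg : IsMetric 𝓜 g) (hΦ : 𝓜.IsHol Φ U) {z₀ : CE ι} {r ρ : ℝ}
    (hr : 0 < r) (hrρ : r < ρ) (hρ : closedBall z₀ ρ ⊆ U) (k : ℕ) :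
    ∃ C : ℝ, 0 ≤ C ∧ ∀ w : L2M 𝓜 g,
      HkLe volume (ball z₀ r) (2 * k) (fun z => (heatR 𝓜 g ^ k) w (Φ z)) (C * ‖w‖) := by
  have hp := 𝓜.isParam hΦ
  have hU := hp.isOpen
  induction k generalizing r with
  | zero =>
    obtain ⟨C, hC0, hC⟩ := exists_setIntegral_comp_sq_le hg hΦ (isCompact_closedBall z₀ ρ) hρ
    refine ⟨Real.sqrt C, Real.sqrt_nonneg _, fun w => ?_⟩
    obtain ⟨h1, h2⟩ := hC w
    have h3 : Claimed.Agent.Lib.Sob.L2Le volume (closedBall z₀ ρ) (fun z => w (Φ z))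
        (Real.sqrt C * ‖w‖) := by
      rw [Claimed.Agent.Lib.Sob.l2Le_iff_integral (by positivity)]
      refine ⟨h1, ?_⟩
      rw [mul_pow, Real.sq_sqrt hC0]
      simpa only [Real.norm_eq_abs, sq_abs] using h2
    exact h3.mono_set ((ball_subset_ball hrρ.le).trans ball_subset_closedBall)
  | succ k ih =>
    have hr1 : r < (r + ρ) / 2 := by linarith
    have hr2 : (r + ρ) / 2 < ρ := by linarith
    set r' := (r + ρ) / 2 with hr'
    have hB : ball z₀ r' ⊆ closedBall z₀ ρ := (ball_subset_ball hr2.le).trans ball_subset_closedBall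
    have hBU : ball z₀ r' ⊆ U := hB.trans hρ
    obtain ⟨Ck, hCk0, hCk⟩ := ih (hr.trans hr1) hr2
    obtain ⟨lam, hlam, hell⟩ := exists_elliptic_princ hg hΦ (isCompact_closedBall z₀ ρ) hρ
    obtain ⟨Lam, hLam0, hLam⟩ := Claimed.Agent.Lib.Sob.exists_ckLe_of_isCompact hU
      (contDiffOn_princ hg hΦ) (isCompact_closedBall z₀ ρ) hρ hB (2 * k + 1)
    obtain ⟨LD, hLD0, hLD⟩ := Claimed.Agent.Lib.Sob.exists_ckLe_of_isCompact hU
      (hg.toIsHForm.contDiffOn_det_re hΦ) (isCompact_closedBall z₀ ρ) hρ hB (2 * k)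
    obtain ⟨C, hC0, hC⟩ := Claimed.Agent.Lib.Sob.interior_Hk_lower volume ℝ (2 * k) z₀
      (r := r) (R := r') (lam := lam) (Lam := Lam) hr hr1 hlam
    refine ⟨C * (Ck + 2 ^ (2 * k) * LD * (Ck + Ck)), by positivity, fun w => ?_⟩
    obtain ⟨G, hG1, hG2, hG3⟩ := exists_weakFDeriv_heatR hg hΦ ((heatR 𝓜 g ^ k) w)
    have e1 : ∀ z, heatR 𝓜 g ((heatR 𝓜 g ^ k) w) (Φ z) = (heatR 𝓜 g ^ (k + 1)) w (Φ z) :=
      fun z => by rw [pow_succ']; rfl
    have e2 : (heatR 𝓜 g ^ (k + 1)) w = (heatR 𝓜 g ^ k) (heatR 𝓜 g w) := by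
      rw [pow_succ]; rfl
    simp only [e1] at hG1 hG3
    have hw0 : 0 ≤ ‖w‖ := norm_nonneg w
    have hu : HkLe volume (ball z₀ r') (2 * k) (fun z => (heatR 𝓜 g ^ (k + 1)) w (Φ z))
        (Ck * ‖w‖) := by
      rw [e2]
      exact (hCk (heatR 𝓜 g w)).mono
        (mul_le_mul_of_nonneg_left ((isUnitOp_heatR hg).norm_apply_le w) hCk0)
    have hf : HkLe volume (ball z₀ r') (2 * k)
        (fun z => (g Φ z).det.re * ((heatR 𝓜 g ^ k) w (Φ z) - (heatR 𝓜 g ^ (k + 1)) w (Φ z)))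
        (2 ^ (2 * k) * LD * (Ck * ‖w‖ + Ck * ‖w‖)) :=
      ((hCk w).sub isOpen_ball hu (by positivity) (by positivity)).smul_smooth isOpen_ball
        ((hg.toIsHForm.contDiffOn_det_re hΦ).mono hBU) hLD hLD0 (by positivity)
    have hM1 : Ck * ‖w‖ ≤ (Ck + 2 ^ (2 * k) * LD * (Ck + Ck)) * ‖w‖ := by
      refine mul_le_mul_of_nonneg_right ?_ hw0
      have : 0 ≤ 2 ^ (2 * k) * LD * (Ck + Ck) := by positivity
      linarith
    have hM2 : 2 ^ (2 * k) * LD * (Ck * ‖w‖ + Ck * ‖w‖)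
        ≤ (Ck + 2 ^ (2 * k) * LD * (Ck + Ck)) * ‖w‖ := by
      have : 0 ≤ Ck * ‖w‖ := by positivity
      nlinarith
    have hz : ∀ (F' : Type) [NormedAddCommGroup F'] [NormedSpace ℝ F'] (j : ℕ),
        CkLe (ball z₀ r') j (fun _ : CE ι => (0 : F')) Lam := fun F' _ _ j =>
      (Claimed.Agent.Lib.Sob.ckLe_const (0 : F') j).mono (by rw [norm_zero]; exact hLam0)
    have hres := hC (fun z => princ (g Φ z)) (fun _ => 0) (fun _ => 0) (fun _ => 0)
      (fun z => (heatR 𝓜 g ^ (k + 1)) w (Φ z)) G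
      (fun z => (g Φ z).det.re * ((heatR 𝓜 g ^ k) w (Φ z) - (heatR 𝓜 g ^ (k + 1)) w (Φ z)))
      (fun _ => 0) ((Ck + 2 ^ (2 * k) * LD * (Ck + Ck)) * ‖w‖) (by positivity)
      ((contDiffOn_princ hg hΦ).mono hBU) contDiffOn_const contDiffOn_const contDiffOn_const
      hLam (hz _ _) (hz _ _) (hz _ _) (fun z hz ξ => hell z (hB hz) ξ)
      (hG1.mono hBU) (hG2.mono_set hBU) (hu.l2Le.mono hM1) (hf.mono hM2)
      (Claimed.Agent.Lib.Sob.hkLe_zero_fun (by positivity))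
      (by
        convert hG3.mono hBU using 1
        · funext x; simp
        · funext x; simp)
    rw [show 2 * (k + 1) = 2 * k + 2 by ring, mul_assoc]
    exact hres

theorem regC_sobN : Claimed.Agent.Lib.Sob.sobN (CE ι) = 2 * Fintype.card ι + 1 := by
  rw [Claimed.Agent.Lib.Sob.sobN, finrank_real_of_complex, finrank_euclideanSpace]

theorem exists_ckLe_heatR_pow (hg : IsMetric 𝓜 g) (hΦ : 𝓜.IsHol Φ U) {z₀ : CE ι} {r ρ : ℝ}
    (hr : 0 < r) (hrρ : r < ρ) (hρ : closedBall z₀ ρ ⊆ U) {m k : ℕ}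
    (hk : m + 2 * Fintype.card ι + 1 ≤ 2 * k) :
    ∃ C : ℝ, 0 ≤ C ∧ ∀ w : L2M 𝓜 g, ∃ v : CE ι → ℝ,
      (∀ᵐ z ∂(volume.restrict (ball z₀ r)), (heatR 𝓜 g ^ k) w (Φ z) = v z) ∧
      CkLe (ball z₀ r) m v (C * ‖w‖) := by
  have hr1 : r < (r + ρ) / 2 := by linarith
  have hr2 : (r + ρ) / 2 < ρ := by linarith
  obtain ⟨C₁, hC₁, h1⟩ := exists_hkLe_heatR_pow hg hΦ (hr.trans hr1) hr2 hρ k
  obtain ⟨C₂, hC₂, h2⟩ := Claimed.Agent.Lib.Sob.embedding_ball volume ℝ m z₀ hr hr1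
  refine ⟨C₂ * C₁, by positivity, fun w => ?_⟩
  obtain ⟨v, hv1, hv2⟩ := h2 _ (C₁ * ‖w‖) (by positivity)
    ((h1 w).mono_order (by rw [regC_sobN]; omega))
  exact ⟨v, hv1, by rw [mul_assoc]; exact hv2⟩

end chain

/-! ### the continuous representative -/

section rep

/-- the class `F` has a representative which is continuous on the carrier. -/
def HasRep (𝓜 : CMfd V ι) (g : HFam V ι) (F : L2M 𝓜 g) : Prop :=
  ∃ v : V → ℝ, ContinuousOn v 𝓜.carrier ∧ (F : V → ℝ) =ᵐ[hvol 𝓜 g] v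

open Classical in
/-- the continuous representative (unique on the carrier; junk `0` if there is none). -/
noncomputable def crep (𝓜 : CMfd V ι) (g : HFam V ι) (F : L2M 𝓜 g) : V → ℝ :=
  if h : HasRep 𝓜 g F then h.choose else 0

variable {F F' : L2M 𝓜 g} {v : V → ℝ}

theorem HasRep.continuousOn_crep (h : HasRep 𝓜 g F) : ContinuousOn (crep 𝓜 g F) 𝓜.carrier := by
  rw [crep, dif_pos h]; exact h.choose_spec.1

theorem HasRep.ae_eq_crep (h : HasRep 𝓜 g F) : (F : V → ℝ) =ᵐ[hvol 𝓜 g] crep 𝓜 g F := by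
  rw [crep, dif_pos h]; exact h.choose_spec.2

theorem crep_eqOn (hg : IsMetric 𝓜 g) (hv : ContinuousOn v 𝓜.carrier)
    (h : (F : V → ℝ) =ᵐ[hvol 𝓜 g] v) : EqOn (crep 𝓜 g F) v 𝓜.carrier := by
  have hr : HasRep 𝓜 g F := ⟨v, hv, h⟩
  exact eqOn_of_ae_eq_hvol hg hr.continuousOn_crep hv (hr.ae_eq_crep.symm.trans h)

/-- continuous `L²` functions. -/
theorem crep_toL2 (hg : IsMetric 𝓜 g) (hv : ContinuousOn v 𝓜.carrier) (h2 : MemLp v 2 (hvol 𝓜 g)) :
    HasRep 𝓜 g (toL2 𝓜 g v) ∧ EqOn (crep 𝓜 g (toL2 𝓜 g v)) v 𝓜.carrier := by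
  exact ⟨⟨v, hv, toL2_ae_eq h2⟩, crep_eqOn hg hv (toL2_ae_eq h2)⟩

theorem regD_ae_add (h : HasRep 𝓜 g F) (h' : HasRep 𝓜 g F') :
    ((F + F' : L2M 𝓜 g) : V → ℝ) =ᵐ[hvol 𝓜 g] fun x => crep 𝓜 g F x + crep 𝓜 g F' x := by
  filter_upwards [Lp.coeFn_add F F', h.ae_eq_crep, h'.ae_eq_crep] with x h1 h2 h3
  rw [h1, Pi.add_apply, h2, h3]

theorem regD_ae_sub (h : HasRep 𝓜 g F) (h' : HasRep 𝓜 g F') :
    ((F - F' : L2M 𝓜 g) : V → ℝ) =ᵐ[hvol 𝓜 g] fun x => crep 𝓜 g F x - crep 𝓜 g F' x := by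
  filter_upwards [Lp.coeFn_sub F F', h.ae_eq_crep, h'.ae_eq_crep] with x h1 h2 h3
  rw [h1, Pi.sub_apply, h2, h3]

theorem regD_ae_smul (c : ℝ) (h : HasRep 𝓜 g F) :
    ((c • F : L2M 𝓜 g) : V → ℝ) =ᵐ[hvol 𝓜 g] fun x => c * crep 𝓜 g F x := by
  filter_upwards [Lp.coeFn_smul c F, h.ae_eq_crep] with x h1 h2
  rw [h1, Pi.smul_apply, h2, smul_eq_mul]

theorem HasRep.add (h : HasRep 𝓜 g F) (h' : HasRep 𝓜 g F') : HasRep 𝓜 g (F + F') := by
  exact ⟨_, h.continuousOn_crep.add h'.continuousOn_crep, regD_ae_add h h'⟩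

theorem HasRep.sub (h : HasRep 𝓜 g F) (h' : HasRep 𝓜 g F') : HasRep 𝓜 g (F - F') := by
  exact ⟨_, h.continuousOn_crep.sub h'.continuousOn_crep, regD_ae_sub h h'⟩

theorem HasRep.smul (c : ℝ) (h : HasRep 𝓜 g F) : HasRep 𝓜 g (c • F) := by
  exact ⟨_, continuousOn_const.mul h.continuousOn_crep, regD_ae_smul c h⟩

theorem crep_add (hg : IsMetric 𝓜 g) (h : HasRep 𝓜 g F) (h' : HasRep 𝓜 g F') {x : V}
    (hx : x ∈ 𝓜.carrier) : crep 𝓜 g (F + F') x = crep 𝓜 g F x + crep 𝓜 g F' x := by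
  exact crep_eqOn hg (h.continuousOn_crep.add h'.continuousOn_crep) (regD_ae_add h h') hx

theorem crep_sub (hg : IsMetric 𝓜 g) (h : HasRep 𝓜 g F) (h' : HasRep 𝓜 g F') {x : V}
    (hx : x ∈ 𝓜.carrier) : crep 𝓜 g (F - F') x = crep 𝓜 g F x - crep 𝓜 g F' x := by
  exact crep_eqOn hg (h.continuousOn_crep.sub h'.continuousOn_crep) (regD_ae_sub h h') hx

theorem crep_smul (hg : IsMetric 𝓜 g) (c : ℝ) (h : HasRep 𝓜 g F) {x : V} (hx : x ∈ 𝓜.carrier) :
    crep 𝓜 g (c • F) x = c * crep 𝓜 g F x := by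
  exact crep_eqOn hg (continuousOn_const.mul h.continuousOn_crep) (regD_ae_smul c h) hx

/-- a.e. inequalities pass to the continuous representative. -/
theorem crep_nonneg (hg : IsMetric 𝓜 g) (h : HasRep 𝓜 g F) (h0 : ∀ᵐ x ∂(hvol 𝓜 g), 0 ≤ F x) {x : V}
    (hx : x ∈ 𝓜.carrier) : 0 ≤ crep 𝓜 g F x := by
  have h1 : (F : V → ℝ) =ᵐ[hvol 𝓜 g] fun x => max (crep 𝓜 g F x) 0 := by
    filter_upwards [h.ae_eq_crep, h0] with y hy hy0
    rw [← hy, max_eq_left hy0]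
  rw [crep_eqOn hg (h.continuousOn_crep.sup continuousOn_const) h1 hx]
  exact le_max_right _ _

/-- uniqueness of continuous representatives on relatively open sets. -/
theorem regD_eqOn_open (hg : IsMetric 𝓜 g) {O : Set V} (hO : IsOpen O) {a b : V → ℝ}
    (ha : ContinuousOn a (𝓜.carrier ∩ O)) (hb : ContinuousOn b (𝓜.carrier ∩ O))
    (hae : ∀ᵐ x ∂(hvol 𝓜 g), x ∈ O → a x = b x) : EqOn a b (𝓜.carrier ∩ O) := by
  intro x hx
  by_contra hne
  have h1 : ∀ᶠ y in 𝓝[𝓜.carrier ∩ O] x, a y ≠ b y := by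
    filter_upwards [((ha x hx).sub (hb x hx)).eventually_ne (sub_ne_zero.2 hne)] with y hy
    exact sub_ne_zero.1 hy
  have h2 : {y | y ∈ O ∧ a y ≠ b y} ∈ 𝓝[𝓜.carrier] x := by
    rw [← nhdsWithin_inter_of_mem' (nhdsWithin_le_nhds (hO.mem_nhds hx.2))]
    filter_upwards [h1, self_mem_nhdsWithin] with y hy hyO using ⟨hyO.2, hy⟩
  have h3 := hvol_pos_of_mem_nhdsWithin hg hx.1 h2
  have h4 : hvol 𝓜 g {y | y ∈ O ∧ a y ≠ b y} = 0 := by
    rw [ae_iff] at hae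
    refine measure_mono_null (fun y hy => ?_) hae
    simp only [mem_setOf_eq, Classical.not_imp]
    exact hy
  rw [h4] at h3
  exact lt_irrefl _ h3

/-- gluing of local continuous representatives. -/
theorem regD_hasRep_of_local (hg : IsMetric 𝓜 g)
    (h : ∀ x ∈ 𝓜.carrier, ∃ O : Set V, IsOpen O ∧ x ∈ O ∧ ∃ a : V → ℝ,
      ContinuousOn a (𝓜.carrier ∩ O) ∧ ∀ᵐ y ∂(hvol 𝓜 g), y ∈ O → F y = a y) :
    HasRep 𝓜 g F := by
  choose! O hO hxO a ha hae using h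
  have hglue : ∀ x ∈ 𝓜.carrier, ∀ y ∈ 𝓜.carrier ∩ O x, a y y = a x y := by
    intro x hx y hy
    have h1 : EqOn (a y) (a x) (𝓜.carrier ∩ (O y ∩ O x)) := by
      refine regD_eqOn_open hg ((hO y hy.1).inter (hO x hx))
        ((ha y hy.1).mono fun p hp => ⟨hp.1, hp.2.1⟩) ((ha x hx).mono fun p hp => ⟨hp.1, hp.2.2⟩) ?_
      filter_upwards [hae y hy.1, hae x hx] with p hp1 hp2 hpO
      rw [← hp1 hpO.1, ← hp2 hpO.2]
    exact h1 ⟨hy.1, hxO y hy.1, hy.2⟩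
  refine ⟨fun y => a y y, fun x hx => ?_, ?_⟩
  · have h1 : ContinuousWithinAt (a x) 𝓜.carrier x := by
      have := (ha x hx) x ⟨hx, hxO x hx⟩
      rwa [ContinuousWithinAt,
        nhdsWithin_inter_of_mem' (nhdsWithin_le_nhds ((hO x hx).mem_nhds (hxO x hx)))] at this
    refine h1.congr_of_eventuallyEq ?_ (hglue x hx x ⟨hx, hxO x hx⟩)
    filter_upwards [self_mem_nhdsWithin, nhdsWithin_le_nhds ((hO x hx).mem_nhds (hxO x hx))]
      with y hy hyO using hglue x hx y ⟨hy, hyO⟩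
  · obtain ⟨T, hT, hTU⟩ := TopologicalSpace.isOpen_iUnion_countable
      (fun x : 𝓜.carrier => O x) (fun x => hO x x.2)
    have h1 : ∀ x ∈ T, ∀ᵐ y ∂(hvol 𝓜 g), y ∈ O (x : V) → F y = a x y := fun x _ => hae x x.2
    have h2 := (ae_ball_iff hT).2 h1
    filter_upwards [h2, ae_mem_carrier 𝓜 g] with y hy hyM
    have hy' : y ∈ ⋃ x ∈ T, O (x : V) := by
      rw [hTU]; exact mem_iUnion.2 ⟨⟨y, hyM⟩, hxO y hyM⟩
    obtain ⟨x, hxT, hyx⟩ := mem_iUnion₂.1 hy'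
    rw [hy x hxT hyx, hglue x x.2 y ⟨hyM, hyx⟩]

theorem hasRep_heatR_pow (hg : IsMetric 𝓜 g) {k : ℕ} (hk : 2 * Fintype.card ι + 1 ≤ 2 * k)
    (w : L2M 𝓜 g) : HasRep 𝓜 g ((heatR 𝓜 g ^ k) w) := by
  refine regD_hasRep_of_local hg fun x hx => ?_
  obtain ⟨Φ, U, hΦ, z₀, hz₀, rfl⟩ := 𝓜.cover x hx
  have hp := 𝓜.isParam hΦ
  obtain ⟨ρ, hρ0, hρ⟩ := Metric.nhds_basis_closedBall.mem_iff.1 (hp.isOpen.mem_nhds hz₀)
  have hr : 0 < ρ / 2 := by positivity
  have hBU : ball z₀ (ρ / 2) ⊆ U :=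
    ((ball_subset_ball (by linarith)).trans ball_subset_closedBall).trans hρ
  obtain ⟨C, -, hC⟩ := exists_ckLe_heatR_pow (m := 0) hg hΦ hr (by linarith : ρ / 2 < ρ) hρ
    (by omega : 0 + 2 * Fintype.card ι + 1 ≤ 2 * k)
  obtain ⟨v, hv1, hv2⟩ := hC w
  obtain ⟨O, hO, hOeq⟩ := hp.exists_isOpen_image isOpen_ball hBU
  have hz₀O : Φ z₀ ∈ O := by
    have : Φ z₀ ∈ Φ '' ball z₀ (ρ / 2) := mem_image_of_mem _ (mem_ball_self hr)
    rw [hOeq] at this; exact this.2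
  refine ⟨O, hO, hz₀O, fun y => v (Function.invFunOn Φ U y), ?_, ?_⟩
  · rw [← hOeq]
    refine (hv2.contDiffOn.continuousOn).comp (hp.cont_inv.mono (image_mono hBU)) ?_
    rintro _ ⟨z, hz, rfl⟩
    rw [hp.leftInv (hBU hz)]; exact hz
  · rw [ae_restrict_iff' measurableSet_ball, ae_iff] at hv1
    have hnull := hvol_image_eq_zero hg.toIsHForm hΦ
      (B := {z | ¬ (z ∈ ball z₀ (ρ / 2) → (heatR 𝓜 g ^ k) w (Φ z) = v z)})
      (fun z hz => by
        simp only [mem_setOf_eq, Classical.not_imp] at hz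
        exact hBU hz.1) hv1
    have hnull' : ∀ᵐ y ∂(hvol 𝓜 g),
        y ∉ Φ '' {z | ¬ (z ∈ ball z₀ (ρ / 2) → (heatR 𝓜 g ^ k) w (Φ z) = v z)} :=
      measure_eq_zero_iff_ae_notMem.1 hnull
    filter_upwards [hnull', ae_mem_carrier 𝓜 g] with y hy hyM hyO
    have hyB : y ∈ Φ '' ball z₀ (ρ / 2) := by rw [hOeq]; exact ⟨hyM, hyO⟩
    obtain ⟨z, hz, rfl⟩ := hyB
    rw [hp.leftInv (hBU hz)]
    by_contra hne
    exact hy ⟨z, fun himp => hne (himp hz), rfl⟩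

/-- in a chart, on a small ball, the representative is the local one. -/
theorem regD_eqOn_ball (hg : IsMetric 𝓜 g) (hΦ : 𝓜.IsHol Φ U) (h : HasRep 𝓜 g F) {z₀ : CE ι}
    {r : ℝ} (hB : ball z₀ r ⊆ U) {v : CE ι → ℝ} (hv : ContinuousOn v (ball z₀ r))
    (hae : ∀ᵐ z ∂(volume.restrict (ball z₀ r)), F (Φ z) = v z) :
    EqOn (fun z => crep 𝓜 g F (Φ z)) v (ball z₀ r) := by
  have hc : ContinuousOn (fun z => crep 𝓜 g F (Φ z)) (ball z₀ r) :=
    ((CMfd.continuousOn_iff.1 h.continuousOn_crep) Φ U hΦ).mono hB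
  refine Claimed.Agent.Lib.Sob.eqOn_of_ae_eq volume isOpen_ball hc hv ?_
  filter_upwards [hae, regB_ae hg hΦ hB h.ae_eq_crep] with z h1 h2
  rw [← h2, h1]

theorem contDiffOn_crep_heatR_pow (hg : IsMetric 𝓜 g) (hΦ : 𝓜.IsHol Φ U) {m k : ℕ}
    (hk : m + 2 * Fintype.card ι + 1 ≤ 2 * k) (w : L2M 𝓜 g) :
    ContDiffOn ℝ m (fun z => crep 𝓜 g ((heatR 𝓜 g ^ k) w) (Φ z)) U := by
  have hp := 𝓜.isParam hΦ
  have hrep := hasRep_heatR_pow hg (by omega : 2 * Fintype.card ι + 1 ≤ 2 * k) w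
  intro z₀ hz₀
  obtain ⟨ρ, hρ0, hρ⟩ := Metric.nhds_basis_closedBall.mem_iff.1 (hp.isOpen.mem_nhds hz₀)
  have hr : 0 < ρ / 2 := by positivity
  have hBU : ball z₀ (ρ / 2) ⊆ U :=
    ((ball_subset_ball (by linarith)).trans ball_subset_closedBall).trans hρ
  obtain ⟨C, -, hC⟩ := exists_ckLe_heatR_pow hg hΦ hr (by linarith : ρ / 2 < ρ) hρ hk
  obtain ⟨v, hv1, hv2⟩ := hC w
  have he := regD_eqOn_ball hg hΦ hrep hBU hv2.contDiffOn.continuousOn hv1
  have h1 : ContDiffOn ℝ m (fun z => crep 𝓜 g ((heatR 𝓜 g ^ k) w) (Φ z)) (ball z₀ (ρ / 2)) :=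
    hv2.contDiffOn.congr he
  exact (h1.contDiffAt (ball_mem_nhds z₀ hr)).contDiffWithinAt

theorem exists_bound_crep_heatR_pow (hg : IsMetric 𝓜 g) (hΦ : 𝓜.IsHol Φ U) (hK : IsCompact K)
    (hKU : K ⊆ U) {m k : ℕ} (hk : m + 2 * Fintype.card ι + 1 ≤ 2 * k) :
    ∃ C : ℝ, ∀ w : L2M 𝓜 g, ∀ j : ℕ, j ≤ m → ∀ z ∈ K,
      ‖iteratedFDeriv ℝ j (fun y => crep 𝓜 g ((heatR 𝓜 g ^ k) w) (Φ y)) z‖ ≤ C * ‖w‖ := by
  have hp := 𝓜.isParam hΦ
  have h1 : ∀ z₀ ∈ K, ∃ r : ℝ, 0 < r ∧ ∃ C : ℝ, 0 ≤ C ∧ ∀ w : L2M 𝓜 g, ∀ j : ℕ, j ≤ m →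
      ∀ z ∈ ball z₀ r,
      ‖iteratedFDeriv ℝ j (fun y => crep 𝓜 g ((heatR 𝓜 g ^ k) w) (Φ y)) z‖ ≤ C * ‖w‖ := by
    intro z₀ hz₀
    obtain ⟨ρ, hρ0, hρ⟩ := Metric.nhds_basis_closedBall.mem_iff.1 (hp.isOpen.mem_nhds (hKU hz₀))
    have hr : 0 < ρ / 2 := by positivity
    have hBU : ball z₀ (ρ / 2) ⊆ U :=
      ((ball_subset_ball (by linarith)).trans ball_subset_closedBall).trans hρ
    obtain ⟨C, hC0, hC⟩ := exists_ckLe_heatR_pow hg hΦ hr (by linarith : ρ / 2 < ρ) hρ hk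
    refine ⟨ρ / 2, hr, C, hC0, fun w j hj z hz => ?_⟩
    have hrep := hasRep_heatR_pow hg (by omega : 2 * Fintype.card ι + 1 ≤ 2 * k) w
    obtain ⟨v, hv1, hv2⟩ := hC w
    have he := regD_eqOn_ball hg hΦ hrep hBU hv2.contDiffOn.continuousOn hv1
    have he' : (fun y => crep 𝓜 g ((heatR 𝓜 g ^ k) w) (Φ y)) =ᶠ[𝓝 z] v := by
      filter_upwards [isOpen_ball.mem_nhds hz] with y hy using he hy
    rw [(Filter.EventuallyEq.iteratedFDeriv (𝕜 := ℝ) he' j).eq_of_nhds]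
    exact hv2.2 j hj z hz
  choose! r hr C hC0 hC using h1
  obtain ⟨t, htK, htc⟩ := hK.elim_nhds_subcover (fun z => ball z (r z))
    (fun z hz => ball_mem_nhds z (hr z hz))
  refine ⟨∑ z ∈ t, C z, fun w j hj z hz => ?_⟩
  obtain ⟨z₀, hz₀t, hzz₀⟩ := mem_iUnion₂.1 (htc hz)
  refine (hC z₀ (htK z₀ hz₀t) w j hj z hzz₀).trans
    (mul_le_mul_of_nonneg_right ?_ (norm_nonneg w))
  exact Finset.single_le_sum (fun y hy => hC0 y (htK y hy)) hz₀t

/-- an element of `⋂_k range R^k` has a smooth representative. -/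
theorem smooth_crep_of_forall_pow (hg : IsMetric 𝓜 g)
    (h : ∀ k : ℕ, ∃ w : L2M 𝓜 g, (heatR 𝓜 g ^ k) w = F) : HasRep 𝓜 g F ∧ 𝓜.Smooth (crep 𝓜 g F) := by
  constructor
  · obtain ⟨w, hw⟩ := h (Fintype.card ι + 1)
    rw [← hw]
    exact hasRep_heatR_pow hg (by omega) w
  · intro Φ U hΦ
    rw [contDiffOn_infty]
    intro m
    obtain ⟨w, hw⟩ := h (m + Fintype.card ι + 1)
    have := contDiffOn_crep_heatR_pow (m := m) hg hΦ
      (by omega : m + 2 * Fintype.card ι + 1 ≤ 2 * (m + Fintype.card ι + 1)) w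
    rw [hw] at this
    exact this

end rep

/-! ### the equation -/

section eqn

/-- `v = R w` smooth, `w` continuous: `v - Δ v = w` pointwise. -/
theorem crep_heatR_sub_lap (hK : IsKahler 𝓜 g) {w : L2M 𝓜 g} (hw : HasRep 𝓜 g w)
    (hv : HasRep 𝓜 g (heatR 𝓜 g w)) (hs : 𝓜.Smooth (crep 𝓜 g (heatR 𝓜 g w))) {x : V}
    (hx : x ∈ 𝓜.carrier) :
    crep 𝓜 g (heatR 𝓜 g w) x - lap 𝓜 g (crep 𝓜 g (heatR 𝓜 g w)) x = crep 𝓜 g w x := by
  have hg := hK.toIsMetric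
  set v := crep 𝓜 g (heatR 𝓜 g w) with hvd
  have hcl : ContinuousOn (lap 𝓜 g v) 𝓜.carrier := (smooth_lap hg hs).continuousOn
  have hc : ContinuousOn (fun y => v y - lap 𝓜 g v y - crep 𝓜 g w y) 𝓜.carrier :=
    (hs.continuousOn.sub hcl).sub hw.continuousOn_crep
  have key := eq_zero_of_forall_integral_mul_eq_zero hg hc fun φ hφ hφc => ?_
  · have := key x hx
    linarith
  · have hφt : 𝓜.IsTest φ := ⟨hφ, hφc⟩
    have h1 := integral_heatR_mul hK w hφt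
    have h2 : ∫ y, heatR 𝓜 g w y * (φ y - lap 𝓜 g φ y) ∂(hvol 𝓜 g)
        = ∫ y, v y * (φ y - lap 𝓜 g φ y) ∂(hvol 𝓜 g) := by
      refine integral_congr_ae ?_
      filter_upwards [hv.ae_eq_crep] with y hy
      rw [hy]
    have h3 : ∫ y, w y * φ y ∂(hvol 𝓜 g) = ∫ y, crep 𝓜 g w y * φ y ∂(hvol 𝓜 g) := by
      refine integral_congr_ae ?_
      filter_upwards [hw.ae_eq_crep] with y hy
      rw [hy]
    have h4 := integral_mul_lap_comm hK hφ hφc hs
    have i1 : Integrable (fun y => v y * φ y) (hvol 𝓜 g) :=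
      integrable_hvol_of_csupp hg (hs.continuousOn.mul hφ.continuousOn) (hφc.mul_left _)
    have i2 : Integrable (fun y => v y * lap 𝓜 g φ y) (hvol 𝓜 g) :=
      integrable_mul_lap_of_csupp' hg hs.continuousOn hφ hφc
    have i3 : Integrable (fun y => φ y * lap 𝓜 g v y) (hvol 𝓜 g) :=
      integrable_mul_lap_of_csupp hg hφ.continuousOn hφc hs
    have i4 : Integrable (fun y => crep 𝓜 g w y * φ y) (hvol 𝓜 g) :=
      integrable_hvol_of_csupp hg (hw.continuousOn_crep.mul hφ.continuousOn) (hφc.mul_left _)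
    have e1 : ∫ y, v y * (φ y - lap 𝓜 g φ y) ∂(hvol 𝓜 g)
        = ∫ y, v y * φ y ∂(hvol 𝓜 g) - ∫ y, v y * lap 𝓜 g φ y ∂(hvol 𝓜 g) := by
      rw [← integral_sub i1 i2]
      simp only [mul_sub]
    have e2 : ∫ y, φ y * (v y - lap 𝓜 g v y - crep 𝓜 g w y) ∂(hvol 𝓜 g)
        = ∫ y, v y * φ y ∂(hvol 𝓜 g) - ∫ y, φ y * lap 𝓜 g v y ∂(hvol 𝓜 g)
          - ∫ y, crep 𝓜 g w y * φ y ∂(hvol 𝓜 g) := by
      have i5 : Integrable (fun y => v y * φ y - φ y * lap 𝓜 g v y) (hvol 𝓜 g) := i1.sub i3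
      rw [← integral_sub i1 i3, ← integral_sub i5 i4]
      refine integral_congr_ae (Eventually.of_forall fun y => ?_)
      simp only; ring
    rw [e2, h4, ← e1, ← h2, h1, h3, sub_self]

end eqn

end Claimed.Agent.R316
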