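import Claimed.Agent.R316.Base.Heat.L2.RFC

/-!
# Row 316, BP-G8, file 2: Friedrichs resolvent and the semigroup `e^{-t(R⁻¹-1)}`, ABSTRACT

Statement file by helper55.  FRAMEWORK INDEPENDENT (Mathlib + `Heat/L2/RFC.lean`).  `H` real Hilbert space.

## Leaf G8-FR (section `friedrichs`), ~300 lines
`D` a real vector space (test functions), `J : D →ₗ[ℝ] H` with dense range, `a` a symmetric nonnegative bilinear form on `D`.
Energy `en u = ‖J u‖² + a u u`.  ROUTE: `PreInnerProductSpace.Core ℝ D` with `⟪u,v⟫₁ = ⟪J u,J v⟫ + a u v` gives (locally, `letI`)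
`SeminormedAddCommGroup D`, `InnerProductSpace ℝ D`; `H₁ := UniformSpace.Completion D` is a Hilbert space
(`UniformSpace.Completion.innerProductSpace`); `j : H₁ →L[ℝ] H` := extension of `J` (`‖J u‖ ≤ ‖u‖₁`; `ContinuousLinearMap.extend`
along `UniformSpace.Completion.toComplL`); `R := j ∘L adjoint j`.
* selfadjoint, `⟪R f,f⟫ = ‖j† f‖² ≥ 0`, `‖j‖ ≤ 1 ⟹ ⟪R f,f⟫ ≤ ‖f‖²`;
* injective: `R f = 0 ⟹ j† f = 0 ⟹ f ⊥ range J`, dense;
* approximation: `D` is dense in `H₁`: choose `u n → j† f` in `H₁`; `⟪u n,φ⟫₁ → ⟪j† f,φ⟫₁ = ⟪f,J φ⟫`; `en (u n) → ‖j† f‖² = ⟪R f,f⟫`;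
* uniqueness: an energy Cauchy sequence converges in `H₁` to some `Y`; `J (u n) → j Y`; `⟪Y,φ⟫₁ = ⟪f,J φ⟫ = ⟪j† f,φ⟫₁` for all `φ ∈ D`
  (dense) gives `Y = j† f`.

## Leaves G8-SG-A (algebra, bounds), G8-SG-B (time regularity), section `semigroup`
`σ = 1/l - 1 ∈ [0,∞)` for `l ∈ (0,1]`;  `sgF j t l = σ^j e^{-tσ}` (`0` at `l ≤ 0`), `sgE R j t = sgF j t (R)`
(`= (-Δ)^j e^{tΔ}` if `R = (1-Δ)⁻¹`), `sg R t = e^{tΔ}` (`= 1` for `t ≤ 0`).
Every statement reduces through `rfc_mul, rfc_add, rfc_congr, norm_rfc_le, hasDerivWithinAt_rfc` to an elementary fact on the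
scalar functions: `l (1 + σ) = 1`, `σ l = 1 - l`, `(tσ)^j / j! ≤ e^{tσ}`, `|e^{-x} - 1| ≤ x`, `|e^{-x} - 1 + x| ≤ x²/2` (`x ≥ 0`).
Continuity of `sgF j t` at `l = 0`: `0 ≤ sgF j t l ≤ (j+1)!/t^{j+1} · σ⁻¹` and `σ⁻¹ = l/(1-l) → 0`.
`sg R t * R = rfc R (fun l => l * sgF 0 t l)` also for `t = 0` (this is why `R` is multiplied in the statements at `t = 0`).
Strong continuity: `‖(sg R t - 1) R‖ ≤ t`, `range R` is dense (`R` injective selfadjoint: `(range R)ᗮ = ker R`), `‖sg R t‖ ≤ 1`.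
-/

set_option autoImplicit false
set_option linter.unusedSectionVars false
set_option linter.deprecated false
open scoped Topology InnerProductSpace ContDiff
open Set Filter

namespace Claimed.Agent.R316

variable {H : Type*} [NormedAddCommGroup H] [InnerProductSpace ℝ H] [CompleteSpace H]

/-! ### Friedrichs resolvent -/

/-- a vector orthogonal to a dense range vanishes. -/
theorem frA_eq_zero_of_dense {α K : Type*} [NormedAddCommGroup K] [InnerProductSpace ℝ K]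
    {e : α → K} (he : DenseRange e) {y : K} (h : ∀ u, ⟪y, e u⟫_ℝ = 0) : y = 0 := by
  have h1 : ∀ z : K, ⟪y, z⟫_ℝ = 0 := fun z =>
    he.induction_on (p := fun z => ⟪y, z⟫_ℝ = 0) z
      (isClosed_eq (continuous_const.inner continuous_id) continuous_const) h
  exact inner_self_eq_zero.1 (h1 y)

/-- abstract core of the Friedrichs construction, on a pre-Hilbert space `E`. -/
theorem frA_core {E : Type*} [SeminormedAddCommGroup E] [InnerProductSpace ℝ E]
    (J : E →ₗ[ℝ] H) (hJ : DenseRange J) (hle : ∀ u, ‖J u‖ ≤ ‖u‖) :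
    ∃ R : H →L[ℝ] H, IsUnitOp R ∧ Function.Injective R ∧
      (∀ f : H, ∃ u : ℕ → E, CauchySeq u ∧ Tendsto (fun n => J (u n)) atTop (𝓝 (R f)) ∧
        (∀ φ : E, Tendsto (fun n => ⟪u n, φ⟫_ℝ) atTop (𝓝 ⟪f, J φ⟫_ℝ)) ∧
        Tendsto (fun n => ‖u n‖ ^ 2) atTop (𝓝 ⟪R f, f⟫_ℝ)) ∧
      (∀ (f v : H) (u : ℕ → E), CauchySeq u → Tendsto (fun n => J (u n)) atTop (𝓝 v) →
        (∀ φ : E, Tendsto (fun n => ⟪u n, φ⟫_ℝ) atTop (𝓝 ⟪f, J φ⟫_ℝ)) → v = R f) := by
  classical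
  let H₁ := UniformSpace.Completion E
  let ι : E →ₗ[ℝ] H₁ := (UniformSpace.Completion.toComplL (𝕜 := ℝ) (E := E)).toLinearMap
  have hι : ∀ u : E, ι u = (u : H₁) := fun u => rfl
  have hιd : DenseRange ι := UniformSpace.Completion.denseRange_coe
  have hιn : ∀ u : E, ‖ι u‖ = ‖u‖ := fun u => UniformSpace.Completion.norm_coe u
  have hιi : ∀ u v : E, ⟪ι u, ι v⟫_ℝ = ⟪u, v⟫_ℝ := fun u v => UniformSpace.Completion.inner_coe u v
  have hcs : ∀ u : ℕ → E, CauchySeq u ↔ CauchySeq (fun n => ι (u n)) := fun u => by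
    have hd : ∀ a b : E, dist (ι a) (ι b) = dist a b := fun a b =>
      UniformSpace.Completion.dist_eq a b
    rw [Metric.cauchySeq_iff, Metric.cauchySeq_iff]
    simp only [hd]
  have hb : ∀ u : E, ‖J u‖ ≤ 1 * ‖ι u‖ := fun u => by rw [one_mul, hιn]; exact hle u
  let j : H₁ →L[ℝ] H := J.extendOfNorm ι
  have hj : ∀ u : E, j (ι u) = J u := fun u => LinearMap.extendOfNorm_eq hιd ⟨1, hb⟩ u
  have hjn : ‖j‖ ≤ 1 := LinearMap.opNorm_extendOfNorm_le hιd zero_le_one hb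
  let js : H →L[ℝ] H₁ := ContinuousLinearMap.adjoint j
  have hjs : ∀ (f : H) (y : H₁), ⟪js f, y⟫_ℝ = ⟪f, j y⟫_ℝ := fun f y =>
    ContinuousLinearMap.adjoint_inner_left j y f
  have hjsn : ∀ f : H, ‖js f‖ ≤ ‖f‖ := fun f => by
    have h1 : ‖js‖ ≤ 1 := by
      have : ‖js‖ = ‖j‖ := by
        simp only [js]
        exact (ContinuousLinearMap.adjoint (𝕜 := ℝ) (E := H₁) (F := H)).norm_map j
      rw [this]; exact hjn
    calc ‖js f‖ ≤ ‖js‖ * ‖f‖ := js.le_opNorm f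
      _ ≤ 1 * ‖f‖ := by gcongr
      _ = ‖f‖ := one_mul _
  let R : H →L[ℝ] H := j ∘L js
  have hRi : ∀ f g : H, ⟪R f, g⟫_ℝ = ⟪js f, js g⟫_ℝ := fun f g => by
    rw [real_inner_comm, real_inner_comm (js g), hjs]; rfl
  have hRf : ∀ f : H, ⟪R f, f⟫_ℝ = ‖js f‖ ^ 2 := fun f => by
    rw [hRi, real_inner_self_eq_norm_sq]
  refine ⟨R, ⟨?_, ?_, ?_⟩, ?_, ?_, ?_⟩
  · rw [ContinuousLinearMap.isSelfAdjoint_iff_isSymmetric]
    intro f g
    change ⟪R f, g⟫_ℝ = ⟪f, R g⟫_ℝ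
    rw [hRi, real_inner_comm (R g) f, hRi, real_inner_comm]
  · intro f; rw [hRf]; positivity
  · intro f; rw [hRf]
    exact pow_le_pow_left₀ (norm_nonneg _) (hjsn f) 2
  · rw [injective_iff_map_eq_zero]
    intro f hf
    have h0 : js f = 0 := by
      have := hRf f
      rw [hf, inner_zero_left] at this
      exact norm_eq_zero.1 ((pow_eq_zero_iff (two_ne_zero)).1 this.symm)
    refine frA_eq_zero_of_dense hJ fun u => ?_
    rw [← hj, ← hjs, h0, inner_zero_left]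
  · intro f
    have hex : ∀ n : ℕ, ∃ u : E, dist (js f) (ι u) < 1 / ((n : ℝ) + 1) := fun n =>
      hιd.exists_dist_lt (js f) (by positivity)
    choose u hu using hex
    have hlim : Tendsto (fun n => ι (u n)) atTop (𝓝 (js f)) := by
      rw [tendsto_iff_dist_tendsto_zero]
      refine squeeze_zero (fun _ => dist_nonneg) (fun n => ?_) tendsto_one_div_add_atTop_nhds_zero_nat
      rw [dist_comm]; exact (hu n).le
    refine ⟨u, ?_, ?_, ?_, ?_⟩
    · have : CauchySeq (fun n => ι (u n)) := hlim.cauchySeq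
      exact (hcs u).2 this
    · have := (j.continuous.tendsto _).comp hlim
      simp only [Function.comp_def, hj] at this
      exact this
    · intro φ
      have := (Filter.Tendsto.inner (𝕜 := ℝ) hlim (tendsto_const_nhds (x := ι φ)))
      simpa [hιi, hjs, hj] using this
    · have := (hlim.norm.pow 2)
      simpa [hιn, hRf] using this
  · intro f v u hu hv hφ
    have hc : CauchySeq (fun n => ι (u n)) := (hcs u).1 hu
    obtain ⟨Y, hY⟩ := cauchySeq_tendsto_of_complete hc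
    have h1 : v = j Y := by
      have := (j.continuous.tendsto _).comp hY
      simp only [Function.comp_def, hj] at this
      exact tendsto_nhds_unique hv this
    have h2 : Y - js f = 0 := by
      refine frA_eq_zero_of_dense hιd fun φ => ?_
      have h3 := (Filter.Tendsto.inner (𝕜 := ℝ) hY (tendsto_const_nhds (x := ι φ)))
      simp only [hιi] at h3
      have h4 := tendsto_nhds_unique h3 (hφ φ)
      rw [inner_sub_left, h4, hjs, hj, sub_self]
    rw [h1, sub_eq_zero.1 h2]; rfl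

section friedrichs

variable {D : Type*} [AddCommGroup D] [Module ℝ D]

/-- energy Cauchy sequences. -/
def EnCauchy (J : D →ₗ[ℝ] H) (a : D →ₗ[ℝ] D →ₗ[ℝ] ℝ) (u : ℕ → D) : Prop :=
  ∀ ε : ℝ, 0 < ε → ∃ N : ℕ, ∀ n m : ℕ, N ≤ n → N ≤ m →
    ‖J (u n - u m)‖ ^ 2 + a (u n - u m) (u n - u m) < ε

/-- `u n` is an approximating sequence of "the solution `v` of `(1 + A) v = f`". -/
def FrApprox (J : D →ₗ[ℝ] H) (a : D →ₗ[ℝ] D →ₗ[ℝ] ℝ) (f v : H) (u : ℕ → D) : Prop :=
  EnCauchy J a u ∧ Tendsto (fun n => J (u n)) atTop (𝓝 v) ∧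
    ∀ φ : D, Tendsto (fun n => ⟪J (u n), J φ⟫_ℝ + a (u n) φ) atTop (𝓝 ⟪f, J φ⟫_ℝ)

/-- `R` is the Friedrichs resolvent `(1 + A)⁻¹` of the form `a`. -/
structure IsFriedrichs (J : D →ₗ[ℝ] H) (a : D →ₗ[ℝ] D →ₗ[ℝ] ℝ) (R : H →L[ℝ] H) : Prop where
  unitOp : IsUnitOp R
  injective : Function.Injective R
  approx : ∀ f : H, ∃ u : ℕ → D, FrApprox J a f (R f) u ∧
    Tendsto (fun n => ‖J (u n)‖ ^ 2 + a (u n) (u n)) atTop (𝓝 ⟪R f, f⟫_ℝ)
  unique : ∀ (f v : H) (u : ℕ → D), FrApprox J a f v u → v = R f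

theorem exists_isFriedrichs (J : D →ₗ[ℝ] H) (a : D →ₗ[ℝ] D →ₗ[ℝ] ℝ) (hJ : DenseRange J)
    (hsymm : ∀ u v, a u v = a v u) (hnn : ∀ u, 0 ≤ a u u) :
    ∃ R : H →L[ℝ] H, IsFriedrichs J a R := by
  let core : PreInnerProductSpace.Core ℝ D :=
    { inner := fun u v => ⟪J u, J v⟫_ℝ + a u v
      conj_inner_symm := fun u v => by
        simp only [conj_trivial]
        rw [real_inner_comm, hsymm]
      re_inner_nonneg := fun u => by
        simp only [RCLike.re_to_real]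
        exact add_nonneg real_inner_self_nonneg (hnn u)
      add_left := fun u v w => by
        simp only [map_add, inner_add_left, LinearMap.add_apply]; ring
      smul_left := fun u v r => by
        simp only [map_smul, inner_smul_left, LinearMap.smul_apply, conj_trivial, smul_eq_mul]
        ring }
  let _ : SeminormedAddCommGroup D := @InnerProductSpace.Core.toSeminormedAddCommGroup ℝ D _ _ _ core
  let _ : InnerProductSpace ℝ D := InnerProductSpace.ofCore core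
  have hin : ∀ u v : D, ⟪u, v⟫_ℝ = ⟪J u, J v⟫_ℝ + a u v := fun u v => rfl
  have hns : ∀ u : D, ‖u‖ ^ 2 = ‖J u‖ ^ 2 + a u u := fun u => by
    rw [← real_inner_self_eq_norm_sq, hin, real_inner_self_eq_norm_sq]
  have hle : ∀ u : D, ‖J u‖ ≤ ‖u‖ := fun u => by
    refine (pow_le_pow_iff_left₀ (norm_nonneg _) (norm_nonneg _) two_ne_zero).1 ?_
    rw [hns]; linarith [hnn u]
  have hC : ∀ u : ℕ → D, CauchySeq u ↔ EnCauchy J a u := fun u => by
    rw [Metric.cauchySeq_iff]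
    constructor
    · intro h ε hε
      obtain ⟨N, hN⟩ := h (Real.sqrt ε) (Real.sqrt_pos.2 hε)
      refine ⟨N, fun n m hn hm => ?_⟩
      rw [← hns]
      have := hN n hn m hm
      rw [dist_eq_norm] at this
      exact (Real.lt_sqrt (norm_nonneg _)).1 this
    · intro h ε hε
      obtain ⟨N, hN⟩ := h (ε ^ 2) (by positivity)
      refine ⟨N, fun n hn m hm => ?_⟩
      have := hN n m hn hm
      rw [← hns] at this
      rw [dist_eq_norm]
      exact lt_of_pow_lt_pow_left₀ 2 hε.le this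
  obtain ⟨R, hU, hinj, hap, hun⟩ := frA_core J hJ hle
  refine ⟨R, hU, hinj, fun f => ?_, fun f v u hu => ?_⟩
  · obtain ⟨u, h1, h2, h3, h4⟩ := hap f
    refine ⟨u, ⟨(hC u).1 h1, h2, h3⟩, ?_⟩
    simpa only [hns] using h4
  · exact hun f v u ((hC u).2 hu.1) hu.2.1 hu.2.2

/-- elements of `D`: if `⟪J u,J φ⟫ + a u φ = ⟪f,J φ⟫` for all `φ` then `R f = J u`. -/
theorem IsFriedrichs.apply_eq {J : D →ₗ[ℝ] H} {a : D →ₗ[ℝ] D →ₗ[ℝ] ℝ} {R : H →L[ℝ] H}
    (hR : IsFriedrichs J a R) {f : H} {u : D} (h : ∀ φ : D, ⟪J u, J φ⟫_ℝ + a u φ = ⟪f, J φ⟫_ℝ) :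
    R f = J u := by
  refine (hR.unique f (J u) (fun _ => u) ⟨fun ε hε => ⟨0, fun n m _ _ => ?_⟩, tendsto_const_nhds,
    fun φ => ?_⟩).symm
  · simpa using hε
  · simp only [h φ]; exact tendsto_const_nhds

theorem IsFriedrichs.unique_op {J : D →ₗ[ℝ] H} {a : D →ₗ[ℝ] D →ₗ[ℝ] ℝ} {R R' : H →L[ℝ] H}
    (hR : IsFriedrichs J a R) (hR' : IsFriedrichs J a R') : R = R' := by
  ext f
  obtain ⟨u, hu, -⟩ := hR.approx f
  exact hR'.unique f (R f) u hu

end friedrichs

/-! ### the semigroup -/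

section semigroup

/-- `σ^j e^{-tσ}`, `σ = 1/l - 1`. -/
noncomputable def sgF (j : ℕ) (t l : ℝ) : ℝ :=
  if l ≤ 0 then 0 else (1 / l - 1) ^ j * Real.exp (-(t * (1 / l - 1)))

/-- `(R⁻¹ - 1)^j e^{-t(R⁻¹ - 1)}`, `t > 0`. -/
noncomputable def sgE (R : H →L[ℝ] H) (j : ℕ) (t : ℝ) : H →L[ℝ] H := rfc R (sgF j t)

/-- the semigroup `e^{-t(R⁻¹ - 1)}`, `t ≥ 0`. -/
noncomputable def sg (R : H →L[ℝ] H) (t : ℝ) : H →L[ℝ] H := if t ≤ 0 then 1 else sgE R 0 t

variable {R : H →L[ℝ] H} {s t : ℝ} {i j k : ℕ}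

/-! #### scalar facts -/

theorem sgA_of_nonpos (j : ℕ) (t : ℝ) {l : ℝ} (hl : l ≤ 0) : sgF j t l = 0 := if_pos hl

theorem sgA_of_pos (j : ℕ) (t : ℝ) {l : ℝ} (hl : 0 < l) :
    sgF j t l = (1 / l - 1) ^ j * Real.exp (-(t * (1 / l - 1))) := if_neg (not_le.2 hl)

theorem sgA_sigma_nonneg {l : ℝ} (h0 : 0 < l) (h1 : l ≤ 1) : 0 ≤ 1 / l - 1 := by
  rw [sub_nonneg, le_div_iff₀ h0]; linarith

theorem sgF_nonneg (j : ℕ) (t : ℝ) {l : ℝ} (hl : l ∈ Icc (0 : ℝ) 1) : 0 ≤ sgF j t l := by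
  rcases le_or_gt l 0 with h | h
  · rw [sgA_of_nonpos _ _ h]
  · rw [sgA_of_pos _ _ h]
    have := sgA_sigma_nonneg h hl.2
    positivity

theorem sgF_le (j : ℕ) (ht : 0 < t) {l : ℝ} (hl : l ∈ Icc (0 : ℝ) 1) :
    sgF j t l ≤ (j.factorial : ℝ) / t ^ j := by
  rcases le_or_gt l 0 with h | h
  · rw [sgA_of_nonpos _ _ h]; positivity
  · rw [sgA_of_pos _ _ h]
    set σ := 1 / l - 1 with hσd
    have hσ : 0 ≤ σ := sgA_sigma_nonneg h hl.2
    have h1 : (t * σ) ^ j / (j.factorial : ℝ) ≤ Real.exp (t * σ) :=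
      Real.pow_div_factorial_le_exp (t * σ) (by positivity) j
    rw [div_le_iff₀ (by positivity)] at h1
    rw [Real.exp_neg, le_div_iff₀ (by positivity)]
    have h2 : σ ^ j * (Real.exp (t * σ))⁻¹ * t ^ j = (t * σ) ^ j / Real.exp (t * σ) := by
      rw [mul_pow]; field_simp
    rw [h2, div_le_iff₀ (Real.exp_pos _)]
    linarith

theorem sgF_zero_le_one (ht : 0 ≤ t) {l : ℝ} (hl : l ∈ Icc (0 : ℝ) 1) : sgF 0 t l ≤ 1 := by
  rcases le_or_gt l 0 with h | h
  · rw [sgA_of_nonpos _ _ h]; exact zero_le_one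
  · rw [sgA_of_pos _ _ h, pow_zero, one_mul, Real.exp_le_one_iff]
    have := sgA_sigma_nonneg h hl.2
    have := mul_nonneg ht this
    linarith

theorem sgA_mul (i j : ℕ) (s t l : ℝ) : sgF i s l * sgF j t l = sgF (i + j) (s + t) l := by
  rcases le_or_gt l 0 with h | h
  · rw [sgA_of_nonpos _ _ h, sgA_of_nonpos _ _ h, sgA_of_nonpos _ _ h, zero_mul]
  · rw [sgA_of_pos _ _ h, sgA_of_pos _ _ h, sgA_of_pos _ _ h, pow_add,
      show -((s + t) * (1 / l - 1)) = -(s * (1 / l - 1)) + -(t * (1 / l - 1)) by ring, Real.exp_add]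
    ring

/-- `l σ = 1 - l`. -/
theorem sgA_id_mul_succ (j : ℕ) (t l : ℝ) : l * sgF (j + 1) t l = (1 - l) * sgF j t l := by
  rcases le_or_gt l 0 with h | h
  · rw [sgA_of_nonpos _ _ h, sgA_of_nonpos _ _ h, mul_zero, mul_zero]
  · rw [sgA_of_pos _ _ h, sgA_of_pos _ _ h, pow_succ]
    have : l * (1 / l - 1) = 1 - l := by field_simp
    calc l * ((1 / l - 1) ^ j * (1 / l - 1) * Real.exp (-(t * (1 / l - 1))))
        = (l * (1 / l - 1)) * ((1 / l - 1) ^ j * Real.exp (-(t * (1 / l - 1)))) := by ring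
      _ = _ := by rw [this]

/-- `l (1 + σ) = 1`. -/
theorem sgA_id_mul_add (j : ℕ) (t l : ℝ) : l * (sgF j t l + sgF (j + 1) t l) = sgF j t l := by
  rw [mul_add, sgA_id_mul_succ]; ring

theorem sgA_le_mul (j : ℕ) (ht : 0 < t) {l : ℝ} (hl : l ∈ Icc (0 : ℝ) 1) :
    sgF j t l ≤ l * ((j.factorial : ℝ) / t ^ j + ((j + 1).factorial : ℝ) / t ^ (j + 1)) := by
  rw [← sgA_id_mul_add j t l]
  exact mul_le_mul_of_nonneg_left (add_le_add (sgF_le j ht hl) (sgF_le (j + 1) ht hl)) hl.1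

theorem continuousOn_sgF (j : ℕ) (ht : 0 < t) : ContinuousOn (sgF j t) (Icc 0 1) := by
  intro l hl
  rcases hl.1.eq_or_lt with h | h
  · subst h
    have h0 : sgF j t 0 = 0 := sgA_of_nonpos _ _ le_rfl
    rw [ContinuousWithinAt, h0]
    set C := ((j.factorial : ℝ) / t ^ j + ((j + 1).factorial : ℝ) / t ^ (j + 1)) with hC
    have h1 : Tendsto (fun l : ℝ => l * C) (𝓝[Icc 0 1] 0) (𝓝 0) := by
      have : Tendsto (fun l : ℝ => l * C) (𝓝 0) (𝓝 (0 * C)) :=
        (continuous_id.mul continuous_const).tendsto 0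
      rw [zero_mul] at this
      exact this.mono_left nhdsWithin_le_nhds
    refine squeeze_zero' ?_ ?_ h1
    · filter_upwards [self_mem_nhdsWithin] with l hl using sgF_nonneg j t hl
    · filter_upwards [self_mem_nhdsWithin] with l hl using sgA_le_mul j ht hl
  · refine ContinuousAt.continuousWithinAt ?_
    have h1 : ContinuousAt (fun l : ℝ => (1 / l - 1) ^ j * Real.exp (-(t * (1 / l - 1)))) l := by
      have h2 : ContinuousAt (fun l : ℝ => 1 / l - 1) l :=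
        (continuousAt_const.div continuousAt_id h.ne').sub continuousAt_const
      exact (h2.pow j).mul (Real.continuous_exp.continuousAt.comp
        ((continuousAt_const.mul h2).neg))
    refine h1.congr ?_
    filter_upwards [Ioi_mem_nhds h] with l' hl' using (sgA_of_pos j t hl').symm

theorem sgA_zero_zero {l : ℝ} (hl : 0 < l) : sgF 0 0 l = 1 := by
  rw [sgA_of_pos _ _ hl]; simp

theorem sgA_zero_mul_pow (k : ℕ) {l : ℝ} (hl : l ∈ Icc (0 : ℝ) 1) :
    sgF 0 0 l * l ^ (k + 1) = l ^ (k + 1) := by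
  rcases hl.1.eq_or_lt with h | h
  · subst h; simp
  · rw [sgA_zero_zero h, one_mul]

theorem sgA_continuousOn_mul_pow (ht : 0 ≤ t) (k : ℕ) :
    ContinuousOn (fun l => sgF 0 t l * l ^ (k + 1)) (Icc 0 1) := by
  rcases ht.eq_or_lt with h | h
  · subst h
    exact (continuous_pow (k + 1)).continuousOn.congr fun l hl => sgA_zero_mul_pow k hl
  · exact (continuousOn_sgF 0 h).mul (continuous_pow (k + 1)).continuousOn

theorem sgA_sub_one_mul_le (ht : 0 ≤ t) {l : ℝ} (hl : l ∈ Icc (0 : ℝ) 1) :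
    |(sgF 0 t l - 1) * l| ≤ t := by
  rcases hl.1.eq_or_lt with h | h
  · subst h; simpa using ht
  · have hσ := sgA_sigma_nonneg h hl.2
    have h1 : sgF 0 t l ≤ 1 := sgF_zero_le_one ht hl
    have h2 : 1 - t * (1 / l - 1) ≤ sgF 0 t l := by
      rw [sgA_of_pos _ _ h, pow_zero, one_mul]
      have := Real.add_one_le_exp (-(t * (1 / l - 1)))
      linarith
    have h3 : l * (1 / l - 1) = 1 - l := by field_simp
    rw [abs_mul, abs_of_nonpos (by linarith), abs_of_pos h]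
    calc -(sgF 0 t l - 1) * l ≤ (t * (1 / l - 1)) * l :=
          mul_le_mul_of_nonneg_right (by linarith) h.le
      _ = t * (l * (1 / l - 1)) := by ring
      _ = t * (1 - l) := by rw [h3]
      _ ≤ t * 1 := mul_le_mul_of_nonneg_left (by linarith) ht
      _ = t := mul_one t

theorem sgA_exp_taylor (x : ℝ) :
    |Real.exp (-x) - 1 + x| ≤ x ^ 2 * (1 + Real.exp (-x)) := by
  have hE : 0 < Real.exp (-x) := Real.exp_pos _
  have h1 : -x + 1 ≤ Real.exp (-x) := Real.add_one_le_exp (-x)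
  have h2 : Real.exp (-x) * (x + 1) ≤ 1 := by
    have h3 : Real.exp (-x) * Real.exp x = 1 := by rw [← Real.exp_add]; simp
    calc Real.exp (-x) * (x + 1) ≤ Real.exp (-x) * Real.exp x :=
          mul_le_mul_of_nonneg_left (Real.add_one_le_exp x) hE.le
      _ = 1 := h3
  rw [abs_of_nonneg (by linarith)]
  set E := Real.exp (-x) with hEd
  rcases le_total 0 x with hx | hx
  · have h4 : (E - 1 + x) * x ≥ 0 := mul_nonneg (by linarith) hx
    nlinarith [mul_nonneg (sq_nonneg x) hE.le]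
  · have h4 : E * (x + 1) * (1 - x) ≤ 1 * (1 - x) :=
      mul_le_mul_of_nonneg_right h2 (by linarith)
    nlinarith [sq_nonneg x]

theorem sgA_taylor (j : ℕ) (s t : ℝ) {l : ℝ} (hl : l ∈ Icc (0 : ℝ) 1) :
    |sgF j s l - sgF j t l - (s - t) * (- sgF (j + 1) t l)|
      ≤ (sgF (j + 2) t l + sgF (j + 2) s l) * (s - t) ^ 2 := by
  rcases le_or_gt l 0 with h | h
  · simp [sgA_of_nonpos _ _ h]
  · rw [sgA_of_pos _ _ h, sgA_of_pos _ _ h, sgA_of_pos _ _ h, sgA_of_pos _ _ h, sgA_of_pos _ _ h]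
    set σ := 1 / l - 1 with hσd
    have hσ : 0 ≤ σ := sgA_sigma_nonneg h hl.2
    have hs : Real.exp (-(s * σ)) = Real.exp (-(t * σ)) * Real.exp (-((s - t) * σ)) := by
      rw [← Real.exp_add]; congr 1; ring
    rw [hs]
    have h1 := sgA_exp_taylor ((s - t) * σ)
    have e1 : σ ^ j * (Real.exp (-(t * σ)) * Real.exp (-((s - t) * σ))) - σ ^ j * Real.exp (-(t * σ))
        - (s - t) * -(σ ^ (j + 1) * Real.exp (-(t * σ)))
        = (σ ^ j * Real.exp (-(t * σ))) * (Real.exp (-((s - t) * σ)) - 1 + (s - t) * σ) := by ring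
    have e2 : (σ ^ (j + 2) * Real.exp (-(t * σ))
        + σ ^ (j + 2) * (Real.exp (-(t * σ)) * Real.exp (-((s - t) * σ)))) * (s - t) ^ 2
        = (σ ^ j * Real.exp (-(t * σ))) * (((s - t) * σ) ^ 2 * (1 + Real.exp (-((s - t) * σ)))) := by
      ring
    rw [e1, e2, abs_mul, abs_of_nonneg (by positivity)]
    exact mul_le_mul_of_nonneg_left h1 (by positivity)

/-! #### algebra and bounds (leaf G8-SG-A) -/

theorem sg_of_pos (R : H →L[ℝ] H) (ht : 0 < t) : sg R t = sgE R 0 t := by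
  rw [sg, if_neg (not_le.2 ht)]

theorem sg_zero (R : H →L[ℝ] H) : sg R 0 = 1 := by
  rw [sg, if_pos le_rfl]

theorem sgE_mul (hR : IsUnitOp R) (hs : 0 < s) (ht : 0 < t) (i j : ℕ) :
    sgE R i s * sgE R j t = sgE R (i + j) (s + t) := by
  rw [sgE, sgE, sgE, ← rfc_mul hR (continuousOn_sgF i hs) (continuousOn_sgF j ht)]
  exact rfc_congr R fun l _ => sgA_mul i j s t l

theorem norm_sgE_le (R : H →L[ℝ] H) (j : ℕ) (ht : 0 < t) :
    ‖sgE R j t‖ ≤ (j.factorial : ℝ) / t ^ j := by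
  refine norm_rfc_le R (by positivity) fun l hl => ?_
  rw [abs_of_nonneg (sgF_nonneg j t hl)]
  exact sgF_le j ht hl

/-- `R (1 + σ(R)) = 1` on the range of the semigroup. -/
theorem mul_sgE_add (hR : IsUnitOp R) (j : ℕ) (ht : 0 < t) :
    R * (sgE R j t + sgE R (j + 1) t) = sgE R j t := by
  have h1 := continuousOn_sgF j ht
  have h2 := continuousOn_sgF (j + 1) ht
  rw [sgE, sgE, ← rfc_add hR h1 h2]
  nth_rewrite 1 [← rfc_id hR]
  rw [← rfc_mul (f := fun l => l) (g := fun l => sgF j t l + sgF (j + 1) t l) hR continuousOn_id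
    (h1.add h2)]
  exact rfc_congr R fun l _ => sgA_id_mul_add j t l

theorem sgA_pow_mul_sum (j k : ℕ) (t l : ℝ) :
    l ^ k * ∑ i ∈ Finset.range (k + 1), (k.choose i : ℝ) * sgF (j + i) t l = sgF j t l := by
  rcases le_or_gt l 0 with h | h
  · simp [sgA_of_nonpos _ _ h]
  · have h1 : ∀ i : ℕ, sgF (j + i) t l = (1 / l - 1) ^ i * sgF j t l := fun i => by
      rw [sgA_of_pos _ _ h, sgA_of_pos _ _ h, pow_add]; ring
    have h2 : ∑ i ∈ Finset.range (k + 1), (k.choose i : ℝ) * sgF (j + i) t l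
        = ((1 / l - 1) + 1) ^ k * sgF j t l := by
      rw [add_pow, Finset.sum_mul]
      refine Finset.sum_congr rfl fun i _ => ?_
      rw [h1, one_pow]; ring
    rw [h2, ← mul_assoc, ← mul_pow]
    have : l * (1 / l - 1 + 1) = 1 := by field_simp; ring
    rw [this, one_pow, one_mul]

/-- `(R⁻¹-1)^j e^{-t(R⁻¹-1)} = R^k ∑_i C(k,i) (R⁻¹-1)^{j+i} e^{-t(R⁻¹-1)}`. -/
theorem sgE_eq_pow_mul (hR : IsUnitOp R) (j k : ℕ) (ht : 0 < t) :
    sgE R j t = R ^ k * ∑ i ∈ Finset.range (k + 1), (k.choose i : ℝ) • sgE R (j + i) t := by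
  have h1 : ∀ i ∈ Finset.range (k + 1),
      ContinuousOn (fun l => (k.choose i : ℝ) * sgF (j + i) t l) (Icc 0 1) := fun i _ =>
    continuousOn_const.mul (continuousOn_sgF (j + i) ht)
  have h2 : ∑ i ∈ Finset.range (k + 1), (k.choose i : ℝ) • sgE R (j + i) t
      = rfc R (fun l => ∑ i ∈ Finset.range (k + 1), (k.choose i : ℝ) * sgF (j + i) t l) := by
    rw [rfc_sum hR _ h1]
    refine Finset.sum_congr rfl fun i _ => ?_
    rw [rfc_const_mul hR _ (continuousOn_sgF (j + i) ht)]; rfl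
  rw [h2, ← rfc_id_pow hR k,
    ← rfc_mul (f := fun l => l ^ k)
      (g := fun l => ∑ i ∈ Finset.range (k + 1), (k.choose i : ℝ) * sgF (j + i) t l) hR
      (continuous_pow k).continuousOn (continuousOn_finsetSum _ h1)]
  exact rfc_congr R fun l _ => (sgA_pow_mul_sum j k t l).symm

theorem isSelfAdjoint_sgE (R : H →L[ℝ] H) (j : ℕ) (t : ℝ) : IsSelfAdjoint (sgE R j t) := by
  exact isSelfAdjoint_rfc R _

theorem sgE_commute (R : H →L[ℝ] H) (i j : ℕ) (s t : ℝ) : Commute (sgE R i s) (sgE R j t) := by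
  exact rfc_commute R _ _

theorem sgE_commute_self (hR : IsUnitOp R) (j : ℕ) (t : ℝ) : Commute (sgE R j t) R := by
  exact rfc_commute_self hR _

theorem inner_sgE_nonneg (hR : IsUnitOp R) (j : ℕ) (t : ℝ) (x : H) : 0 ≤ ⟪sgE R j t x, x⟫_ℝ := by
  exact inner_rfc_nonneg hR (fun l hl => sgF_nonneg j t hl) x

/-- **semigroup law**. -/
theorem sg_add (hR : IsUnitOp R) (hs : 0 ≤ s) (ht : 0 ≤ t) : sg R (s + t) = sg R s * sg R t := by
  rcases hs.eq_or_lt with h | h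
  · subst h; rw [sg_zero, zero_add, one_mul]
  rcases ht.eq_or_lt with h' | h'
  · subst h'; rw [sg_zero, add_zero, mul_one]
  rw [sg_of_pos R h, sg_of_pos R h', sg_of_pos R (add_pos h h'), sgE_mul hR h h']

theorem sg_add_apply (hR : IsUnitOp R) (hs : 0 ≤ s) (ht : 0 ≤ t) (x : H) :
    sg R (s + t) x = sg R s (sg R t x) := by
  rw [sg_add hR hs ht]; rfl

theorem norm_sg_le_one (R : H →L[ℝ] H) (t : ℝ) : ‖sg R t‖ ≤ 1 := by
  rcases le_or_gt t 0 with h | h
  · rw [sg, if_pos h]; exact ContinuousLinearMap.norm_id_le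
  · rw [sg_of_pos R h]
    have := norm_sgE_le R 0 h
    simpa using this

theorem norm_sg_apply_le (R : H →L[ℝ] H) (t : ℝ) (x : H) : ‖sg R t x‖ ≤ ‖x‖ := by
  calc ‖sg R t x‖ ≤ ‖sg R t‖ * ‖x‖ := (sg R t).le_opNorm x
    _ ≤ 1 * ‖x‖ := mul_le_mul_of_nonneg_right (norm_sg_le_one R t) (norm_nonneg x)
    _ = ‖x‖ := one_mul _

theorem isSelfAdjoint_sg (R : H →L[ℝ] H) (t : ℝ) : IsSelfAdjoint (sg R t) := by
  rcases le_or_gt t 0 with h | h
  · rw [sg, if_pos h]; exact IsSelfAdjoint.one _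
  · rw [sg_of_pos R h]; exact isSelfAdjoint_sgE R 0 t

theorem inner_sg_comm (R : H →L[ℝ] H) (t : ℝ) (x y : H) : ⟪sg R t x, y⟫_ℝ = ⟪x, sg R t y⟫_ℝ := by
  exact (ContinuousLinearMap.isSelfAdjoint_iff_isSymmetric.1 (isSelfAdjoint_sg R t)) x y

theorem inner_sg_nonneg (hR : IsUnitOp R) (t : ℝ) (x : H) : 0 ≤ ⟪sg R t x, x⟫_ℝ := by
  rcases le_or_gt t 0 with h | h
  · rw [sg, if_pos h]; exact real_inner_self_nonneg
  · rw [sg_of_pos R h]; exact inner_sgE_nonneg hR 0 t x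

theorem sg_commute_sgE (R : H →L[ℝ] H) (s t : ℝ) (j : ℕ) : Commute (sg R s) (sgE R j t) := by
  rcases le_or_gt s 0 with h | h
  · rw [sg, if_pos h]; exact Commute.one_left _
  · rw [sg_of_pos R h]; exact sgE_commute R 0 j s t

theorem sg_commute (R : H →L[ℝ] H) (s t : ℝ) : Commute (sg R s) (sg R t) := by
  rcases le_or_gt t 0 with h | h
  · rw [sg, sg, if_pos h]; exact Commute.one_right _
  · rw [sg_of_pos R h]; exact sg_commute_sgE R s t 0

theorem sg_commute_self (hR : IsUnitOp R) (t : ℝ) : Commute (sg R t) R := by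
  rcases le_or_gt t 0 with h | h
  · rw [sg, if_pos h]; exact Commute.one_left _
  · rw [sg_of_pos R h]; exact sgE_commute_self hR 0 t

theorem sg_mul_sgE (hR : IsUnitOp R) (hs : 0 ≤ s) (ht : 0 < t) (j : ℕ) :
    sg R s * sgE R j t = sgE R j (s + t) := by
  rcases hs.eq_or_lt with h | h
  · subst h; rw [sg_zero, zero_add, one_mul]
  · rw [sg_of_pos R h, sgE_mul hR h ht, zero_add]

/-- `t ↦ ‖e^{tΔ} x‖` is nonincreasing. -/
theorem norm_sg_apply_anti (hR : IsUnitOp R) (hs : 0 ≤ s) (hst : s ≤ t) (x : H) :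
    ‖sg R t x‖ ≤ ‖sg R s x‖ := by
  have : sg R t x = sg R (t - s) (sg R s x) := by
    rw [← sg_add_apply hR (sub_nonneg.2 hst) hs, sub_add_cancel]
  rw [this]
  exact norm_sg_apply_le R _ _

theorem sgA_sg_mul_pow (hR : IsUnitOp R) (ht : 0 ≤ t) (k : ℕ) :
    sg R t * R ^ (k + 1) = rfc R (fun l => sgF 0 t l * l ^ (k + 1)) := by
  rcases ht.eq_or_lt with h | h
  · subst h
    rw [sg_zero, one_mul, ← rfc_id_pow hR]
    exact rfc_congr R fun l hl => (sgA_zero_mul_pow k hl).symm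
  · rw [sg_of_pos R h, sgE, ← rfc_id_pow hR,
      ← rfc_mul hR (continuousOn_sgF 0 h) (continuous_pow (k + 1)).continuousOn]

/-- `‖(e^{tΔ} - 1) R‖ ≤ t`. -/
theorem norm_sg_sub_one_mul_le (hR : IsUnitOp R) (ht : 0 ≤ t) : ‖(sg R t - 1) * R‖ ≤ t := by
  have h1 : (sg R t - 1) * R = rfc R (fun l => (sgF 0 t l - 1) * l) := by
    have h2 := sgA_sg_mul_pow hR ht 0
    have h3 := sgA_continuousOn_mul_pow ht 0
    simp only [zero_add, pow_one] at h2 h3
    rw [sub_mul, one_mul, h2]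
    nth_rewrite 2 [← rfc_id hR]
    rw [← rfc_sub (f := fun l => sgF 0 t l * l) (g := fun l => l) hR h3 continuousOn_id]
    exact rfc_congr R fun l _ => by ring
  rw [h1]
  exact norm_rfc_le R ht fun l hl => sgA_sub_one_mul_le ht hl

theorem norm_sg_sub_sg_mul_le (hR : IsUnitOp R) (hs : 0 ≤ s) (ht : 0 ≤ t) :
    ‖(sg R t - sg R s) * R‖ ≤ |t - s| := by
  have key : ∀ {a b : ℝ}, 0 ≤ a → a ≤ b → ‖(sg R b - sg R a) * R‖ ≤ b - a := by
    intro a b ha hab
    have h1 : sg R b = sg R a * sg R (b - a) := by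
      rw [← sg_add hR ha (sub_nonneg.2 hab)]; congr 1; ring
    have h2 : (sg R b - sg R a) * R = sg R a * ((sg R (b - a) - 1) * R) := by
      rw [h1]; noncomm_ring
    rw [h2]
    calc ‖sg R a * ((sg R (b - a) - 1) * R)‖ ≤ ‖sg R a‖ * ‖(sg R (b - a) - 1) * R‖ :=
          norm_mul_le _ _
      _ ≤ 1 * (b - a) := mul_le_mul (norm_sg_le_one R a)
          (norm_sg_sub_one_mul_le hR (sub_nonneg.2 hab)) (norm_nonneg _) zero_le_one
      _ = b - a := one_mul _
  rcases le_total s t with h | h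
  · rw [abs_of_nonneg (sub_nonneg.2 h)]; exact key hs h
  · rw [abs_of_nonpos (sub_nonpos.2 h), neg_sub, ← neg_sub (sg R s), neg_mul, norm_neg]
    exact key ht h

/-- an injective selfadjoint operator has dense range. -/
theorem IsUnitOp.denseRange (hR : IsUnitOp R) (hinj : Function.Injective R) : DenseRange R := by
  have h1 : (LinearMap.range (R : H →ₗ[ℝ] H))ᗮ = ⊥ := by
    rw [Submodule.eq_bot_iff]
    intro y hy
    rw [Submodule.mem_orthogonal] at hy
    have h2 : R y = 0 := by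
      have h3 := hy (R (R y)) ⟨R y, rfl⟩
      rw [hR.inner_comm] at h3
      exact inner_self_eq_zero.1 h3
    exact hinj (by rw [h2, map_zero])
  have h2 := (Submodule.topologicalClosure_eq_top_iff (K := LinearMap.range (R : H →ₗ[ℝ] H))).2 h1
  have h3 : Dense ((LinearMap.range (R : H →ₗ[ℝ] H) : Submodule ℝ H) : Set H) :=
    (Submodule.dense_iff_topologicalClosure_eq_top).2 h2
  exact h3

theorem IsUnitOp.denseRange_pow (hR : IsUnitOp R) (hinj : Function.Injective R) (k : ℕ) :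
    DenseRange (R ^ k : H →L[ℝ] H) := by
  induction k with
  | zero =>
    rw [pow_zero]
    exact Function.Surjective.denseRange fun x => ⟨x, rfl⟩
  | succ k ih =>
    rw [pow_succ]
    exact ih.comp (hR.denseRange hinj) (R ^ k : H →L[ℝ] H).continuous

/-- **strong continuity**. -/
theorem continuousOn_sg_apply (hR : IsUnitOp R) (hinj : Function.Injective R) (x : H) :
    ContinuousOn (fun t => sg R t x) (Ici 0) := by
  rw [Metric.continuousOn_iff]
  intro t ht ε hε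
  obtain ⟨y, hy⟩ := (hR.denseRange hinj).exists_dist_lt x (show 0 < ε / 3 by positivity)
  rw [dist_eq_norm] at hy
  refine ⟨ε / (3 * (‖y‖ + 1)), by positivity, fun s hs hst => ?_⟩
  rw [dist_eq_norm] at hst ⊢
  have e : sg R s x - sg R t x
      = sg R s (x - R y) + ((sg R s - sg R t) * R) y - sg R t (x - R y) := by
    simp only [map_sub, ContinuousLinearMap.mul_apply, ContinuousLinearMap.sub_apply]
    abel
  have h1 : ‖((sg R s - sg R t) * R) y‖ ≤ |s - t| * ‖y‖ :=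
    (((sg R s - sg R t) * R).le_opNorm y).trans
      (mul_le_mul_of_nonneg_right (norm_sg_sub_sg_mul_le hR ht hs) (norm_nonneg y))
  have h2 : |s - t| * ‖y‖ < ε / 3 := by
    rw [Real.norm_eq_abs] at hst
    calc |s - t| * ‖y‖ ≤ |s - t| * (‖y‖ + 1) :=
          mul_le_mul_of_nonneg_left (by linarith) (abs_nonneg _)
      _ < ε / (3 * (‖y‖ + 1)) * (‖y‖ + 1) := mul_lt_mul_of_pos_right hst (by positivity)
      _ = ε / 3 := by field_simp
  rw [e]
  calc ‖sg R s (x - R y) + ((sg R s - sg R t) * R) y - sg R t (x - R y)‖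
      ≤ ‖sg R s (x - R y)‖ + ‖((sg R s - sg R t) * R) y‖ + ‖sg R t (x - R y)‖ :=
        (norm_sub_le _ _).trans (add_le_add_left (norm_add_le _ _) _)
    _ ≤ ‖x - R y‖ + |s - t| * ‖y‖ + ‖x - R y‖ :=
        add_le_add (add_le_add (norm_sg_apply_le R s _) h1) (norm_sg_apply_le R t _)
    _ < ε := by linarith

theorem tendsto_sg_apply_zero (hR : IsUnitOp R) (hinj : Function.Injective R) (x : H) :
    Tendsto (fun t => sg R t x) (𝓝[>] 0) (𝓝 x) := by
  have h := (continuousOn_sg_apply hR hinj x) 0 (mem_Ici.2 le_rfl)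
  rw [ContinuousWithinAt, sg_zero] at h
  exact h.mono_left (nhdsWithin_mono 0 Ioi_subset_Ici_self)

/-! #### time regularity (leaf G8-SG-B) -/

theorem hasDerivAt_sgE (hR : IsUnitOp R) (j : ℕ) (ht : 0 < t) :
    HasDerivAt (fun s => sgE R j s) (- sgE R (j + 1) t) t := by
  have ht2 : 0 < t / 2 := by positivity
  have h := hasDerivWithinAt_rfc (R := R) hR (F := fun s => sgF j s)
    (F' := fun s l => - sgF (j + 1) s l) (I := Ioi (t / 2)) (t := t)
    (C := ((j + 2).factorial : ℝ) / t ^ (j + 2) + ((j + 2).factorial : ℝ) / (t / 2) ^ (j + 2))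
    (fun s hs => continuousOn_sgF j (ht2.trans hs)) (mem_Ioi.2 (by linarith))
    (continuousOn_sgF (j + 1) ht).neg ?_
  · rw [rfc_neg] at h
    exact h.hasDerivAt (Ioi_mem_nhds (by linarith))
  · filter_upwards [self_mem_nhdsWithin] with s hs l hl
    have hs0 : 0 < s := ht2.trans hs
    refine (sgA_taylor j s t hl).trans (mul_le_mul_of_nonneg_right ?_ (sq_nonneg _))
    refine add_le_add (sgF_le (j + 2) ht hl) ((sgF_le (j + 2) hs0 hl).trans ?_)
    exact div_le_div_of_nonneg_left (by positivity) (by positivity)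
      (pow_le_pow_left₀ ht2.le (le_of_lt hs) _)

theorem contDiffOn_sgE (hR : IsUnitOp R) (j : ℕ) : ContDiffOn ℝ ∞ (fun s => sgE R j s) (Ioi 0) := by
  rw [contDiffOn_infty]
  intro n
  induction n generalizing j with
  | zero =>
    exact contDiffOn_zero.2 fun s hs => (hasDerivAt_sgE hR j hs).continuousAt.continuousWithinAt
  | succ n ih =>
    rw [show ((n + 1 : ℕ) : WithTop ℕ∞) = (n : WithTop ℕ∞) + 1 by norm_cast,
      contDiffOn_succ_iff_deriv_of_isOpen isOpen_Ioi]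
    refine ⟨fun s hs => (hasDerivAt_sgE hR j hs).differentiableAt.differentiableWithinAt,
      by simp, ?_⟩
    exact (ih (j + 1)).neg.congr fun s hs => (hasDerivAt_sgE hR j hs).deriv

theorem hasDerivAt_sg (hR : IsUnitOp R) (ht : 0 < t) :
    HasDerivAt (fun s => sg R s) (- sgE R 1 t) t := by
  refine (hasDerivAt_sgE hR 0 ht).congr_of_eventuallyEq ?_
  filter_upwards [Ioi_mem_nhds ht] with s hs using sg_of_pos R hs

theorem contDiffOn_sg (hR : IsUnitOp R) : ContDiffOn ℝ ∞ (fun s => sg R s) (Ioi 0) := by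
  exact (contDiffOn_sgE hR 0).congr fun s hs => sg_of_pos R hs

theorem sgA_taylor_mul_pow (k : ℕ) (hs : 0 ≤ s) (ht : 0 ≤ t) {l : ℝ} (hl : l ∈ Icc (0 : ℝ) 1) :
    |sgF 0 s l * l ^ (k + 2) - sgF 0 t l * l ^ (k + 2)
      - (s - t) * (sgF 0 t l * l ^ (k + 1) * (l - 1))| ≤ 2 * (s - t) ^ 2 := by
  have h1 : ∀ r : ℝ, l * sgF 1 r l = (1 - l) * sgF 0 r l := fun r => sgA_id_mul_succ 0 r l
  have h2 : ∀ r : ℝ, l ^ 2 * sgF 2 r l = (1 - l) ^ 2 * sgF 0 r l := fun r => by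
    have := sgA_id_mul_succ 1 r l
    calc l ^ 2 * sgF 2 r l = l * (l * sgF (1 + 1) r l) := by ring
      _ = (1 - l) * (l * sgF 1 r l) := by rw [this]; ring
      _ = _ := by rw [h1]; ring
  have h3 : ∀ r : ℝ, 0 ≤ r → l ^ (k + 2) * sgF 2 r l ≤ 1 := fun r hr => by
    have e : l ^ (k + 2) * sgF 2 r l = l ^ k * ((1 - l) ^ 2 * sgF 0 r l) := by
      rw [← h2]; ring
    rw [e]
    have a1 : l ^ k ≤ 1 := pow_le_one₀ hl.1 hl.2
    have a2 : (1 - l) ^ 2 ≤ 1 := pow_le_one₀ (by linarith [hl.2]) (by linarith [hl.1])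
    have a3 := sgF_zero_le_one hr hl
    have a4 := sgF_nonneg 0 r hl
    have a5 : (1 - l) ^ 2 * sgF 0 r l ≤ 1 := mul_le_one₀ a2 a4 a3
    exact mul_le_one₀ a1 (by positivity) a5
  have e : sgF 0 s l * l ^ (k + 2) - sgF 0 t l * l ^ (k + 2)
      - (s - t) * (sgF 0 t l * l ^ (k + 1) * (l - 1))
      = l ^ (k + 2) * (sgF 0 s l - sgF 0 t l - (s - t) * (- sgF (0 + 1) t l)) := by
    have : l ^ (k + 2) * sgF (0 + 1) t l = l ^ (k + 1) * ((1 - l) * sgF 0 t l) := by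
      rw [← h1]; ring
    linear_combination (-(s - t)) * this
  rw [e, abs_mul, abs_of_nonneg (pow_nonneg hl.1 _)]
  calc l ^ (k + 2) * |sgF 0 s l - sgF 0 t l - (s - t) * (- sgF (0 + 1) t l)|
      ≤ l ^ (k + 2) * ((sgF (0 + 2) t l + sgF (0 + 2) s l) * (s - t) ^ 2) :=
        mul_le_mul_of_nonneg_left (sgA_taylor 0 s t hl) (pow_nonneg hl.1 _)
    _ = (l ^ (k + 2) * sgF 2 t l + l ^ (k + 2) * sgF 2 s l) * (s - t) ^ 2 := by
        simp only [zero_add]; ring
    _ ≤ 2 * (s - t) ^ 2 :=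
        mul_le_mul_of_nonneg_right (by linarith [h3 t ht, h3 s hs]) (sq_nonneg _)

/-- up to `t = 0` on the range of `R²`: `d/dt e^{tΔ} R^{k+2} = e^{tΔ} R^{k+1} (R - 1)`. -/
theorem hasDerivWithinAt_sg_mul_pow (hR : IsUnitOp R) (k : ℕ) (ht : 0 ≤ t) :
    HasDerivWithinAt (fun s => sg R s * R ^ (k + 2)) (sg R t * R ^ (k + 1) * (R - 1)) (Ici 0) t := by
  have hc : ContinuousOn (fun l : ℝ => l - 1) (Icc 0 1) := continuousOn_id.sub continuousOn_const
  have h := hasDerivWithinAt_rfc (R := R) hR (F := fun s l => sgF 0 s l * l ^ (k + 2))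
    (F' := fun s l => sgF 0 s l * l ^ (k + 1) * (l - 1)) (I := Ici 0) (t := t) (C := 2)
    (fun s hs => sgA_continuousOn_mul_pow hs (k + 1)) ht
    ((sgA_continuousOn_mul_pow ht k).mul hc) ?_
  · have e1 : rfc R (fun l => sgF 0 t l * l ^ (k + 1) * (l - 1))
        = sg R t * R ^ (k + 1) * (R - 1) := by
      rw [rfc_mul (f := fun l => sgF 0 t l * l ^ (k + 1)) (g := fun l => l - 1) hR
        (sgA_continuousOn_mul_pow ht k) hc, ← sgA_sg_mul_pow hR ht k,
        rfc_sub (f := fun l => l) (g := fun _ => 1) hR continuousOn_id continuousOn_const,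
        rfc_id hR, rfc_one hR]
    rw [e1] at h
    exact h.congr (fun s hs => sgA_sg_mul_pow hR hs (k + 1)) (sgA_sg_mul_pow hR ht (k + 1))
  · filter_upwards [self_mem_nhdsWithin] with s hs l hl
    exact sgA_taylor_mul_pow k hs ht hl

theorem contDiffOn_sg_mul_pow (hR : IsUnitOp R) (k : ℕ) :
    ContDiffOn ℝ k (fun s => sg R s * R ^ (k + 1)) (Ici 0) := by
  induction k with
  | zero =>
    refine contDiffOn_zero.2 ?_
    refine LipschitzOnWith.continuousOn (K := 1) (LipschitzOnWith.of_dist_le_mul ?_)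
    intro s hs t ht
    rw [dist_eq_norm, dist_eq_norm, ← sub_mul, zero_add, pow_one, NNReal.coe_one, one_mul,
      Real.norm_eq_abs]
    exact norm_sg_sub_sg_mul_le hR ht hs
  | succ k ih =>
    rw [show ((k + 1 : ℕ) : WithTop ℕ∞) = (k : WithTop ℕ∞) + 1 by norm_cast,
      contDiffOn_succ_iff_derivWithin (uniqueDiffOn_Ici 0)]
    refine ⟨fun s hs => (hasDerivWithinAt_sg_mul_pow hR k hs).differentiableWithinAt,
      by simp, ?_⟩
    exact (ih.mul contDiffOn_const).congr fun s hs =>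
      (hasDerivWithinAt_sg_mul_pow hR k hs).derivWithin (uniqueDiffOn_Ici 0 s hs)

/-- energy identity `d/dt ‖e^{tΔ}x‖² = - 2 ⟪(-Δ) e^{tΔ} x, e^{tΔ} x⟫ ≤ 0`. -/
theorem hasDerivAt_norm_sq_sg (hR : IsUnitOp R) (ht : 0 < t) (x : H) :
    HasDerivAt (fun s => ‖sg R s x‖ ^ 2) (- 2 * ⟪sgE R 1 t x, sg R t x⟫_ℝ) t := by
  have h1 : HasDerivAt (fun s => sg R s x) (- sgE R 1 t x) t := by
    have := (hasDerivAt_sg hR ht).clm_apply (hasDerivAt_const t x)
    simpa using this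
  have h2 := h1.norm_sq
  have e : 2 * ⟪sg R t x, - sgE R 1 t x⟫_ℝ = - 2 * ⟪sgE R 1 t x, sg R t x⟫_ℝ := by
    rw [inner_neg_right, real_inner_comm]; ring
  rw [e] at h2
  exact h2

end semigroup

end Claimed.Agent.R316
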