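import Claimed.Agent.R316.Base.Heat.L2.Reg
import Claimed.Agent.R316.Base.Heat.L2.CkLim

/-!
# Row 316, BP-G8, file 6: `e^{tΔ} f`, `f ∈ L²`, is a smooth solution of the heat equation

Statement file by helper55.  `R = heatR 𝓜 g`, `E_j(t) = sgE R j t = (-Δ)^j e^{tΔ}`, `P_t = sg R t`.

* `evR 𝓜 g k x : L²  →L[ℝ] ℝ`, `w ↦ (R^k w)(x)` (value of the continuous representative), `2k ≥ 2n+1`.
* `sgB R j k t = ∑_i C(k,i) E_{j+i}(t)`, so that `E_j(t) = R^k sgB R j k t` (`sgE_eq_pow_mul`).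
* `heatEv 𝓜 g j t x = evR k₀ x ∘ sgB R j k₀ t : L² →L[ℝ] ℝ`, `f ↦ ((-Δ)^j e^{tΔ} f)(x)`, `k₀ = n + 1`.
* `heatL 𝓜 g t f x = heatEv 𝓜 g 0 t x f`.

## Leaf G8-SOL-A (section `ev`), ~300 lines
`evR`: linear by `crep_add`, `crep_smul`, bounded by `exists_bound_crep_heatR_pow` (`K = {𝓜.co x}`, `j = 0`; `norm_iteratedFDeriv_zero`): `LinearMap.mkContinuous`.
`contDiffOn_evR`: `contDiffOn_clm_of_scalarwise` with `contDiffOn_crep_heatR_pow`, `exists_bound_crep_heatR_pow` (order `m + 1`).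
## Leaf G8-SOL-B (section `sol`), ~450 lines
`heatEv_eq`: both sides applied to `f` are `crep (E_j(t) f) x`.  Joint smoothness: for every `m` take `k` large, `contDiffOn_clm_comp_prod`, `contDiffOn_sgE`; `contDiffOn_infty`.
Time derivative: `hasDerivAt_sgE` + the continuous linear map `B ↦ evR k x ∘L B`.  Laplacian: `E_j(t) f = R (E_j(t) f + E_{j+1}(t) f)` (`mul_sgE_add`), `crep_heatR_sub_lap`.
-/

set_option autoImplicit false
set_option maxSynthPendingDepth 6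
set_option linter.unusedSectionVars false
set_option linter.deprecated false
open scoped ContDiff ComplexOrder Topology InnerProductSpace
open MeasureTheory Set Filter

namespace Claimed.Agent.R316

variable {V : Type} [NormedAddCommGroup V] [NormedSpace ℝ V] [FiniteDimensional ℝ V]
  [MeasurableSpace V] [BorelSpace V]
variable {ι : Type} [Fintype ι] [DecidableEq ι]

/-! ### evaluation functionals -/

section ev

open Classical in
/-- `w ↦ (R^k w)(x)`. -/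
noncomputable def evR (𝓜 : CMfd V ι) (g : HFam V ι) (k : ℕ) (x : V) : L2M 𝓜 g →L[ℝ] ℝ :=
  if h : ∃ L : L2M 𝓜 g →L[ℝ] ℝ, ∀ w, L w = crep 𝓜 g ((heatR 𝓜 g ^ k) w) x then h.choose else 0

variable {𝓜 : CMfd V ι} {g : HFam V ι} {Φ : CE ι → V} {U K : Set (CE ι)} {x : V} {k m : ℕ}

theorem solA_exists (hg : IsMetric 𝓜 g) (hk : 2 * Fintype.card ι + 1 ≤ 2 * k) (hx : x ∈ 𝓜.carrier) :
    ∃ L : L2M 𝓜 g →L[ℝ] ℝ, ∀ w, L w = crep 𝓜 g ((heatR 𝓜 g ^ k) w) x := by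
  obtain ⟨Φ, U, hΦ, z₀, hz₀, rfl⟩ := 𝓜.cover x hx
  obtain ⟨C, hC⟩ := exists_bound_crep_heatR_pow (m := 0) hg hΦ (isCompact_singleton (x := z₀))
    (singleton_subset_iff.2 hz₀) (by omega : 0 + 2 * Fintype.card ι + 1 ≤ 2 * k)
  refine ⟨LinearMap.mkContinuous
    { toFun := fun w => crep 𝓜 g ((heatR 𝓜 g ^ k) w) (Φ z₀)
      map_add' := fun w w' => ?_
      map_smul' := fun c w => ?_ } C (fun w => ?_), fun w => rfl⟩
  · rw [map_add]
    exact crep_add hg (hasRep_heatR_pow hg hk w) (hasRep_heatR_pow hg hk w') hx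
  · rw [map_smul]
    exact crep_smul hg c (hasRep_heatR_pow hg hk w) hx
  · have := hC w 0 le_rfl z₀ rfl
    rw [norm_iteratedFDeriv_zero] at this
    exact this

theorem evR_apply (hg : IsMetric 𝓜 g) (hk : 2 * Fintype.card ι + 1 ≤ 2 * k) (hx : x ∈ 𝓜.carrier)
    (w : L2M 𝓜 g) : evR 𝓜 g k x w = crep 𝓜 g ((heatR 𝓜 g ^ k) w) x := by
  rw [evR, dif_pos (solA_exists hg hk hx)]
  exact (solA_exists hg hk hx).choose_spec w

/-- shifting powers. -/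
theorem evR_add_apply (hg : IsMetric 𝓜 g) (hk : 2 * Fintype.card ι + 1 ≤ 2 * k) (hx : x ∈ 𝓜.carrier)
    (l : ℕ) (w : L2M 𝓜 g) : evR 𝓜 g (k + l) x w = evR 𝓜 g k x ((heatR 𝓜 g ^ l) w) := by
  rw [evR_apply hg (by omega) hx, evR_apply hg hk hx, pow_add]
  rfl

theorem contDiffOn_evR (hg : IsMetric 𝓜 g) (hΦ : 𝓜.IsHol Φ U)
    (hk : m + 2 * Fintype.card ι + 2 ≤ 2 * k) : ContDiffOn ℝ m (fun z => evR 𝓜 g k (Φ z)) U := by
  have hp := 𝓜.isParam hΦ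
  have he : ∀ w : L2M 𝓜 g, EqOn (fun z => evR 𝓜 g k (Φ z) w)
      (fun z => crep 𝓜 g ((heatR 𝓜 g ^ k) w) (Φ z)) U := fun w z hz =>
    evR_apply hg (by omega) (hp.mem hz) w
  refine contDiffOn_clm_of_scalarwise hp.isOpen (fun w => ?_) (fun K hK hKU => ?_)
  · exact (contDiffOn_crep_heatR_pow (m := m + 1) hg hΦ (by omega) w).congr (he w)
  · obtain ⟨C, hC⟩ := exists_bound_crep_heatR_pow (m := m + 1) hg hΦ hK hKU
      (by omega : m + 1 + 2 * Fintype.card ι + 1 ≤ 2 * k)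
    refine ⟨C, fun w j hj z hz => ?_⟩
    have he' : (fun y => evR 𝓜 g k (Φ y) w) =ᶠ[𝓝 z]
        fun y => crep 𝓜 g ((heatR 𝓜 g ^ k) w) (Φ y) := by
      filter_upwards [hp.isOpen.mem_nhds (hKU hz)] with y hy using he w hy
    rw [(Filter.EventuallyEq.iteratedFDeriv (𝕜 := ℝ) he' j).eq_of_nhds]
    exact hC w j hj z hz

theorem solA_continuousOn_evR (hg : IsMetric 𝓜 g) (hk : 2 * Fintype.card ι + 1 ≤ 2 * k) :
    ContinuousOn (evR 𝓜 g k) 𝓜.carrier := by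
  rw [CMfd.continuousOn_iff]
  intro Φ U hΦ
  exact (contDiffOn_evR (m := 0) hg hΦ (by omega)).continuousOn

theorem exists_norm_evR_le (hg : IsMetric 𝓜 g) (hk : 2 * Fintype.card ι + 1 ≤ 2 * k) {S : Set V}
    (hS : IsCompact S) (hsub : S ⊆ 𝓜.carrier) : ∃ C : ℝ, ∀ x ∈ S, ‖evR 𝓜 g k x‖ ≤ C := by
  exact hS.exists_bound_of_continuousOn ((solA_continuousOn_evR hg hk).mono hsub)

end ev

/-! ### the solution -/

section sol

variable {H : Type*} [NormedAddCommGroup H] [InnerProductSpace ℝ H] [CompleteSpace H]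

/-- `R^{-k} (R⁻¹-1)^j e^{-t(R⁻¹-1)}`. -/
noncomputable def sgB (R : H →L[ℝ] H) (j k : ℕ) (t : ℝ) : H →L[ℝ] H :=
  ∑ i ∈ Finset.range (k + 1), (k.choose i : ℝ) • sgE R (j + i) t

theorem sgE_eq_pow_mul_sgB {R : H →L[ℝ] H} (hR : IsUnitOp R) (j k : ℕ) {t : ℝ} (ht : 0 < t) :
    sgE R j t = R ^ k * sgB R j k t := sgE_eq_pow_mul hR j k ht

theorem contDiffOn_sgB {R : H →L[ℝ] H} (hR : IsUnitOp R) (j k : ℕ) :
    ContDiffOn ℝ ∞ (fun t => sgB R j k t) (Ioi 0) := by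
  unfold sgB
  exact ContDiffOn.sum fun i _ => (contDiffOn_sgE hR (j + i)).const_smul _

theorem hasDerivAt_sgB {R : H →L[ℝ] H} (hR : IsUnitOp R) (j k : ℕ) {t : ℝ} (ht : 0 < t) :
    HasDerivAt (fun s => sgB R j k s) (- sgB R (j + 1) k t) t := by
  unfold sgB
  have h := HasDerivAt.fun_sum (u := Finset.range (k + 1))
    (A := fun i s => (k.choose i : ℝ) • sgE R (j + i) s)
    (A' := fun i => (k.choose i : ℝ) • (- sgE R (j + i + 1) t)) (x := t)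
    fun i _ => (hasDerivAt_sgE hR (j + i) ht).fun_const_smul _
  have e : - ∑ i ∈ Finset.range (k + 1), (k.choose i : ℝ) • sgE R (j + 1 + i) t
      = ∑ i ∈ Finset.range (k + 1), (k.choose i : ℝ) • (- sgE R (j + i + 1) t) := by
    rw [← Finset.sum_neg_distrib]
    refine Finset.sum_congr rfl fun i _ => ?_
    rw [smul_neg, show j + 1 + i = j + i + 1 by ring]
  rw [e]
  exact h

/-- `f ↦ ((-Δ)^j e^{tΔ} f)(x)`. -/
noncomputable def heatEv (𝓜 : CMfd V ι) (g : HFam V ι) (j : ℕ) (t : ℝ) (x : V) : L2M 𝓜 g →L[ℝ] ℝ :=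
  (evR 𝓜 g (Fintype.card ι + 1) x).comp (sgB (heatR 𝓜 g) j (Fintype.card ι + 1) t)

/-- `(e^{tΔ} f)(x)`, `f ∈ L²`, `t > 0`. -/
noncomputable def heatL (𝓜 : CMfd V ι) (g : HFam V ι) (t : ℝ) (f : L2M 𝓜 g) (x : V) : ℝ :=
  heatEv 𝓜 g 0 t x f

variable {𝓜 : CMfd V ι} {g : HFam V ι} {Φ : CE ι → V} {U : Set (CE ι)} {x : V} {t s : ℝ} {j k : ℕ}

theorem solB_sgE_apply (hg : IsMetric 𝓜 g) (j k : ℕ) (ht : 0 < t) (f : L2M 𝓜 g) :
    (heatR 𝓜 g ^ k) (sgB (heatR 𝓜 g) j k t f) = sgE (heatR 𝓜 g) j t f := by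
  rw [sgE_eq_pow_mul_sgB (isUnitOp_heatR hg) j k ht]; rfl

theorem hasRep_sgE (hg : IsMetric 𝓜 g) (j : ℕ) (ht : 0 < t) (f : L2M 𝓜 g) :
    HasRep 𝓜 g (sgE (heatR 𝓜 g) j t f) := by
  rw [← solB_sgE_apply hg j (Fintype.card ι + 1) ht f]
  exact hasRep_heatR_pow hg (by omega) _

theorem solB_comp_apply (hg : IsMetric 𝓜 g) (j : ℕ) (ht : 0 < t) (hx : x ∈ 𝓜.carrier)
    (hk : 2 * Fintype.card ι + 1 ≤ 2 * k) (f : L2M 𝓜 g) :
    (evR 𝓜 g k x).comp (sgB (heatR 𝓜 g) j k t) f = crep 𝓜 g (sgE (heatR 𝓜 g) j t f) x := by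
  rw [ContinuousLinearMap.comp_apply, evR_apply hg hk hx, solB_sgE_apply hg j k ht f]

theorem heatEv_apply (hg : IsMetric 𝓜 g) (j : ℕ) (ht : 0 < t) (hx : x ∈ 𝓜.carrier) (f : L2M 𝓜 g) :
    heatEv 𝓜 g j t x f = crep 𝓜 g (sgE (heatR 𝓜 g) j t f) x := by
  exact solB_comp_apply hg j ht hx (by omega) f

/-- any larger `k` may be used. -/
theorem heatEv_eq (hg : IsMetric 𝓜 g) (j : ℕ) (ht : 0 < t) (hx : x ∈ 𝓜.carrier)
    (hk : 2 * Fintype.card ι + 1 ≤ 2 * k) :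
    heatEv 𝓜 g j t x = (evR 𝓜 g k x).comp (sgB (heatR 𝓜 g) j k t) := by
  ext f
  rw [heatEv_apply hg j ht hx, solB_comp_apply hg j ht hx hk]

/-- **joint smoothness, in the operator norm**. -/
theorem contDiffOn_heatEv (hg : IsMetric 𝓜 g) (hΦ : 𝓜.IsHol Φ U) (j : ℕ) :
    ContDiffOn ℝ ∞ (fun q : ℝ × CE ι => heatEv 𝓜 g j q.1 (Φ q.2)) (Ioi 0 ×ˢ U) := by
  have hp := 𝓜.isParam hΦ
  rw [contDiffOn_infty]
  intro m
  have h1 := contDiffOn_evR (m := m) (k := m + Fintype.card ι + 1) hg hΦ (by omega)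
  have h2 : ContDiffOn ℝ m (fun t => sgB (heatR 𝓜 g) j (m + Fintype.card ι + 1) t) (Ioi 0) :=
    (contDiffOn_sgB (isUnitOp_heatR hg) j _).of_le (by exact_mod_cast le_top)
  refine (contDiffOn_clm_comp_prod h1 h2).congr fun q hq => ?_
  exact heatEv_eq hg j hq.1 (hp.mem hq.2) (by omega)

theorem continuousOn_heatEv (hg : IsMetric 𝓜 g) (j : ℕ) :
    ContinuousOn (fun p : ℝ × V => heatEv 𝓜 g j p.1 p.2) (Ioi 0 ×ˢ 𝓜.carrier) := by
  unfold heatEv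
  have h1 : ContinuousOn (fun p : ℝ × V => evR 𝓜 g (Fintype.card ι + 1) p.2)
      (Ioi 0 ×ˢ 𝓜.carrier) :=
    (solA_continuousOn_evR hg (by omega)).comp continuousOn_snd fun p hp => hp.2
  have h2 : ContinuousOn (fun p : ℝ × V => sgB (heatR 𝓜 g) j (Fintype.card ι + 1) p.1)
      (Ioi 0 ×ˢ 𝓜.carrier) :=
    (contDiffOn_sgB (isUnitOp_heatR hg) j _).continuousOn.comp continuousOn_fst fun p hp => hp.1
  exact h1.clm_comp h2

theorem hasDerivAt_heatEv (hg : IsMetric 𝓜 g) (j : ℕ) (ht : 0 < t) (x : V) :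
    HasDerivAt (fun s => heatEv 𝓜 g j s x) (- heatEv 𝓜 g (j + 1) t x) t := by
  unfold heatEv
  have h := (hasDerivAt_const t (evR 𝓜 g (Fintype.card ι + 1) x)).clm_comp
    (hasDerivAt_sgB (isUnitOp_heatR hg) j (Fintype.card ι + 1) ht)
  simpa using h

theorem smoothST_heatEv_apply (hg : IsMetric 𝓜 g) (j : ℕ) (f : L2M 𝓜 g) :
    𝓜.SmoothST (Ioi 0) (fun t x => heatEv 𝓜 g j t x f) := by
  intro Φ U hΦ
  exact (contDiffOn_heatEv hg hΦ j).clm_apply contDiffOn_const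

theorem lap_heatEv_apply (hK : IsKahler 𝓜 g) (j : ℕ) (ht : 0 < t) (hx : x ∈ 𝓜.carrier)
    (f : L2M 𝓜 g) :
    lap 𝓜 g (fun y => heatEv 𝓜 g j t y f) x = - heatEv 𝓜 g (j + 1) t x f := by
  have hg := hK.toIsMetric
  have hR := isUnitOp_heatR hg
  have e0 : heatR 𝓜 g (sgE (heatR 𝓜 g) j t f + sgE (heatR 𝓜 g) (j + 1) t f)
      = sgE (heatR 𝓜 g) j t f := by
    have := mul_sgE_add hR j ht
    calc heatR 𝓜 g (sgE (heatR 𝓜 g) j t f + sgE (heatR 𝓜 g) (j + 1) t f)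
        = (heatR 𝓜 g * (sgE (heatR 𝓜 g) j t + sgE (heatR 𝓜 g) (j + 1) t)) f := rfl
      _ = _ := by rw [this]
  have h1 := hasRep_sgE hg j ht f
  have h2 := hasRep_sgE hg (j + 1) ht f
  have hs : 𝓜.Smooth (crep 𝓜 g (sgE (heatR 𝓜 g) j t f)) :=
    (smooth_crep_of_forall_pow hg fun k => ⟨_, solB_sgE_apply hg j k ht f⟩).2
  have key := crep_heatR_sub_lap hK (h1.add h2) (by rw [e0]; exact h1) (by rw [e0]; exact hs) hx
  rw [e0, crep_add hg h1 h2 hx] at key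
  rw [lap_congr_of_eqOn g (fun y hy => heatEv_apply hg j ht hy f) hx, heatEv_apply hg (j + 1) ht hx]
  linarith

/-- semigroup property at the level of functionals. -/
theorem heatEv_add (hg : IsMetric 𝓜 g) (j : ℕ) (hs : 0 ≤ s) (ht : 0 < t) (hx : x ∈ 𝓜.carrier)
    (f : L2M 𝓜 g) : heatEv 𝓜 g j (t + s) x f = heatEv 𝓜 g j t x (sg (heatR 𝓜 g) s f) := by
  have hR := isUnitOp_heatR hg
  rw [heatEv_apply hg j (by linarith) hx, heatEv_apply hg j ht hx]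
  have h1 := sg_mul_sgE hR hs ht j
  rw [(sg_commute_sgE (heatR 𝓜 g) s t j).eq] at h1
  rw [add_comm t s, ← h1]; rfl

/-! #### `heatL` -/

theorem heatL_ae_eq (hg : IsMetric 𝓜 g) (ht : 0 < t) (f : L2M 𝓜 g) :
    (sg (heatR 𝓜 g) t f : V → ℝ) =ᵐ[hvol 𝓜 g] heatL 𝓜 g t f := by
  rw [sg_of_pos _ ht]
  filter_upwards [(hasRep_sgE hg 0 ht f).ae_eq_crep, ae_mem_carrier 𝓜 g] with x hx hxM
  rw [hx, heatL, heatEv_apply hg 0 ht hxM]

theorem toL2_heatL (hg : IsMetric 𝓜 g) (ht : 0 < t) (f : L2M 𝓜 g) :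
    toL2 𝓜 g (heatL 𝓜 g t f) = sg (heatR 𝓜 g) t f := by
  rw [← toL2_congr (heatL_ae_eq hg ht f), toL2_coe]

theorem memLp_heatL (hg : IsMetric 𝓜 g) (ht : 0 < t) (f : L2M 𝓜 g) :
    MemLp (heatL 𝓜 g t f) 2 (hvol 𝓜 g) := by
  exact (Lp.memLp (sg (heatR 𝓜 g) t f)).ae_eq (heatL_ae_eq hg ht f)

theorem integral_heatL_sq_le (hg : IsMetric 𝓜 g) (ht : 0 < t) (f : L2M 𝓜 g) :
    ∫ x, heatL 𝓜 g t f x ^ 2 ∂(hvol 𝓜 g) ≤ ‖f‖ ^ 2 := by
  rw [← norm_sq_toL2 (memLp_heatL hg ht f), toL2_heatL hg ht]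
  exact pow_le_pow_left₀ (norm_nonneg _) (norm_sg_apply_le _ t f) 2

theorem smoothST_heatL (hg : IsMetric 𝓜 g) (f : L2M 𝓜 g) :
    𝓜.SmoothST (Ioi 0) (fun t => heatL 𝓜 g t f) := by
  exact smoothST_heatEv_apply hg 0 f

/-- **the heat equation**. -/
theorem hasDerivAt_heatL (hK : IsKahler 𝓜 g) (ht : 0 < t) (hx : x ∈ 𝓜.carrier) (f : L2M 𝓜 g) :
    HasDerivAt (fun s => heatL 𝓜 g s f x) (lap 𝓜 g (heatL 𝓜 g t f) x) t := by
  have h1 := (hasDerivAt_heatEv hK.toIsMetric 0 ht x).clm_apply (hasDerivAt_const t f)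
  have h2 := lap_heatEv_apply hK 0 ht hx f
  have e : lap 𝓜 g (heatL 𝓜 g t f) x = - heatEv 𝓜 g (0 + 1) t x f := h2
  rw [e]
  simpa [heatL] using h1

theorem heatL_add (𝓜 : CMfd V ι) (g : HFam V ι) (t : ℝ) (f f' : L2M 𝓜 g) (x : V) :
    heatL 𝓜 g t (f + f') x = heatL 𝓜 g t f x + heatL 𝓜 g t f' x := by
  simp [heatL]

theorem heatL_sub (𝓜 : CMfd V ι) (g : HFam V ι) (t : ℝ) (f f' : L2M 𝓜 g) (x : V) :
    heatL 𝓜 g t (f - f') x = heatL 𝓜 g t f x - heatL 𝓜 g t f' x := by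
  simp [heatL]

theorem heatL_smul (𝓜 : CMfd V ι) (g : HFam V ι) (t c : ℝ) (f : L2M 𝓜 g) (x : V) :
    heatL 𝓜 g t (c • f) x = c * heatL 𝓜 g t f x := by
  simp [heatL]

theorem heatL_add_time (hg : IsMetric 𝓜 g) (hs : 0 ≤ s) (ht : 0 < t) (hx : x ∈ 𝓜.carrier)
    (f : L2M 𝓜 g) : heatL 𝓜 g (t + s) f x = heatL 𝓜 g t (sg (heatR 𝓜 g) s f) x :=
  heatEv_add hg 0 hs ht hx f

theorem solB_norm_sgB_le {R : H →L[ℝ] H} (j k : ℕ) {a : ℝ} (ha : 0 < a) (hat : a ≤ t) :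
    ‖sgB R j k t‖ ≤ ∑ i ∈ Finset.range (k + 1),
      (k.choose i : ℝ) * (((j + i).factorial : ℝ) / a ^ (j + i)) := by
  unfold sgB
  refine (norm_sum_le _ _).trans (Finset.sum_le_sum fun i _ => ?_)
  rw [norm_smul, Real.norm_eq_abs, abs_of_nonneg (Nat.cast_nonneg _)]
  refine mul_le_mul_of_nonneg_left ((norm_sgE_le R (j + i) (ha.trans_le hat)).trans ?_)
    (Nat.cast_nonneg _)
  exact div_le_div_of_nonneg_left (Nat.cast_nonneg _) (by positivity)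
    (pow_le_pow_left₀ ha.le hat _)

/-- locally uniform bound by the `L²` norm. -/
theorem exists_abs_heatL_le (hg : IsMetric 𝓜 g) {a : ℝ} (ha : 0 < a) {S : Set V} (hS : IsCompact S)
    (hsub : S ⊆ 𝓜.carrier) :
    ∃ C : ℝ, ∀ t : ℝ, a ≤ t → ∀ x ∈ S, ∀ f : L2M 𝓜 g, |heatL 𝓜 g t f x| ≤ C * ‖f‖ := by
  obtain ⟨C₁, hC₁⟩ := exists_norm_evR_le (k := Fintype.card ι + 1) hg (by omega) hS hsub
  refine ⟨max C₁ 0 * ∑ i ∈ Finset.range (Fintype.card ι + 1 + 1),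
      ((Fintype.card ι + 1).choose i : ℝ) * (((0 + i).factorial : ℝ) / a ^ (0 + i)),
    fun t hat x hx f => ?_⟩
  have h1 := solB_norm_sgB_le (R := heatR 𝓜 g) 0 (Fintype.card ι + 1) ha hat
  rw [heatL, heatEv, ← Real.norm_eq_abs]
  refine (ContinuousLinearMap.le_opNorm _ f).trans
    (mul_le_mul_of_nonneg_right ?_ (norm_nonneg f))
  refine (ContinuousLinearMap.opNorm_comp_le _ _).trans ?_
  exact mul_le_mul ((hC₁ x hx).trans (le_max_left _ _)) h1 (norm_nonneg _) (le_max_right _ _)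

/-- `L²` convergence to the initial datum. -/
theorem tendsto_toL2_heatL (hg : IsMetric 𝓜 g) (f : L2M 𝓜 g) :
    Tendsto (fun t => toL2 𝓜 g (heatL 𝓜 g t f)) (𝓝[>] 0) (𝓝 f) := by
  refine (tendsto_sg_apply_zero (isUnitOp_heatR hg) (heatR_injective hg) f).congr' ?_
  filter_upwards [self_mem_nhdsWithin] with t ht using (toL2_heatL hg ht f).symm

end sol

end Claimed.Agent.R316
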